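import Crest.Agent.HB.Extend

set_option autoImplicit false

open NumberField IsDedekindDomain Polynomial
open scoped nonZeroDivisors

namespace Crest.Agent.HB

namespace Base

/-- The seven signed primes. -/
def q : Fin 7 → ℤ := ![-11, -19, -31, 29, 41, 61, 89]

/-- Products of signed primes. -/
def m (T : Finset (Fin 7)) : ℤ := ∏ i ∈ T, q i

lemma q_prime (i : Fin 7) : Prime (q i) := by
  rw [Int.prime_iff_natAbs_prime]
  fin_cases i <;> simp [q] <;> norm_num

lemma q_inj (i j : Fin 7) (h : q i ∣ q j) : i = j := by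
  revert i j
  decide

lemma m_not_square (T : Finset (Fin 7)) (hT : T.Nonempty) : ¬ IsSquare (m T) := by
  obtain ⟨i, hi⟩ := hT
  rintro ⟨r, hr⟩
  have hm : m T = q i * ∏ j ∈ T.erase i, q j := by
    rw [m, Finset.mul_prod_erase T q hi]
  have h1 : q i ∣ r := by
    have : q i ∣ r * r := by rw [← hr, hm]; exact dvd_mul_right _ _
    exact (Prime.dvd_or_dvd (q_prime i) this).elim id id
  obtain ⟨c, rfl⟩ := h1
  have h2 : ∏ j ∈ T.erase i, q j = q i * (c * c) := by
    have : q i * ∏ j ∈ T.erase i, q j = q i * (q i * (c * c)) := by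
      rw [← hm, hr]; ring
    exact mul_left_cancel₀ (q_prime i).ne_zero this
  have h3 : q i ∣ ∏ j ∈ T.erase i, q j := by rw [h2]; exact dvd_mul_right _ _
  obtain ⟨j, hj, hj'⟩ := (Prime.dvd_finsetProd_iff (q_prime i) _).mp h3
  have := q_inj i j hj'
  subst this
  simp at hj

lemma m_univ : m Finset.univ = -41822469799 := by
  decide

lemma exists_field : ∃ (K : Type) (_ : Field K) (_ : NumberField K) (s : K),
    Module.finrank ℚ K = 2 ∧ s ^ 2 = ((-41822469799 : ℚ) : K) ∧ ∀ y : K, ∃ a b : ℚ, y = a + b * s := by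
  have hirr : Irreducible (X ^ 2 - C (-41822469799) : ℚ[X]) := by
    apply X_pow_sub_C_irreducible_of_prime Nat.prime_two
    intro b hb
    nlinarith [sq_nonneg b]
  have : Fact (Irreducible (X ^ 2 - C (-41822469799) : ℚ[X])) := ⟨hirr⟩
  let K := AdjoinRoot (X ^ 2 - C (-41822469799) : ℚ[X])
  let _ : Field K := inferInstance
  have : CharZero K := charZero_of_injective_algebraMap (algebraMap ℚ K).injective
  let pb := AdjoinRoot.powerBasis hirr.ne_zero
  have hdim : pb.dim = 2 := by
    simp only [pb, AdjoinRoot.powerBasis_dim]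
    compute_degree!
  have hfin : FiniteDimensional ℚ K := by
    have := pb.finite
    convert this
  have : NumberField K := ⟨⟩
  have hroot : (AdjoinRoot.root (X ^ 2 - C (-41822469799) : ℚ[X])) ^ 2 =
      (algebraMap ℚ K (-41822469799)) := by
    have := AdjoinRoot.eval₂_root (X ^ 2 - C (-41822469799) : ℚ[X])
    rw [eval₂_sub, eval₂_pow, eval₂_X, eval₂_C, sub_eq_zero] at this
    exact this
  refine ⟨K, inferInstance, inferInstance, AdjoinRoot.root _, ?_, ?_, ?_⟩
  · rw [← hdim]
    have := pb.finrank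
    convert this
  · rw [hroot]
    simp
  · intro y
    obtain ⟨g, hg, hy⟩ := pb.exists_eq_aeval y
    rw [hdim] at hg
    obtain ⟨a, b, rfl⟩ := exists_eq_X_add_C_of_natDegree_le_one (Nat.lt_succ_iff.mp hg)
    refine ⟨b, a, ?_⟩
    rw [hy]
    simp only [map_add, map_mul, aeval_C, aeval_X]
    have hgen : pb.gen = AdjoinRoot.root (X ^ 2 - C (-41822469799) : ℚ[X]) := by
      simp [pb, AdjoinRoot.powerBasis_gen]
    have ha : ∀ r : ℚ, algebraMap ℚ K r = (r : K) := fun r => eq_ratCast _ r
    rw [hgen]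
    have h1 := ha a
    have h2 := ha b
    rw [add_comm]
    exact congrArg₂ (· + ·) h2 (congrArg (· * _) h1)

lemma ram_self (K : Type) [Field K] [NumberField K] (P : Ideal (𝓞 K)) (hP : P.IsPrime) :
    P.ramificationIdx (𝓞 K) = 1 := by
  have : Algebra.IsUnramifiedAt (𝓞 K) P := Algebra.FormallyUnramified.of_isLocalization P.primeCompl
  exact Ideal.ramificationIdx_eq_one P (𝓞 K)

lemma ram_rat (p : Ideal (𝓞 ℚ)) (hp : p.IsPrime) : p.ramificationIdx ℤ = 1 := by
  have h1 : Function.Surjective (algebraMap ℤ (𝓞 ℚ)) := by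
    intro x
    refine ⟨Rat.ringOfIntegersEquiv x, ?_⟩
    apply Rat.ringOfIntegersEquiv.injective
    simp
  have h2 : Algebra.FormallyUnramified ℤ (𝓞 ℚ) := Algebra.FormallyUnramified.of_surjective
    (Algebra.ofId ℤ (𝓞 ℚ)) h1
  have h3 : Algebra.FormallyUnramified (𝓞 ℚ) (Localization.AtPrime p) :=
    Algebra.FormallyUnramified.of_isLocalization p.primeCompl
  have : Algebra.IsUnramifiedAt ℤ p := Algebra.FormallyUnramified.comp ℤ (𝓞 ℚ) _
  exact Ideal.ramificationIdx_eq_one p ℤ

lemma ram_tower (K : Type) [Field K] [NumberField K] (P : Ideal (𝓞 K)) (hP : P.IsPrime) 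
    (h : P.ramificationIdx (𝓞 ℚ) = 1) : P.ramificationIdx ℤ = 1 := by
  have := Ideal.ramificationIdx_tower (R := ℤ) (P.under (𝓞 ℚ)) P
  rw [this, h, ram_rat _ inferInstance]

lemma norm_five (p : Ideal (𝓞 ℚ)) (hp : p.IsPrime) (h : (5 : 𝓞 ℚ) ∈ p) : Ideal.absNorm p = 5 := by
  have h1 : Prime (5 : 𝓞 ℚ) := by
    have h5 : Prime (5 : ℤ) := by norm_num
    have := (MulEquiv.prime_iff Rat.ringOfIntegersEquiv.toMulEquiv (p := (5 : 𝓞 ℚ)))
    rw [← this]
    have h6 : (Rat.ringOfIntegersEquiv.toMulEquiv (5 : 𝓞 ℚ)) = (5 : ℤ) :=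
      map_ofNat Rat.ringOfIntegersEquiv 5
    rw [h6]
    exact h5
  have h2 : (Ideal.span {(5 : 𝓞 ℚ)}).IsMaximal := by
    have : (Ideal.span {(5 : 𝓞 ℚ)}).IsPrime := (Ideal.span_singleton_prime h1.ne_zero).mpr h1
    exact this.isMaximal (by simp)
  have h3 : p = Ideal.span {(5 : 𝓞 ℚ)} := by
    have hle : Ideal.span {(5 : 𝓞 ℚ)} ≤ p := by
      rw [Ideal.span_le]
      simpa using h
    exact (h2.eq_of_le hp.ne_top hle).symm
  rw [h3, Ideal.absNorm_span_singleton]
  have : (5 : 𝓞 ℚ) = algebraMap ℤ (𝓞 ℚ) 5 := by simp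
  rw [this, Algebra.norm_algebraMap, RingOfIntegers.rank]
  simp

lemma int_mem {R : Type*} [CommRing R] (P : Ideal R) {a : ℤ} (b : ℤ) (h : ((a : ℤ) : R) ∈ P) (hab : a ∣ b) :
    ((b : ℤ) : R) ∈ P := by
  obtain ⟨c, rfl⟩ := hab
  push_cast
  exact Ideal.mul_mem_right _ _ h

lemma int_coprime {R : Type*} [CommRing R] (P : Ideal R) (hP : P.IsPrime) {a b : ℤ} (ha : ((a : ℤ) : R) ∈ P)
    (hb : ((b : ℤ) : R) ∈ P) (hab : IsCoprime a b) : False := by
  obtain ⟨u, v, huv⟩ := hab
  apply hP.ne_top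
  rw [Ideal.eq_top_iff_one]
  have : (1 : R) = (u : R) * a + v * b := by
    rw [← Int.cast_mul, ← Int.cast_mul, ← Int.cast_add, huv, Int.cast_one]
  rw [this]
  exact Ideal.add_mem _ (Ideal.mul_mem_left _ _ ha) (Ideal.mul_mem_left _ _ hb)

lemma two_sq {R : Type*} [CommRing R] (P : Ideal R) (h2 : (2 : R) ∈ P) (b : ℤ) (hb : (4 : ℤ) ∣ b) :
    ((b : ℤ) : R) ∈ P ^ 2 := by
  obtain ⟨c, rfl⟩ := hb
  have : (((4 * c : ℤ) : ℤ) : R) = (2 * 2) * (c : R) := by push_cast; ring
  rw [this, pow_two]
  exact Ideal.mul_mem_right _ _ (Ideal.mul_mem_mul h2 h2)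

lemma base_local (K : Type) [Field K] [NumberField K] (s : K) (h2 : Module.finrank ℚ K = 2)
    (hs : s ^ 2 = ((-41822469799 : ℚ) : K)) (P : Ideal (𝓞 K)) (hP : P.IsPrime)
    (h : (2 : 𝓞 K) ∈ P ∨ (5 : 𝓞 K) ∈ P) :
    P.ramificationIdx (𝓞 ℚ) = 1 ∧
      ((5 : 𝓞 ℚ) ∈ P.under (𝓞 ℚ) → Ideal.absNorm P = Ideal.absNorm (P.under (𝓞 ℚ))) := by
  have hP0 : P ≠ ⊥ := by
    rintro rfl
    rcases h with h | h
    · simp at h
    · simp at h
  refine quad_local ℚ K h2 (-41822469799) s ?_ ?_ P hP hP0 ?_ ?_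
  · rw [hs]; exact (eq_ratCast (algebraMap ℚ K) _).symm
  · rintro ⟨r, hr⟩
    nlinarith [mul_self_nonneg r]
  · intro _
    exact ram_rat _ inferInstance
  · refine ⟨1, ((-41822469799 : ℤ) : 𝓞 ℚ), 1, one_ne_zero, ?_, ?_, ?_, ?_⟩
    · intro hmem
      have hmem' : (((-41822469799 : ℤ) : ℤ) : 𝓞 K) ∈ P := by
        have := Ideal.mem_comap.mp hmem
        rwa [map_intCast] at this
      rcases h with h | h
      · exact int_coprime P hP (a := -41822469799) (b := 2) hmem' (by exact_mod_cast h)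
          ⟨1, 20911234900, by norm_num⟩
      · exact int_coprime P hP (a := -41822469799) (b := 5) hmem' (by exact_mod_cast h)
          ⟨1, 8364493960, by norm_num⟩
    · have h7 : ((((-41822469799 : ℤ) : 𝓞 ℚ)) : ℚ) = ((-41822469799 : ℤ) : ℚ) :=
        map_intCast (algebraMap (𝓞 ℚ) ℚ) _
      rw [h7]
      norm_num
    · intro h2'
      have := two_sq _ h2' (-41822469800) (by norm_num)
      convert this using 1
      push_cast
      norm_num
    · intro h5'
      have := int_mem (P.under (𝓞 ℚ)) (a := 5) (-41822469800) (by exact_mod_cast h5') (by norm_num)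
      convert this using 1
      push_cast
      norm_num

lemma base_field (K : Type) [Field K] [NumberField K] (s : K) (h2 : Module.finrank ℚ K = 2)
    (hs : s ^ 2 = ((-41822469799 : ℚ) : K)) : BaseField K where
  deg := h2
  cplx := by
    intro v
    rw [← InfinitePlace.not_isReal_iff_isComplex]
    intro hv
    have hv' := InfinitePlace.isReal_iff.mp hv
    have h1 : (v.embedding s) ^ 2 = (-41822469799 : ℂ) := by
      rw [← map_pow, hs, map_ratCast]
      norm_num
    have h3 : (starRingEnd ℂ) (v.embedding s) = v.embedding s := by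
      have := congrArg (fun f => f s) (ComplexEmbedding.isReal_iff.mp hv')
      simpa using this
    rw [Complex.conj_eq_iff_im] at h3
    have h4 := congrArg Complex.re h1
    rw [pow_two, Complex.mul_re, h3] at h4
    simp at h4
    nlinarith [mul_self_nonneg (v.embedding s).re]
  odd2 := by
    intro P hP h
    exact ram_tower K P hP (base_local K s h2 hs P hP (Or.inl h)).1
  split5 := by
    intro P hP h
    have hl := base_local K s h2 hs P hP (Or.inr h)
    have h5 : (5 : 𝓞 ℚ) ∈ P.under (𝓞 ℚ) := by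
      rw [Ideal.under_def, Ideal.mem_comap]
      have h7 : algebraMap (𝓞 ℚ) (𝓞 K) 5 = 5 := map_ofNat (algebraMap (𝓞 ℚ) (𝓞 K)) 5
      rw [h7]
      exact h
    exact ⟨by rw [hl.2 h5]; exact norm_five _ inferInstance h5, ram_tower K P hP hl.1⟩

/-- square roots of `q i` modulo 20 -/
def z : Fin 7 → ℤ := ![3, 1, 3, 3, 1, 1, 3]

lemma q_z (i : Fin 7) : (20 : ℤ) ∣ q i - z i ^ 2 := by
  revert i; decide

/-- cofactor of `q i` -/
def e (i : Fin 7) : ℤ := m (Finset.univ.erase i)

lemma q_e (i : Fin 7) : q i * e i = -41822469799 := by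
  rw [e, m, Finset.mul_prod_erase Finset.univ q (Finset.mem_univ i), ← m_univ, m]

lemma coprime_e (i : Fin 7) : IsCoprime (q i) (e i) := by
  rw [Int.isCoprime_iff_gcd_eq_one]
  revert i; decide

lemma coprime_two (i : Fin 7) : IsCoprime (q i) 2 := by
  rw [Int.isCoprime_iff_gcd_eq_one]
  revert i; decide

lemma coprime_five (i : Fin 7) : IsCoprime (q i) 5 := by
  rw [Int.isCoprime_iff_gcd_eq_one]
  revert i; decide

lemma q_ne (i : Fin 7) : q i ≠ 0 := (q_prime i).ne_zero

lemma q_locSq (K : Type) [Field K] [NumberField K] (s : K)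
    (hs : s ^ 2 = ((-41822469799 : ℚ) : K)) (i : Fin 7) : LocSq ((q i : ℤ) : K) := by
  intro P hP hP0
  have hs0 : s ≠ 0 := by
    rintro rfl
    norm_num at hs
  by_cases hq : ((q i : ℤ) : 𝓞 K) ∈ P
  · have he : e i ≠ 0 := by
      intro h
      have := q_e i
      rw [h] at this
      norm_num at this
    refine ⟨(e i : K) / s, ((e i : ℤ) : 𝓞 K), 0, ?_, ?_, ?_, ?_, ?_⟩
    · exact div_ne_zero (by exact_mod_cast he) hs0
    · intro h
      exact int_coprime P hP hq h (coprime_e i)
    · have h7 : ((((e i : ℤ) : 𝓞 K)) : K) = ((e i : ℤ) : K) := map_intCast (algebraMap (𝓞 K) K) _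
      rw [h7, div_pow, hs]
      have h8 : ((-41822469799 : ℚ) : K) = (q i : K) * (e i : K) := by
        rw [← Int.cast_mul, q_e i]
        norm_num
      rw [h8]
      have h9 : (q i : K) ≠ 0 := by exact_mod_cast q_ne i
      have h10 : (e i : K) ≠ 0 := by exact_mod_cast he
      field_simp
    · intro h
      exact (int_coprime P hP hq (b := 2) (by exact_mod_cast h) (coprime_two i)).elim
    · intro h
      exact (int_coprime P hP hq (b := 5) (by exact_mod_cast h) (coprime_five i)).elim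
  · refine ⟨1, ((q i : ℤ) : 𝓞 K), ((z i : ℤ) : 𝓞 K), one_ne_zero, hq, ?_, ?_, ?_⟩
    · have h7 : ((((q i : ℤ) : 𝓞 K)) : K) = ((q i : ℤ) : K) := map_intCast (algebraMap (𝓞 K) K) _
      rw [h7]; ring
    · intro h
      have := two_sq P h (q i - z i ^ 2) (dvd_trans (by norm_num) (q_z i))
      push_cast at this
      exact this
    · intro h
      have := int_mem P (a := 5) (q i - z i ^ 2) (by exact_mod_cast h) (dvd_trans (by norm_num) (q_z i))
      push_cast at this
      exact this

lemma good_self (K : Type) [Field K] [NumberField K] (hK : BaseField K) : Good K K where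
  gal := inferInstance
  pow := ⟨0, by simp⟩
  unram := fun P hP _ => ram_self K P hP
  split := hK.split5

lemma adjoin_all (K : Type) [Field K] [NumberField K] (hK : BaseField K) (l : List K)
    (hl : ∀ x ∈ l, x ≠ 0 ∧ LocSq x) :
    ∃ (L : Type) (_ : Field L) (_ : NumberField L) (_ : Algebra K L), Good K L ∧
      ∀ x ∈ l, IsSquare (algebraMap K L x) := by
  induction l with
  | nil => exact ⟨K, inferInstance, inferInstance, inferInstance, good_self K hK, by simp⟩
  | cons x l ih =>
    obtain ⟨L, _, _, _, hL, hsq⟩ := ih (fun y hy => hl y (List.mem_cons_of_mem _ hy))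
    obtain ⟨M, _, _, _, _, _, hM, hMx⟩ := extend_base K L hK hL x (hl x List.mem_cons_self).1
      (hl x List.mem_cons_self).2
    refine ⟨M, inferInstance, inferInstance, inferInstance, hM, ?_⟩
    intro y hy
    rcases List.mem_cons.mp hy with rfl | hy
    · exact hMx
    · rw [IsScalarTower.algebraMap_apply K L M]
      exact (hsq y hy).map (algebraMap L M)

lemma rat_sq (a : ℤ) (h : IsSquare (a : ℚ)) : IsSquare a := Rat.isSquare_intCast_iff.mp h

lemma m_compl (T : Finset (Fin 7)) : m T * m Tᶜ = -41822469799 := by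
  rw [m, m, Finset.prod_mul_prod_compl, ← m_univ, m]

lemma m_ne (T : Finset (Fin 7)) : m T ≠ 0 := Finset.prod_ne_zero_iff.mpr fun i _ => q_ne i

lemma square_K (K : Type) [Field K] [NumberField K] (s : K)
    (hs : s ^ 2 = ((-41822469799 : ℚ) : K)) (hspan : ∀ y : K, ∃ a b : ℚ, y = a + b * s)
    (T : Finset (Fin 7)) (h : IsSquare ((m T : ℤ) : K)) : T = ∅ ∨ T = Finset.univ := by
  obtain ⟨y, hy⟩ := h
  obtain ⟨a, b, rfl⟩ := hspan y
  have h1 : ((m T : ℤ) : K) = ((a ^ 2 + b ^ 2 * (-41822469799) : ℚ) : K) + ((2 * a * b : ℚ) : K) * s := by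
    rw [hy]
    push_cast
    push_cast at hs
    linear_combination (b : K) ^ 2 * hs
  by_cases hab : 2 * a * b = 0
  · rw [hab] at h1
    simp only [Rat.cast_zero, zero_mul, add_zero] at h1
    have h2 : ((m T : ℤ) : ℚ) = a ^ 2 + b ^ 2 * (-41822469799) := by
      have : (((m T : ℤ) : ℚ) : K) = ((a ^ 2 + b ^ 2 * (-41822469799) : ℚ) : K) := by
        rw [← h1]; norm_cast
      exact_mod_cast this
    have h3 : a = 0 ∨ b = 0 := by
      rcases mul_eq_zero.mp hab with h | h
      · left; linarith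
      · right; exact h
    rcases h3 with rfl | rfl
    · right
      by_contra hT
      have hne : Tᶜ.Nonempty := by
        rw [Finset.nonempty_iff_ne_empty]
        intro h
        exact hT (by rwa [Finset.compl_eq_empty_iff] at h)
      apply m_not_square Tᶜ hne
      apply rat_sq
      have h4 : ((m T : ℤ) : ℚ) * ((m Tᶜ : ℤ) : ℚ) = -41822469799 := by exact_mod_cast m_compl T
      have h5 : ((m T : ℤ) : ℚ) ≠ 0 := by exact_mod_cast m_ne T
      have h6 : b ^ 2 * ((m Tᶜ : ℤ) : ℚ) = 1 := by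
        apply mul_left_cancel₀ h5
        rw [mul_one]
        nth_rewrite 2 [h2]
        rw [← h4]
        ring
      have hb : b ≠ 0 := by
        rintro rfl
        norm_num at h6
      refine ⟨b⁻¹, ?_⟩
      field_simp
      linarith
    · left
      by_contra hT
      apply m_not_square T (Finset.nonempty_iff_ne_empty.mpr hT)
      apply rat_sq
      exact ⟨a, by rw [h2]; ring⟩
  · exfalso
    set r : ℚ := ((m T : ℤ) - (a ^ 2 + b ^ 2 * (-41822469799))) / (2 * a * b) with hr
    have hsr : s = (r : K) := by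
      have h5 : ((2 * a * b : ℚ) : K) ≠ 0 := by exact_mod_cast hab
      rw [hr, Rat.cast_div, eq_div_iff h5]
      have h6 : (((((m T : ℤ) : ℚ) - (a ^ 2 + b ^ 2 * (-41822469799)) : ℚ)) : K) =
        ((m T : ℤ) : K) - ((a ^ 2 + b ^ 2 * (-41822469799) : ℚ) : K) := by
        rw [Rat.cast_sub, Rat.cast_intCast]
      rw [h6, h1]
      ring
    rw [hsr] at hs
    have : r ^ 2 = -41822469799 := by exact_mod_cast hs
    nlinarith [sq_nonneg r]

/-- the sign character attached to a square root -/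
noncomputable def chi (K L : Type) [Field K] [Field L] [CharZero L] [Algebra K L] (x : K) (hx : x ≠ 0)
    (t : L) (ht : t * t = algebraMap K L x) : (L ≃ₐ[K] L) →* ℤˣ := by
  classical
  exact
  { toFun := fun σ => if σ t = t then 1 else -1
    map_one' := by simp
    map_mul' := by
      have ht0 : t ≠ 0 := by
        rintro rfl
        rw [mul_zero] at ht
        exact hx ((map_eq_zero _).mp ht.symm)
      have key : ∀ σ : L ≃ₐ[K] L, σ t = t ∨ σ t = -t := by
        intro σ
        apply mul_self_eq_mul_self_iff.mp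
        rw [← map_mul, ht, AlgEquiv.commutes]
      have hne : -t ≠ t := by
        intro h
        exact ht0 (self_eq_neg.mp h.symm)
      intro σ τ
      rcases key σ with h1 | h1 <;> rcases key τ with h2 | h2 <;>
        simp [AlgEquiv.mul_apply, h1, h2, hne] }

lemma chi_spec (K L : Type) [Field K] [Field L] [CharZero L] [Algebra K L] (x : K) (hx : x ≠ 0)
    (t : L) (ht : t * t = algebraMap K L x) (σ : L ≃ₐ[K] L) :
    σ t = ((chi K L x hx t ht σ : ℤˣ) : ℤ) * t := by
  classical
  have key : σ t = t ∨ σ t = -t := by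
    apply mul_self_eq_mul_self_iff.mp
    rw [← map_mul, ht, AlgEquiv.commutes]
  simp only [chi, MonoidHom.coe_mk, OneHom.coe_mk]
  split_ifs with h
  · simp [h]
  · rcases key with h' | h'
    · exact absurd h' h
    · simp [h']

end Base

open Base in
/-- There is an admissible base field `K` with a good extension `L` whose Galois group has at least
`64` quadratic characters.

Proof. `p* ∈ {-11, -19, -31, 29, 41, 61, 89}`: all `≡ 1 mod 4` and `≡ ±1 mod 5`; `-D` = product `< 0`.
`K = ℚ(√-D)` : totally complex, `2` unramified and `5` split by `quad_local` for `L = ℚ`.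
Each `p*` satisfies `LocSq` in `K`: at `P ∌ p` take `t = 1`, `z = 1` resp. `z² ≡ p* mod 5` (an
integer), at `P ∋ p` take `t = (D/p)/√-D`. Adjoin `√p*` for six of them one after the other with
`extend_base`; the 64 products of subsets of these six are pairwise inequivalent modulo `Kˣ²` and
become squares in `L`; each gives a different homomorphism `σ ↦ σ(√a)/√a`, so
`64 ≤ #Hom(Gal(L/K), ±1)`. -/
theorem base_exists : ∃ (K : Type) (_ : Field K) (_ : NumberField K), BaseField K ∧
    ∃ (L : Type) (_ : Field L) (_ : NumberField L) (_ : Algebra K L), Good K L ∧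
      64 ≤ Nat.card ((L ≃ₐ[K] L) →* ℤˣ) := by
  obtain ⟨K, _, _, s, h2, hs, hspan⟩ := exists_field
  have hK := base_field K s h2 hs
  refine ⟨K, inferInstance, inferInstance, hK, ?_⟩
  obtain ⟨L, _, _, _, hL, hsq⟩ := adjoin_all K hK ((List.finRange 7).map fun i => ((q i : ℤ) : K)) (by
    intro x hx
    obtain ⟨i, -, rfl⟩ := List.mem_map.mp hx
    exact ⟨by exact_mod_cast q_ne i, q_locSq K s hs i⟩)
  refine ⟨L, inferInstance, inferInstance, inferInstance, hL, ?_⟩
  have hsq' : ∀ i : Fin 7, ∃ t : L, t * t = algebraMap K L ((q i : ℤ) : K) := by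
    intro i
    obtain ⟨t, ht⟩ := hsq ((q i : ℤ) : K) (List.mem_map.mpr ⟨i, List.mem_finRange i, rfl⟩)
    exact ⟨t, ht.symm⟩
  choose t ht using hsq'
  have hq0 : ∀ i, ((q i : ℤ) : K) ≠ 0 := fun i => by exact_mod_cast q_ne i
  let X : Fin 7 → ((L ≃ₐ[K] L) →* ℤˣ) := fun i => chi K L _ (hq0 i) (t i) (ht i)
  have hgal := hL.gal
  have key : ∀ T : Finset (Fin 7), (∏ i ∈ T, X i) = 1 → T = ∅ ∨ T = Finset.univ := by
    intro T hT
    apply square_K K s hs hspan T
    have hfix : ∀ σ : L ≃ₐ[K] L, σ (∏ i ∈ T, t i) = ∏ i ∈ T, t i := by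
      intro σ
      have h1 : ∏ i ∈ T, X i σ = 1 := by
        have := congrArg (fun f => f σ) hT
        simpa using this
      have h3 : (∏ i ∈ T, (((X i σ : ℤˣ) : ℤ) : L)) = 1 := by
        have := congrArg (fun u : ℤˣ => ((u : ℤ) : L)) h1
        push_cast at this
        simpa using this
      rw [map_prod, Finset.prod_congr rfl fun i _ => chi_spec K L _ (hq0 i) (t i) (ht i) σ,
        Finset.prod_mul_distrib, h3, one_mul]
    obtain ⟨y, hy⟩ := (IsGalois.mem_range_algebraMap_iff_fixed _).mpr hfix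
    refine ⟨y, (algebraMap K L).injective ?_⟩
    rw [map_mul, hy, ← Finset.prod_mul_distrib, Finset.prod_congr rfl fun i _ => ht i, ← map_prod,
      m]
    push_cast
    rfl
  let emb : Fin 6 ↪ Fin 7 := Fin.castSuccEmb
  let Ψ : Finset (Fin 6) → ((L ≃ₐ[K] L) →* ℤˣ) := fun S => ∏ i ∈ S.map emb, X i
  have hX2 : ∀ i, X i * X i = 1 := by
    intro i
    ext σ
    simp
  have hinj : Function.Injective Ψ := by
    intro S S' h
    have h1 : ∏ i ∈ (symmDiff S S').map emb, X i = 1 := by
      have h4 : ∀ A : Finset (Fin 6), ∏ i ∈ A.map emb, X i = ∏ i, if i ∈ A then X (emb i) else 1 := by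
        intro A
        rw [Finset.prod_map, Finset.prod_ite_mem, Finset.univ_inter]
      have h5 : ∏ i ∈ (symmDiff S S').map emb, X i = Ψ S * Ψ S' := by
        change _ = (∏ i ∈ S.map emb, X i) * ∏ i ∈ S'.map emb, X i
        rw [h4, h4, h4, ← Finset.prod_mul_distrib]
        refine Finset.prod_congr rfl fun i _ => ?_
        by_cases h6 : i ∈ S <;> by_cases h7 : i ∈ S' <;>
          simp [Finset.mem_symmDiff, h6, h7, hX2]
      rw [h5, h]
      change (∏ i ∈ S'.map emb, X i) * (∏ i ∈ S'.map emb, X i) = 1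
      rw [← Finset.prod_mul_distrib]
      exact Finset.prod_eq_one fun i _ => hX2 i
    rcases key _ h1 with h2 | h2
    · rw [Finset.map_eq_empty] at h2
      exact symmDiff_eq_bot.mp h2
    · exfalso
      have : Fin.last 6 ∈ (symmDiff S S').map emb := by rw [h2]; exact Finset.mem_univ _
      rw [Finset.mem_map] at this
      obtain ⟨i, -, hi⟩ := this
      exact Fin.castSucc_ne_last i (by simpa [emb] using hi)
  have hfin : Finite (L ≃ₐ[K] L) := inferInstance
  have hfin2 : Finite ((L ≃ₐ[K] L) →* ℤˣ) := DFunLike.finite _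
  calc 64 = Nat.card (Finset (Fin 6)) := by simp
    _ ≤ _ := Nat.card_le_card_of_injective Ψ hinj

end Crest.Agent.HB
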