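import Mathlib

/-! Row 32 (S0042), chunk S1, part 4: box counting. -/
set_option autoImplicit false

open Set Function

namespace Crest.Agent.HB

namespace CoverF

/-- majorant on cells. -/
noncomputable def Gz (b : ℤ) : ℝ := 3 * (1 + (b : ℝ) ^ 2) ^ (-(3 / 4) : ℝ)

lemma Gz_nonneg (b : ℤ) : 0 ≤ Gz b := by unfold Gz; positivity

lemma Gz_summable : Summable Gz := by
  unfold Gz
  apply Summable.mul_left
  have h1 : Summable (fun n : ℤ => |(n : ℝ)| ^ (-(3 / 2) : ℝ)) :=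
    Real.summable_abs_int_rpow (by norm_num)
  have h2 : Summable (fun n : ℤ => if n = 0 then (1 : ℝ) else 0) :=
    (hasSum_ite_eq (0 : ℤ) _).summable
  refine Summable.of_nonneg_of_le (fun b => by positivity) (fun b => ?_) (h1.add h2)
  by_cases hb : b = 0
  · subst hb
    simp
  · rw [if_neg hb, add_zero]
    have hb' : 0 < |(b : ℝ)| := by positivity
    have h3 : |(b : ℝ)| ^ (-(3 / 2) : ℝ) = ((b : ℝ) ^ 2) ^ (-(3 / 4) : ℝ) := by
      rw [← sq_abs, ← Real.rpow_natCast, ← Real.rpow_mul hb'.le]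
      norm_num
    rw [h3]
    apply Real.rpow_le_rpow_of_nonpos (by positivity) (by linarith) (by norm_num)

lemma cell_le (t : ℝ) : (1 + t ^ 2) ^ (-(3 / 4) : ℝ) ≤ Gz ⌊t⌋ := by
  unfold Gz
  have h1 : (⌊t⌋ : ℝ) ≤ t := Int.floor_le t
  have h2 : t < ⌊t⌋ + 1 := Int.lt_floor_add_one t
  have h3 : |(⌊t⌋ : ℝ)| ≤ |t| + 1 := by
    rw [abs_le]
    constructor
    · have := neg_abs_le t; linarith
    · have := le_abs_self t; linarith
  have h4 : 1 + (⌊t⌋ : ℝ) ^ 2 ≤ 3 * (1 + t ^ 2) := by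
    rw [← sq_abs (⌊t⌋ : ℝ), ← sq_abs t]
    have : |(⌊t⌋ : ℝ)| ^ 2 ≤ (|t| + 1) ^ 2 := by
      apply pow_le_pow_left₀ (abs_nonneg _) h3
    nlinarith [sq_nonneg (|t| - 1)]
  have h5 : (3 * (1 + t ^ 2)) ^ (-(3 / 4) : ℝ) ≤ (1 + (⌊t⌋ : ℝ) ^ 2) ^ (-(3 / 4) : ℝ) :=
    Real.rpow_le_rpow_of_nonpos (by positivity) h4 (by norm_num)
  rw [Real.mul_rpow (by norm_num) (by positivity)] at h5
  have h6 : (1 : ℝ) / 3 ≤ (3 : ℝ) ^ (-(3 / 4) : ℝ) := by
    rw [show (1 : ℝ) / 3 = (3 : ℝ) ^ (-1 : ℝ) by rw [Real.rpow_neg_one]; norm_num]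
    apply Real.rpow_le_rpow_of_exponent_le (by norm_num) (by norm_num)
  have h7 : 0 ≤ (1 + t ^ 2) ^ (-(3 / 4) : ℝ) := by positivity
  nlinarith

lemma factor_le (t : ℝ) : 2 / (1 + t ^ 2) ≤
    2 * ((1 + t ^ 2) ^ (-(1 / 4) : ℝ) * Gz ⌊t⌋) := by
  have h0 : 0 < 1 + t ^ 2 := by positivity
  have h1 : 2 / (1 + t ^ 2) =
      2 * ((1 + t ^ 2) ^ (-(1 / 4) : ℝ) * (1 + t ^ 2) ^ (-(3 / 4) : ℝ)) := by
    rw [← Real.rpow_add h0]
    norm_num
    rw [Real.rpow_neg_one]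
    ring
  rw [h1]
  have := cell_le t
  gcongr

/-- **Box counting.** -/
theorem box_count {κ J : Type*} [Fintype J] (t : κ → J → ℝ) {T : ℝ} (hT : 0 < T)
    (S : Finset κ)
    (h1 : ∀ k ∈ S, ∀ k' ∈ S, k ≠ k' → ∃ j, 1 ≤ |t k j - t k' j|)
    (h2 : ∀ k ∈ S, T ^ Fintype.card J ≤ ∏ j, (1 + (t k j) ^ 2)) :
    ∑ k ∈ S, ∏ j, 2 / (1 + (t k j) ^ 2) ≤
      (2 * T ^ (-(1 / 4) : ℝ) * ∑' b, Gz b) ^ Fintype.card J := by
  classical
  have hk : ∀ k ∈ S, ∏ j, 2 / (1 + (t k j) ^ 2) ≤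
      (2 * T ^ (-(1 / 4) : ℝ)) ^ Fintype.card J * ∏ j, Gz ⌊t k j⌋ := by
    intro k hk
    have e1 : ∏ j, 2 / (1 + (t k j) ^ 2) ≤
        ∏ j, 2 * ((1 + (t k j) ^ 2) ^ (-(1 / 4) : ℝ) * Gz ⌊t k j⌋) := by
      apply Finset.prod_le_prod
      · intro j _; positivity
      · intro j _; exact factor_le _
    refine e1.trans ?_
    rw [Finset.prod_mul_distrib, Finset.prod_mul_distrib, Finset.prod_const, Finset.card_univ,
      ← mul_assoc, mul_pow]
    apply mul_le_mul_of_nonneg_right _ (Finset.prod_nonneg fun j _ => Gz_nonneg _)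
    apply mul_le_mul_of_nonneg_left _ (by positivity)
    rw [Real.finsetProd_rpow _ _ (fun j _ => by positivity)]
    rw [← Real.rpow_natCast (T ^ (-(1 / 4) : ℝ)), ← Real.rpow_mul hT.le, mul_comm,
      Real.rpow_mul hT.le, Real.rpow_natCast]
    exact Real.rpow_le_rpow_of_nonpos (by positivity) (h2 k hk) (by norm_num)
  refine (Finset.sum_le_sum hk).trans ?_
  rw [← Finset.mul_sum, mul_pow _ (∑' b, Gz b)]
  apply mul_le_mul_of_nonneg_left _ (by positivity)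
  let U : J → Finset ℤ := fun j => S.image (fun k => ⌊t k j⌋)
  have hinj : ∀ k ∈ S, ∀ k' ∈ S, (fun j => ⌊t k j⌋) = (fun j => ⌊t k' j⌋) → k = k' := by
    intro k hk k' hk' he
    by_contra hne
    obtain ⟨j, hj⟩ := h1 k hk k' hk' hne
    have : ⌊t k j⌋ = ⌊t k' j⌋ := congrFun he j
    have := Int.abs_sub_lt_one_of_floor_eq_floor this
    linarith
  calc ∑ k ∈ S, ∏ j, Gz ⌊t k j⌋
      = ∑ b ∈ S.image (fun k j => ⌊t k j⌋), ∏ j, Gz (b j) := by
        rw [Finset.sum_image hinj]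
    _ ≤ ∑ b ∈ Fintype.piFinset U, ∏ j, Gz (b j) := by
        apply Finset.sum_le_sum_of_subset_of_nonneg
        · intro b hb
          rw [Finset.mem_image] at hb
          obtain ⟨k, hk, rfl⟩ := hb
          rw [Fintype.mem_piFinset]
          intro j
          exact Finset.mem_image_of_mem _ hk
        · intro b _ _
          exact Finset.prod_nonneg fun j _ => Gz_nonneg _
    _ = ∏ j, ∑ b ∈ U j, Gz b := (Finset.prod_univ_sum U (fun _ b => Gz b)).symm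
    _ ≤ ∏ _j : J, ∑' b, Gz b := by
        apply Finset.prod_le_prod
        · intro j _; exact Finset.sum_nonneg fun b _ => Gz_nonneg _
        · intro j _; exact Gz_summable.sum_le_tsum _ (fun b _ => Gz_nonneg _)
    _ = (∑' b, Gz b) ^ Fintype.card J := by
        rw [Finset.prod_const, Finset.card_univ]

end CoverF

end Crest.Agent.HB
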