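import Crest.Agent.HB.CoverP3
import Crest.Agent.HB.CoverP4

/-! Row 32 (S0042), chunk S1, part 5: number field input. -/
set_option autoImplicit false

open NumberField InfinitePlace mixedEmbedding

namespace Crest.Agent.HB

namespace CoverF

variable (F : Type) [Field F] [NumberField F]

/-- norm bound for the dual lattice. -/
lemma norm_dual {β : F} (hβ : β ≠ 0)
    (h : ∀ i, ∃ k : ℤ, Algebra.trace ℚ F (β * integralBasis F i) = k) :
    (1 : ℚ) ≤ |Algebra.norm ℚ β| * ((discr F).natAbs : ℚ) := by
  classical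
  let b := integralBasis F
  have hC : ∀ i j, ∃ m : ℤ, Algebra.trace ℚ F (β * (b i * b j)) = m := by
    intro i j
    let x : 𝓞 F := RingOfIntegers.basis F i * RingOfIntegers.basis F j
    have hx : b i * b j = algebraMap (𝓞 F) F x := by
      simp [b, x]
    have h1 : b i * b j = ∑ l, ((RingOfIntegers.basis F).repr x l : ℚ) • b l := by
      rw [hx]
      conv_lhs => rw [← b.sum_repr (algebraMap (𝓞 F) F x)]
      apply Finset.sum_congr rfl
      intro l _
      rw [integralBasis_repr_apply]
      rfl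
    choose k hk using h
    refine ⟨∑ l, (RingOfIntegers.basis F).repr x l * k l, ?_⟩
    rw [h1, Finset.mul_sum, map_sum]
    push_cast
    apply Finset.sum_congr rfl
    intro l _
    rw [mul_smul_comm, map_smul, hk, smul_eq_mul]
  choose m hm using hC
  have hdet : (Matrix.of fun i j => Algebra.trace ℚ F (β * (b i * b j))) =
      (Algebra.leftMulMatrix b β).transpose * Algebra.traceMatrix ℚ b := by
    ext i j
    rw [Matrix.mul_apply, Matrix.of_apply]
    have h2 : β * (b i * b j) = ∑ l, (Algebra.leftMulMatrix b β l i) • (b l * b j) := by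
      rw [← mul_assoc]
      conv_lhs => rw [← b.sum_repr (β * b i)]
      rw [Finset.sum_mul]
      apply Finset.sum_congr rfl
      intro l _
      rw [Algebra.leftMulMatrix_eq_repr_mul, smul_mul_assoc]
    rw [h2, map_sum]
    apply Finset.sum_congr rfl
    intro l _
    rw [map_smul, smul_eq_mul, Matrix.transpose_apply, Algebra.traceMatrix_apply,
      Algebra.traceForm_apply]
  have h3 : ((Matrix.of m).det : ℚ) = Algebra.norm ℚ β * (discr F : ℚ) := by
    rw [coe_discr, Algebra.discr_def, Algebra.norm_eq_matrix_det b,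
      ← Matrix.det_transpose (Algebra.leftMulMatrix b β), ← Matrix.det_mul]
    rw [show (integralBasis F : _ → F) = b from rfl, ← hdet]
    refine (RingHom.map_det (Int.castRingHom ℚ) (Matrix.of m)).trans ?_
    congr 1
    ext i j
    simp [hm]
  have h4 : (Matrix.of m).det ≠ 0 := by
    intro h0
    rw [h0] at h3
    have h5 : Algebra.norm ℚ β ≠ 0 := Algebra.norm_ne_zero_iff.mpr hβ
    have h6 : (discr F : ℚ) ≠ 0 := by exact_mod_cast discr_ne_zero F
    have : Algebra.norm ℚ β * (discr F : ℚ) = 0 := by rw [← h3]; simp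
    rcases mul_eq_zero.mp this with h | h
    · exact h5 h
    · exact h6 h
  have h7 : (1 : ℤ) ≤ |(Matrix.of m).det| := Int.one_le_abs h4
  have h8 : (1 : ℚ) ≤ |((Matrix.of m).det : ℚ)| := by exact_mod_cast h7
  rw [h3, abs_mul] at h8
  rwa [Nat.cast_natAbs, Int.cast_abs]

/-- the trace via infinite places. -/
lemma trace_places (x : F) : ((Algebra.trace ℚ F x : ℚ) : ℝ) =
    ∑ w : InfinitePlace F, (mult w : ℝ) * (w.embedding x).re := by
  classical
  have h1 : ((Algebra.trace ℚ F x : ℚ) : ℂ) = ∑ σ : F →ₐ[ℚ] ℂ, σ x := by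
    have := trace_eq_sum_embeddings (K := ℚ) (L := F) ℂ (x := x)
    simpa using this
  have h2 : ((Algebra.trace ℚ F x : ℚ) : ℝ) = ∑ φ : F →+* ℂ, (φ x).re := by
    have h3 := congrArg Complex.re h1
    rw [Complex.ratCast_re, Complex.re_sum] at h3
    rw [h3]
    exact (Fintype.sum_equiv (RingHom.equivRatAlgHom F ℂ) (fun f => (f x).re)
      (fun φ => (φ x).re) fun _ => by simp [RingHom.equivRatAlgHom_apply]).symm
  rw [h2, ← Finset.sum_fiberwise Finset.univ mk (fun φ : F →+* ℂ => (φ x).re)]
  have h4 : ∀ (w : InfinitePlace F) (φ) (hφ : φ ∈ ({φ | mk φ = w} : Finset _)),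
      (φ x).re = (w.embedding x).re := by
    intro w φ hφ
    rw [← (Finset.mem_filter.mp hφ).2]
    rcases embedding_mk_eq φ with h | h
    · rw [h]
    · rw [h]; simp
  apply Finset.sum_congr rfl
  intro w _
  rw [Finset.sum_congr rfl (h4 w), Finset.sum_const, card_filter_mk_eq, nsmul_eq_mul]

/-- element of the dual lattice with integer coordinates `k`. -/
noncomputable def dualElt (k : Module.Free.ChooseBasisIndex ℤ (𝓞 F) → ℤ) : F :=
  ∑ i, (k i : ℚ) • (integralBasis F).traceDual i

lemma dualElt_trace (k : Module.Free.ChooseBasisIndex ℤ (𝓞 F) → ℤ)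
    (i : Module.Free.ChooseBasisIndex ℤ (𝓞 F)) :
    Algebra.trace ℚ F (dualElt F k * integralBasis F i) = k i := by
  classical
  unfold dualElt
  rw [Finset.sum_mul, map_sum]
  simp_rw [smul_mul_assoc, map_smul, Module.Basis.trace_traceDual_mul]
  simp

lemma dualElt_sub (k l : Module.Free.ChooseBasisIndex ℤ (𝓞 F) → ℤ) :
    dualElt F (k - l) = dualElt F k - dualElt F l := by
  unfold dualElt
  rw [← Finset.sum_sub_distrib]
  apply Finset.sum_congr rfl
  intro i _
  rw [← sub_smul]
  simp

lemma dualElt_zero : dualElt F 0 = 0 := by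
  simp [dualElt]

lemma dualElt_ne {k : Module.Free.ChooseBasisIndex ℤ (𝓞 F) → ℤ} (hk : k ≠ 0) :
    dualElt F k ≠ 0 := by
  intro h
  apply hk
  ext i
  have := dualElt_trace F k i
  rw [h, zero_mul, map_zero] at this
  exact_mod_cast this.symm

/-- the dual vector. -/
noncomputable def xi (k : Module.Free.ChooseBasisIndex ℤ (𝓞 F) → ℤ) : index F → ℝ
  | Sum.inl w => (w.1.embedding (dualElt F k)).re
  | Sum.inr (w, b) => if b = 0 then 2 * (w.1.embedding (dualElt F k)).re
      else -(2 * (w.1.embedding (dualElt F k)).im)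

lemma xi_sub (k l : Module.Free.ChooseBasisIndex ℤ (𝓞 F) → ℤ) (j : index F) :
    xi F (k - l) j = xi F k j - xi F l j := by
  rcases j with w | ⟨w, b⟩
  · simp [xi, dualElt_sub]
  · simp only [xi, dualElt_sub, map_sub, Complex.sub_re, Complex.sub_im]
    split_ifs <;> ring

lemma xi_zero (j : index F) : xi F 0 j = 0 := by
  rcases j with w | ⟨w, b⟩
  · simp [xi, dualElt_zero]
  · simp [xi, dualElt_zero]

/-- coordinates: integral basis coordinates to real and imaginary parts. -/
noncomputable def MM : (Module.Free.ChooseBasisIndex ℤ (𝓞 F) → ℝ) ≃ₗ[ℝ] (index F → ℝ) :=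
  (latticeBasis F).equivFun.symm.trans (stdBasis F).equivFun

lemma MM_apply (y : Module.Free.ChooseBasisIndex ℤ (𝓞 F) → ℝ) (j : index F) :
    MM F y j = ∑ i, y i * (stdBasis F).repr (mixedEmbedding F (integralBasis F i)) j := by
  unfold MM
  rw [LinearEquiv.trans_apply, Module.Basis.equivFun_symm_apply, Module.Basis.equivFun_apply,
    map_sum]
  simp only [map_smul, latticeBasis_apply, Finsupp.coe_finsetSum, Finset.sum_apply,
    Finsupp.coe_smul, Pi.smul_apply, smul_eq_mul]

variable {F}

open scoped Classical in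
lemma pairing (hF : ∀ v : InfinitePlace F, v.IsComplex)
    (k : Module.Free.ChooseBasisIndex ℤ (𝓞 F) → ℤ)
    (y : Module.Free.ChooseBasisIndex ℤ (𝓞 F) → ℝ) :
    ∑ i, (k i : ℝ) * y i = ∑ j, xi F k j * MM F y j := by
  have hempty : IsEmpty {w : InfinitePlace F // IsReal w} :=
    ⟨fun w => (not_isReal_iff_isComplex.mpr (hF w.1)) w.2⟩
  simp_rw [MM_apply, Finset.mul_sum]
  rw [Finset.sum_comm]
  apply Finset.sum_congr rfl
  intro i _
  have h1 : ((k i : ℤ) : ℝ) = ∑ w : InfinitePlace F,
      (mult w : ℝ) * (w.embedding (dualElt F k * integralBasis F i)).re := by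
    rw [← trace_places, dualElt_trace]
    simp
  rw [h1, Finset.sum_mul, Fintype.sum_sum_type, Fintype.sum_prod_type]
  simp only [Finset.univ_eq_empty, Finset.sum_empty, zero_add, Fin.sum_univ_two,
    stdBasis_apply_isComplex_fst, stdBasis_apply_isComplex_snd, mixedEmbedding_apply_isComplex]
  rw [InfinitePlace.sum_eq_sum_add_sum]
  simp only [Finset.univ_eq_empty, Finset.sum_empty, zero_add]
  apply Finset.sum_congr rfl
  intro w _
  simp only [xi, if_true, one_ne_zero, if_false, map_mul, Complex.mul_re, mult,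
    not_isReal_iff_isComplex.mpr w.2]
  push_cast
  ring

open scoped Classical in
lemma prod_xi (hF : ∀ v : InfinitePlace F, v.IsComplex) (a : ℝ)
    (k : Module.Free.ChooseBasisIndex ℤ (𝓞 F) → ℤ) :
    ∏ w : {w : InfinitePlace F // IsComplex w}, ((a * xi F k (Sum.inr (w, 0))) ^ 2 +
      (a * xi F k (Sum.inr (w, 1))) ^ 2) =
    (2 * a) ^ Module.finrank ℚ F * ((|Algebra.norm ℚ (dualElt F k)| : ℚ) : ℝ) := by
  have hempty : IsEmpty {w : InfinitePlace F // IsReal w} :=
    ⟨fun w => (not_isReal_iff_isComplex.mpr (hF w.1)) w.2⟩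
  have h1 : ∀ w : {w : InfinitePlace F // IsComplex w},
      ((a * xi F k (Sum.inr (w, 0))) ^ 2 + (a * xi F k (Sum.inr (w, 1))) ^ 2) =
      (2 * a) ^ 2 * (w.1 (dualElt F k)) ^ mult w.1 := by
    intro w
    have h2 : (w.1 (dualElt F k)) ^ 2 = (w.1.embedding (dualElt F k)).re ^ 2 +
        (w.1.embedding (dualElt F k)).im ^ 2 := by
      rw [← norm_embedding_eq, ← Complex.normSq_eq_norm_sq, Complex.normSq_apply]
      ring
    have h3 : mult w.1 = 2 := by simp [mult, not_isReal_iff_isComplex.mpr w.2]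
    rw [h3, h2]
    simp only [xi, if_true, one_ne_zero, if_false]
    ring
  rw [Finset.prod_congr rfl (fun w _ => h1 w), Finset.prod_mul_distrib, Finset.prod_const,
    Finset.card_univ, ← pow_mul]
  have h4 : Fintype.card {w : InfinitePlace F // IsComplex w} * 2 = Module.finrank ℚ F := by
    have := card_add_two_mul_card_eq_rank F
    have h5 : nrRealPlaces F = 0 := Fintype.card_eq_zero_iff.mpr hempty
    rw [h5, zero_add] at this
    rw [mul_comm 2] at this
    exact this
  rw [mul_comm 2 (Fintype.card _), h4]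
  congr 1
  rw [← InfinitePlace.prod_eq_abs_norm, InfinitePlace.prod_eq_prod_mul_prod]
  simp

end CoverF

end Crest.Agent.HB
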