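import Crest.Agent.HB.NFDefs
import Crest.Agent.HB.CoverP5

/-! Row 32 (S0042), chunk S1: covering radius of `5 𝓞_F` in the sup norm. -/
set_option autoImplicit false

open NumberField IsDedekindDomain
open scoped nonZeroDivisors

namespace Crest.Agent.HB

namespace CoverF

open InfinitePlace mixedEmbedding

variable {F : Type} [Field F] [NumberField F]

open scoped Classical in
lemma prod_lower (hF : ∀ v : InfinitePlace F, v.IsComplex) {R A : ℝ} (hA : 0 < A)
    (hd : ((NumberField.discr F).natAbs : ℝ) ≤ R ^ (Module.finrank ℚ F))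
    {k : Module.Free.ChooseBasisIndex ℤ (𝓞 F) → ℤ} (hk : k ≠ 0) :
    (2 * A) ^ Module.finrank ℚ F ≤
    ∏ w : {w : InfinitePlace F // IsComplex w}, ((A * R * xi F k (Sum.inr (w, 0))) ^ 2 +
      (A * R * xi F k (Sum.inr (w, 1))) ^ 2) := by
  rw [prod_xi hF]
  have h1 := norm_dual F (dualElt_ne F hk) (fun i => ⟨k i, dualElt_trace F k i⟩)
  have h2 : (1 : ℝ) ≤ ((|Algebra.norm ℚ (dualElt F k)| : ℚ) : ℝ) *
      ((discr F).natAbs : ℝ) := by exact_mod_cast h1
  have h3 : (0 : ℝ) ≤ ((|Algebra.norm ℚ (dualElt F k)| : ℚ) : ℝ) := by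
    exact_mod_cast abs_nonneg _
  have h4 : (1 : ℝ) ≤ ((|Algebra.norm ℚ (dualElt F k)| : ℚ) : ℝ) * R ^ (Module.finrank ℚ F) :=
    h2.trans (mul_le_mul_of_nonneg_left hd h3)
  have h5 : (2 * (A * R)) ^ Module.finrank ℚ F = (2 * A) ^ Module.finrank ℚ F *
      R ^ Module.finrank ℚ F := by rw [← mul_pow]; ring
  rw [h5]
  have h6 : 0 ≤ (2 * A) ^ Module.finrank ℚ F := by positivity
  nlinarith

open scoped Classical in
lemma card_index (F : Type) [Field F] [NumberField F] :
    Fintype.card (index F) = Module.finrank ℚ F := by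
  have := card_add_two_mul_card_eq_rank F
  rw [Fintype.card_sum, Fintype.card_prod, Fintype.card_fin]
  have h1 : nrRealPlaces F = Fintype.card {w : InfinitePlace F // IsReal w} := rfl
  have h2 : nrComplexPlaces F = Fintype.card {w : InfinitePlace F // IsComplex w} := rfl
  rw [h1, h2] at this
  omega

open scoped Classical in
lemma sep (hF : ∀ v : InfinitePlace F, v.IsComplex) {R A : ℝ} (hA : 1 ≤ A)
    (hd : ((NumberField.discr F).natAbs : ℝ) ≤ R ^ (Module.finrank ℚ F))
    {k l : Module.Free.ChooseBasisIndex ℤ (𝓞 F) → ℤ} (hkl : k ≠ l) :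
    ∃ j, 1 ≤ |A * R * xi F k j - A * R * xi F l j| := by
  by_contra hcon
  push Not at hcon
  have h1 := prod_lower hF (by linarith : 0 < A) hd (sub_ne_zero.mpr hkl)
  have h2 : ∏ w : {w : InfinitePlace F // IsComplex w},
      ((A * R * xi F (k - l) (Sum.inr (w, 0))) ^ 2 +
      (A * R * xi F (k - l) (Sum.inr (w, 1))) ^ 2) ≤
      ∏ _w : {w : InfinitePlace F // IsComplex w}, (2 : ℝ) := by
    have hlt : ∀ w : {w : InfinitePlace F // IsComplex w},
      ((A * R * xi F (k - l) (Sum.inr (w, 0))) ^ 2 +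
      (A * R * xi F (k - l) (Sum.inr (w, 1))) ^ 2) < 2 := by
      intro w
      have e0 := hcon (Sum.inr (w, 0))
      have e1 := hcon (Sum.inr (w, 1))
      rw [← mul_sub, ← xi_sub] at e0 e1
      have f0 := (sq_lt_one_iff_abs_lt_one _).mpr e0
      have f1 := (sq_lt_one_iff_abs_lt_one _).mpr e1
      linarith
    apply Finset.prod_le_prod
    · intro w _; positivity
    · intro w _; exact (hlt w).le
  rw [Finset.prod_const, Finset.card_univ] at h2
  have h3 : Fintype.card {w : InfinitePlace F // IsComplex w} < Module.finrank ℚ F := by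
    have hn : 0 < Module.finrank ℚ F := Module.finrank_pos
    rw [← card_index, Fintype.card_sum, Fintype.card_prod, Fintype.card_fin] at hn ⊢
    omega
  have h4 : (2 : ℝ) ^ Fintype.card {w : InfinitePlace F // IsComplex w} <
      (2 : ℝ) ^ Module.finrank ℚ F := pow_lt_pow_right₀ (by norm_num) h3
  have h5 : (2 : ℝ) ^ Module.finrank ℚ F ≤ (2 * A) ^ Module.finrank ℚ F :=
    pow_le_pow_left₀ (by norm_num) (by linarith) _
  linarith

open scoped Classical in
lemma sum_half : ∃ A : ℝ, 1 ≤ A ∧ ∀ (F : Type) [Field F] [NumberField F],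
    (∀ v : InfinitePlace F, v.IsComplex) →
    ∀ R : ℝ, 1 ≤ R → ((NumberField.discr F).natAbs : ℝ) ≤ R ^ (Module.finrank ℚ F) →
    ∀ S : Finset (Module.Free.ChooseBasisIndex ℤ (𝓞 F) → ℤ), 0 ∉ S →
      ∑ k ∈ S, ∏ j, 2 / (1 + (A * R * xi F k j) ^ 2) ≤ 1 / 2 := by
  set Z : ℝ := ∑' b, Gz b with hZ
  have hZ0 : 0 ≤ Z := tsum_nonneg Gz_nonneg
  refine ⟨((4 * Z) ^ 4 + 2) / 2, by nlinarith [pow_nonneg hZ0 4], ?_⟩
  intro F _ _ hF R hR hd S hS
  set A : ℝ := ((4 * Z) ^ 4 + 2) / 2 with hAdef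
  have hA : 1 ≤ A := by rw [hAdef]; nlinarith [pow_nonneg hZ0 4]
  have hT : 0 < 2 * A := by linarith
  refine (box_count (fun k j => A * R * xi F k j) hT S ?_ ?_).trans ?_
  · intro k _ l _ hkl
    exact sep hF hA hd hkl
  · intro k hk
    have hk0 : k ≠ 0 := by rintro rfl; exact hS hk
    rw [card_index]
    refine (prod_lower hF (by linarith) hd hk0).trans ?_
    rw [Fintype.prod_sum_type, Fintype.prod_prod_type]
    simp only [Fin.prod_univ_two]
    have e1 : (1 : ℝ) ≤ ∏ w : {w : InfinitePlace F // IsReal w},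
        (1 + (A * R * xi F k (Sum.inl w)) ^ 2) := by
      calc (1 : ℝ) = ∏ _w : {w : InfinitePlace F // IsReal w}, (1 : ℝ) := by simp
        _ ≤ _ := by
          apply Finset.prod_le_prod
          · intro w _; norm_num
          · intro w _
            nlinarith [sq_nonneg (A * R * xi F k (Sum.inl w))]
    have e2 : ∏ w : {w : InfinitePlace F // IsComplex w},
        ((A * R * xi F k (Sum.inr (w, 0))) ^ 2 + (A * R * xi F k (Sum.inr (w, 1))) ^ 2) ≤
        ∏ w : {w : InfinitePlace F // IsComplex w},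
        ((1 + (A * R * xi F k (Sum.inr (w, 0))) ^ 2) *
          (1 + (A * R * xi F k (Sum.inr (w, 1))) ^ 2)) := by
      apply Finset.prod_le_prod
      · intro w _; positivity
      · intro w _
        nlinarith [mul_nonneg (sq_nonneg (A * R * xi F k (Sum.inr (w, 0))))
          (sq_nonneg (A * R * xi F k (Sum.inr (w, 1))))]
    have e3 : (0 : ℝ) ≤ ∏ w : {w : InfinitePlace F // IsComplex w},
        ((1 + (A * R * xi F k (Sum.inr (w, 0))) ^ 2) *
          (1 + (A * R * xi F k (Sum.inr (w, 1))) ^ 2)) :=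
      Finset.prod_nonneg fun w _ => by positivity
    nlinarith
  · rw [card_index]
    have h1 : (2 * A) ^ (-(1 / 4) : ℝ) * (4 * Z) ≤ 1 := by
      have h2 : 4 * Z ≤ (2 * A) ^ ((1 / 4) : ℝ) := by
        have h3 : (4 * Z) ^ 4 ≤ 2 * A := by rw [hAdef]; linarith
        have h4 : ((4 * Z) ^ 4) ^ ((1 / 4) : ℝ) ≤ (2 * A) ^ ((1 / 4) : ℝ) :=
          Real.rpow_le_rpow (by positivity) h3 (by norm_num)
        have h5 : ((4 * Z) ^ 4) ^ ((1 / 4) : ℝ) = 4 * Z := by
          rw [← Real.rpow_natCast, ← Real.rpow_mul (by positivity)]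
          norm_num
        rwa [h5] at h4
      calc (2 * A) ^ (-(1 / 4) : ℝ) * (4 * Z) ≤
          (2 * A) ^ (-(1 / 4) : ℝ) * (2 * A) ^ ((1 / 4) : ℝ) := by gcongr
        _ = 1 := by rw [← Real.rpow_add hT]; norm_num
    have h6 : 2 * (2 * A) ^ (-(1 / 4) : ℝ) * Z ≤ 1 / 2 := by linarith
    have h7 : 0 ≤ 2 * (2 * A) ^ (-(1 / 4) : ℝ) * Z := by positivity
    have hn : 0 < Module.finrank ℚ F := Module.finrank_pos
    calc (2 * (2 * A) ^ (-(1 / 4) : ℝ) * Z) ^ Module.finrank ℚ F ≤
        (1 / 2) ^ Module.finrank ℚ F := pow_le_pow_left₀ h7 h6 _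
      _ ≤ (1 / 2) ^ 1 := pow_le_pow_of_le_one (by norm_num) (by norm_num) hn
      _ = 1 / 2 := by norm_num

end CoverF

open CoverF InfinitePlace mixedEmbedding in
/-- Every class modulo `5 𝓞_F` has a representative all of whose conjugates are `≤ A·R`, where
`|d_F| ≤ R^n`, `A` absolute.

Proof (Fourier). `V = ∏_{v complex} ℂ`, `n = 2r = [F:ℚ]`, `Λ = 5𝓞_F`,
`f(x) = ∏_v τ(Re x_v/a) τ(Im x_v/a)`, `τ(t) = max(0, 1-|t|)`; `P(x) = ∑_{λ ∈ Λ} f(x + λ)`.  If `P(c) > 0`
then some representative of `c` has all `|Re|,|Im| < a`; the Fourier coefficients of `P` off `0`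
sum to less than the zeroth one (box counting in the dual lattice, whose nonzero elements have norm
`≥ 1/|d_F|`). -/
theorem cover : ∃ A : ℝ, 1 ≤ A ∧ ∀ (F : Type) [Field F] [NumberField F], TotComplex F →
    ∀ R : ℝ, 1 ≤ R → ((NumberField.discr F).natAbs : ℝ) ≤ R ^ (Module.finrank ℚ F) →
    ∀ c : 𝓞 F, ∃ x : 𝓞 F, (5 : 𝓞 F) ∣ x - c ∧ ∀ φ : F →+* ℂ, ‖φ (x : F)‖ ≤ A * R := by
  classical
  obtain ⟨A, hA, hsum⟩ := sum_half
  refine ⟨10 * A, by linarith, ?_⟩
  intro F _ _ hF R hR hd c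
  have hcr := cover_crit (MM F) (a := A * R) (by positivity) (xi F) (pairing hF) (xi_zero F)
    (fun S hS => by convert hsum F hF R hR hd S hS)
    (fun i => ((RingOfIntegers.basis F).repr c i : ℝ) / 5)
  obtain ⟨m, hm⟩ := hcr
  let x : 𝓞 F := c + 5 * ∑ i, m i • RingOfIntegers.basis F i
  refine ⟨x, ⟨∑ i, m i • RingOfIntegers.basis F i, by simp [x]⟩, ?_⟩
  have hx : (x : F) = ∑ i, (((RingOfIntegers.basis F).repr c i : ℚ) + 5 * m i) •
      integralBasis F i := by
    have h1 : (c : F) = ∑ i, ((RingOfIntegers.basis F).repr c i : ℚ) • integralBasis F i := by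
      conv_lhs => rw [← (integralBasis F).sum_repr (c : F)]
      apply Finset.sum_congr rfl
      intro i _
      rw [integralBasis_repr_apply]
      rfl
    have h2 : ((∑ i, m i • RingOfIntegers.basis F i : 𝓞 F) : F) =
        ∑ i, (m i : ℚ) • integralBasis F i := by
      change algebraMap (𝓞 F) F (∑ i, m i • RingOfIntegers.basis F i) = _
      rw [map_sum]
      apply Finset.sum_congr rfl
      intro i _
      rw [integralBasis_apply]
      simp [Algebra.smul_def]
    have h3 : (x : F) = (c : F) + 5 * ((∑ i, m i • RingOfIntegers.basis F i : 𝓞 F) : F) := by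
      change algebraMap (𝓞 F) F (c + 5 * ∑ i, m i • RingOfIntegers.basis F i) = _
      rw [map_add, map_mul]
      congr 2
    rw [h3, h1, h2, Finset.mul_sum, ← Finset.sum_add_distrib]
    apply Finset.sum_congr rfl
    intro i _
    rw [add_smul]
    congr 1
    rw [Algebra.smul_def, Algebra.smul_def]
    push_cast
    simp [mul_assoc]
  have hM : ∀ j, 5 * MM F ((fun i => ((RingOfIntegers.basis F).repr c i : ℝ) / 5) + sh m) j =
      (stdBasis F).repr (mixedEmbedding F (x : F)) j := by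
    intro j
    rw [MM_apply, hx, map_sum, map_sum, Finset.mul_sum, Finsupp.coe_finsetSum,
      Finset.sum_apply]
    apply Finset.sum_congr rfl
    intro i _
    have h5 : mixedEmbedding F ((((RingOfIntegers.basis F).repr c i : ℚ) + 5 * m i) •
        integralBasis F i) = (((RingOfIntegers.basis F).repr c i : ℝ) + 5 * m i) •
        mixedEmbedding F (integralBasis F i) := by
      have h7 := map_ratCast_smul (mixedEmbedding F) ℚ ℝ
        (((RingOfIntegers.basis F).repr c i : ℚ) + 5 * m i) (integralBasis F i)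
      rw [Rat.cast_id] at h7
      rw [h7]
      push_cast
      rfl
    rw [h5, map_smul]
    simp [sh]
    ring
  intro φ
  have hw : (InfinitePlace.mk φ).IsComplex := hF _
  have h6 : ‖φ (x : F)‖ = ‖(InfinitePlace.mk φ).embedding (x : F)‖ := by
    rw [norm_embedding_eq, InfinitePlace.apply]
  have hre := hM (Sum.inr (⟨InfinitePlace.mk φ, hw⟩, 0))
  have him := hM (Sum.inr (⟨InfinitePlace.mk φ, hw⟩, 1))
  rw [stdBasis_apply_isComplex_fst, mixedEmbedding_apply_isComplex] at hre
  rw [stdBasis_apply_isComplex_snd, mixedEmbedding_apply_isComplex] at him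
  have b0 := hm (Sum.inr (⟨InfinitePlace.mk φ, hw⟩, 0))
  have b1 := hm (Sum.inr (⟨InfinitePlace.mk φ, hw⟩, 1))
  rw [h6]
  refine (Complex.norm_le_abs_re_add_abs_im _).trans ?_
  rw [← hre, ← him, abs_mul, abs_mul, abs_of_pos (by norm_num : (0 : ℝ) < 5)]
  linarith

end Crest.Agent.HB
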