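import Mathlib

/-! Row 32 (S0042), chunk S1, part 1: a multidimensional Poisson-type non-vanishing lemma. -/
set_option autoImplicit false

open MeasureTheory Set Function

namespace Crest.Agent.HB

namespace CoverF

variable {ι : Type*} [Fintype ι]

/-- integer vectors as real vectors. -/
def sh (m : ι → ℤ) : ι → ℝ := fun i => (m i : ℝ)

/-- finite set of integer vectors bounded by `N`. -/
noncomputable def bdd (ι : Type*) [Fintype ι] (N : ℤ) : Finset (ι → ℤ) := by
  classical exact Fintype.piFinset (fun _ => Finset.Icc (-N) N)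

lemma mem_bdd {N : ℤ} {m : ι → ℤ} : m ∈ bdd ι N ↔ ∀ i, |m i| ≤ N := by
  classical
  simp [bdd, Fintype.mem_piFinset, abs_le]

lemma sh_zero_term {f : (ι → ℝ) → ℂ} {B C : ℝ} (hf : ∀ y, B < ‖y‖ → f y = 0) {N : ℤ}
    (hN : B + C < N) {y : ι → ℝ} (hy : ‖y‖ ≤ C) {m : ι → ℤ} (hm : m ∉ bdd ι N) :
    f (y + sh m) = 0 := by
  apply hf
  rw [mem_bdd] at hm
  push Not at hm
  obtain ⟨i, hi⟩ := hm
  have h1 : ‖sh m‖ ≤ ‖y + sh m‖ + ‖y‖ := by
    have := norm_sub_le (y + sh m) y
    simpa using this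
  have h2 : (|m i| : ℝ) ≤ ‖sh m‖ := by
    have := norm_le_pi_norm (sh m) i
    simpa [sh, Real.norm_eq_abs] using this
  have h3 : (N : ℝ) < |(m i : ℝ)| := by exact_mod_cast hi
  linarith

/-- periodisation. -/
noncomputable def per (f : (ι → ℝ) → ℂ) (y : ι → ℝ) : ℂ := ∑' m : ι → ℤ, f (y + sh m)

lemma per_eq {f : (ι → ℝ) → ℂ} {B C : ℝ} (hf : ∀ y, B < ‖y‖ → f y = 0) {N : ℤ}
    (hN : B + C < N) {y : ι → ℝ} (hy : ‖y‖ ≤ C) :
    per f y = ∑ m ∈ bdd ι N, f (y + sh m) :=
  tsum_eq_sum (fun _ hm => sh_zero_term hf hN hy hm)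

lemma per_cont {f : (ι → ℝ) → ℂ} (hc : Continuous f) {B : ℝ} (hf : ∀ y, B < ‖y‖ → f y = 0) :
    Continuous (per f) := by
  rw [continuous_iff_continuousAt]
  intro y0
  obtain ⟨N, hN⟩ : ∃ N : ℤ, B + (‖y0‖ + 1) < N := by
    obtain ⟨n, hn⟩ := exists_nat_gt (B + (‖y0‖ + 1))
    exact ⟨n, by exact_mod_cast hn⟩
  have h1 : ∀ᶠ y in nhds y0, per f y = ∑ m ∈ bdd ι N, f (y + sh m) := by
    filter_upwards [Metric.ball_mem_nhds y0 one_pos] with y hy
    apply per_eq hf hN
    have : dist y y0 < 1 := hy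
    rw [dist_eq_norm] at this
    have h2 : ‖y‖ ≤ ‖y - y0‖ + ‖y0‖ := by
      simpa using norm_add_le (y - y0) y0
    linarith
  refine ContinuousAt.congr ?_ (h1.mono fun _ h => h.symm)
  apply Continuous.continuousAt
  fun_prop

omit [Fintype ι] in
lemma sh_add (m k : ι → ℤ) : sh (m + k) = sh m + sh k := by
  ext i; simp [sh]

omit [Fintype ι] in
lemma per_add (f : (ι → ℝ) → ℂ) (y : ι → ℝ) (k : ι → ℤ) : per f (y + sh k) = per f y := by
  unfold per
  rw [← (Equiv.addLeft k).tsum_eq (fun m => f (y + sh m))]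
  apply tsum_congr
  intro m
  simp [sh_add, add_assoc]

/-- the quotient map to the torus. -/
def qt (ι : Type*) : (ι → ℝ) → UnitAddTorus ι := Pi.map (fun _ => ((↑) : ℝ → UnitAddCircle))

omit [Fintype ι] in
lemma qt_quot : IsOpenQuotientMap (qt ι) :=
  IsOpenQuotientMap.piMap (fun _ => QuotientAddGroup.isOpenQuotientMap_mk)

omit [Fintype ι] in
lemma qt_sh (y : ι → ℝ) (k : ι → ℤ) : qt ι (y + sh k) = qt ι y := by
  ext i
  change ((y i + (k i : ℝ) : ℝ) : UnitAddCircle) = (y i : UnitAddCircle)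
  have : (((k i : ℝ)) : UnitAddCircle) = 0 := by
    rw [AddCircle.coe_eq_zero_iff]
    exact ⟨k i, by simp⟩
  rw [AddCircle.coe_add, this, add_zero]

omit [Fintype ι] in
lemma qt_eq {a b : ι → ℝ} (h : qt ι a = qt ι b) : ∃ k : ι → ℤ, a = b + sh k := by
  have h1 : ∀ i, ∃ k : ℤ, a i = b i + k := by
    intro i
    have h2 : ((a i : ℝ) : UnitAddCircle) = (b i : UnitAddCircle) := congrFun h i
    have h3 : ((a i - b i : ℝ) : UnitAddCircle) = 0 := by
      rw [AddCircle.coe_sub, h2, sub_self]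
    rw [AddCircle.coe_eq_zero_iff] at h3
    obtain ⟨n, hn⟩ := h3
    refine ⟨n, ?_⟩
    simp at hn
    linarith
  choose k hk using h1
  exact ⟨k, funext hk⟩

/-- the quotient map, bundled. -/
def qtc (ι : Type*) : C(ι → ℝ, UnitAddTorus ι) := ⟨qt ι, qt_quot.continuous⟩

omit [Fintype ι] in
lemma qtc_quot : Topology.IsQuotientMap (qtc ι) := qt_quot.isQuotientMap

/-- the periodisation as a continuous function on the torus. -/
noncomputable def perT (f : (ι → ℝ) → ℂ) (hc : Continuous (per f)) : C(UnitAddTorus ι, ℂ) :=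
  qtc_quot.lift ⟨per f, hc⟩ (fun a b h => by
    obtain ⟨k, rfl⟩ := qt_eq (show qt ι a = qt ι b from h)
    exact per_add f b k)

lemma perT_qt (f : (ι → ℝ) → ℂ) (hc : Continuous (per f)) (y : ι → ℝ) :
    perT f hc (qt ι y) = per f y := by
  have := qtc_quot.lift_comp (⟨per f, hc⟩ : C(ι → ℝ, ℂ)) (fun a b h => by
    obtain ⟨k, rfl⟩ := qt_eq (show qt ι a = qt ι b from h)
    exact per_add f b k)
  exact congrArg (fun g : C(ι → ℝ, ℂ) => g y) this

/-- the Fourier transform at integer frequencies. -/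
noncomputable def ft (f : (ι → ℝ) → ℂ) (k : ι → ℤ) : ℂ :=
  ∫ y : ι → ℝ, UnitAddTorus.mFourier (-k) (qt ι y) * f y

omit [Fintype ι] in
lemma cell_disj : Pairwise (Disjoint on
    (fun m : ι → ℤ => {x : ι → ℝ | ∀ i, x i ∈ Ioc (m i : ℝ) (m i + 1)})) := by
  intro m n hmn
  rw [Function.onFun, Set.disjoint_left]
  intro x hx hy
  apply hmn
  ext i
  have h1 := hx i
  have h2 := hy i
  simp only [mem_Ioc] at h1 h2
  have h3 : (m i : ℝ) < n i + 1 := lt_of_lt_of_le h1.1 h2.2
  have h4 : (n i : ℝ) < m i + 1 := lt_of_lt_of_le h2.1 h1.2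
  have h5 : m i < n i + 1 := by exact_mod_cast h3
  have h6 : n i < m i + 1 := by exact_mod_cast h4
  omega

omit [Fintype ι] in
lemma cell_cover : (⋃ m : ι → ℤ, {x : ι → ℝ | ∀ i, x i ∈ Ioc (m i : ℝ) (m i + 1)}) = univ := by
  rw [Set.eq_univ_iff_forall]
  intro x
  rw [mem_iUnion]
  refine ⟨fun i => ⌈x i⌉ - 1, fun i => ?_⟩
  have h1 := Int.ceil_lt_add_one (x i)
  have h2 := Int.le_ceil (x i)
  push_cast
  constructor <;> linarith

lemma unfold_int {F : (ι → ℝ) → ℂ} (hc : Continuous F) {B : ℝ} (hF : ∀ y, B < ‖y‖ → F y = 0) :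
    ∫ y in {x : ι → ℝ | ∀ i, x i ∈ Ioc (0 : ℝ) (0 + 1)}, per F y = ∫ y, F y := by
  have hcs : HasCompactSupport F := by
    refine HasCompactSupport.of_support_subset_isCompact (isCompact_closedBall (0 : ι → ℝ) B) ?_
    intro y hy
    rw [mem_closedBall_zero_iff]
    by_contra h
    exact hy (hF y (not_le.mp h))
  have hint : Integrable F := hc.integrable_of_hasCompactSupport hcs
  obtain ⟨N, hN⟩ : ∃ N : ℤ, B + 1 < N := by
    obtain ⟨n, hn⟩ := exists_nat_gt (B + 1)
    exact ⟨n, by exact_mod_cast hn⟩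
  have hnorm : ∀ y ∈ {x : ι → ℝ | ∀ i, x i ∈ Ioc (0 : ℝ) (0 + 1)}, ‖y‖ ≤ 1 := by
    intro y hy
    rw [pi_norm_le_iff_of_nonneg zero_le_one]
    intro i
    have := hy i
    simp only [mem_Ioc, zero_add] at this
    rw [Real.norm_eq_abs, abs_of_pos this.1]
    exact this.2
  have hmeas : ∀ m : ι → ℤ, MeasurableSet {x : ι → ℝ | ∀ i, x i ∈ Ioc (m i : ℝ) (m i + 1)} :=
    fun m => MeasurableSet.univ_pi' (fun i => measurableSet_Ioc)
  have h1 : ∫ y, F y = ∑' m : ι → ℤ, ∫ y in {x : ι → ℝ | ∀ i, x i ∈ Ioc (m i : ℝ) (m i + 1)},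
      F y := by
    rw [← integral_iUnion hmeas cell_disj (by rw [cell_cover]; exact hint.integrableOn),
      cell_cover, setIntegral_univ]
  have h2 : ∀ m : ι → ℤ, ∫ y in {x : ι → ℝ | ∀ i, x i ∈ Ioc (m i : ℝ) (m i + 1)}, F y =
      ∫ y in {x : ι → ℝ | ∀ i, x i ∈ Ioc (0 : ℝ) (0 + 1)}, F (y + sh m) := by
    intro m
    have h3 : MeasurePreserving (fun y : ι → ℝ => y + sh m) volume volume :=
      measurePreserving_add_right volume (sh m)
    have h4 := h3.setIntegral_preimage_emb (measurableEmbedding_addRight (sh m)) F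
      {x : ι → ℝ | ∀ i, x i ∈ Ioc (m i : ℝ) (m i + 1)}
    rw [← h4]
    congr 2
    ext y
    simp only [mem_preimage, mem_ofPred_eq, mem_Ioc, Pi.add_apply, sh]
    constructor
    · intro h i
      have := h i
      constructor <;> linarith [this.1, this.2]
    · intro h i
      have := h i
      constructor <;> linarith [this.1, this.2]
  rw [h1, setIntegral_congr_fun (hs := by simpa using hmeas 0)
    (fun y hy => per_eq hF hN (hnorm y hy))]
  rw [integral_finsetSum]
  · rw [tsum_eq_sum (s := bdd ι N)]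
    · exact Finset.sum_congr rfl (fun m _ => (h2 m).symm)
    · intro m hm
      rw [h2 m]
      apply setIntegral_eq_zero_of_forall_eq_zero
      intro y hy
      exact sh_zero_term hF hN (hnorm y hy) hm
  · intro m _
    exact (hint.comp_add_right (sh m)).integrableOn

lemma coeff_eq {f : (ι → ℝ) → ℂ} (hc : Continuous f) {B : ℝ} (hf : ∀ y, B < ‖y‖ → f y = 0)
    (k : ι → ℤ) :
    UnitAddTorus.mFourierCoeff (perT f (per_cont hc hf)) k = ft f k := by
  rw [UnitAddTorus.mFourierCoeff_eq_integral _ k 0]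
  unfold ft
  have hqc : Continuous (qt ι) := qt_quot.continuous
  rw [← unfold_int (F := fun y => UnitAddTorus.mFourier (-k) (qt ι y) * f y) (by fun_prop)
    (B := B) (fun y hy => by simp [hf y hy])]
  apply setIntegral_congr_fun
  · exact MeasurableSet.univ_pi' (fun i => measurableSet_Ioc)
  intro y _
  change UnitAddTorus.mFourier (-k) (qt ι y) • perT f (per_cont hc hf) (qt ι y) = _
  rw [perT_qt, smul_eq_mul]
  unfold per
  rw [← tsum_mul_left]
  apply tsum_congr
  intro m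
  simp only [qt_sh]

/-- **Poisson non-vanishing.** -/
theorem poisson_ne {f : (ι → ℝ) → ℂ} (hc : Continuous f) {B : ℝ} (hf : ∀ y, B < ‖y‖ → f y = 0)
    (hs : Summable (fun k : ι → ℤ => ‖ft f k‖))
    (hlt : ∑' k : ι → ℤ, (if k = 0 then 0 else ‖ft f k‖) < ‖ft f 0‖) (y : ι → ℝ) :
    ∃ m : ι → ℤ, f (y + sh m) ≠ 0 := by
  classical
  by_contra hcon
  push Not at hcon
  have h0 : per f y = 0 := by
    unfold per
    simp [hcon]
  have hsum : Summable (UnitAddTorus.mFourierCoeff (perT f (per_cont hc hf))) := by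
    apply Summable.of_norm
    simpa only [coeff_eq hc hf] using hs
  have h1 := UnitAddTorus.hasSum_mFourier_series_apply_of_summable hsum (qt ι y)
  rw [perT_qt, h0] at h1
  simp only [coeff_eq hc hf] at h1
  have hpt : ∀ k : ι → ℤ, ‖ft f k • UnitAddTorus.mFourier k (qt ι y)‖ = ‖ft f k‖ := by
    intro k
    rw [norm_smul]
    have : ‖UnitAddTorus.mFourier k (qt ι y)‖ = 1 := by
      simp [UnitAddTorus.mFourier, fourier_apply]
    rw [this, mul_one]
  have h2 : HasSum (fun k : ι → ℤ => if k = 0 then 0 else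
      ft f k • UnitAddTorus.mFourier k (qt ι y)) (0 - ft f 0 •
        UnitAddTorus.mFourier (0 : ι → ℤ) (qt ι y)) := by
    have h3 := h1.sub (hasSum_ite_eq (0 : ι → ℤ) (ft f 0 •
        UnitAddTorus.mFourier (0 : ι → ℤ) (qt ι y)))
    have h3' : (fun k : ι → ℤ => (if k = 0 then 0 else
        ft f k • UnitAddTorus.mFourier k (qt ι y) : ℂ)) = fun b =>
        ft f b • (UnitAddTorus.mFourier b) (qt ι y) -
          if b = 0 then ft f 0 • (UnitAddTorus.mFourier 0) (qt ι y) else 0 := by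
      funext k
      split_ifs with hk
      · subst hk; simp
      · simp
    rw [h3']
    exact h3
  have h4 : ‖ft f 0‖ ≤ ∑' k : ι → ℤ, (if k = 0 then 0 else ‖ft f k‖) := by
    have h5 : Summable (fun k : ι → ℤ => ‖(if k = 0 then 0 else
      ft f k • UnitAddTorus.mFourier k (qt ι y) : ℂ)‖) := by
      refine hs.of_norm_bounded ?_
      intro k
      split_ifs
      · simp
      · rw [norm_norm, hpt]
    have h6 := norm_tsum_le_tsum_norm h5
    rw [h2.tsum_eq, zero_sub, norm_neg, hpt] at h6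
    refine h6.trans (le_of_eq (tsum_congr fun k => ?_))
    split_ifs
    · simp
    · rw [hpt]
  linarith

end CoverF

end Crest.Agent.HB
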