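import Mathlib

/-! Row 32 (S0042), chunk S1, part 2: Fourier transform of the triangle function. -/
set_option autoImplicit false

open MeasureTheory Set Function Complex

namespace Crest.Agent.HB

namespace CoverF

/-- triangle function. -/
noncomputable def tri (t : ℝ) : ℝ := max 0 (1 - |t|)

lemma tri_cont : Continuous tri := by unfold tri; fun_prop

lemma tri_nonneg (t : ℝ) : 0 ≤ tri t := le_max_left _ _

lemma tri_zero_of {t : ℝ} (h : 1 ≤ |t|) : tri t = 0 := max_eq_left (by linarith)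

lemma tri_ne {t : ℝ} (h : tri t ≠ 0) : |t| < 1 := by
  by_contra hc
  exact h (tri_zero_of (not_lt.mp hc))

/-- `∫ tri(t) e^{-ct} dt`. -/
noncomputable def K1 (c : ℂ) : ℂ := ∫ t : ℝ, (tri t : ℂ) * cexp (-c * t)

lemma K1_eq (c : ℂ) : K1 c = (∫ t in (-1 : ℝ)..0, ((1 + t : ℝ) : ℂ) * cexp (-c * t)) +
    ∫ t in (0 : ℝ)..1, ((1 - t : ℝ) : ℂ) * cexp (-c * t) := by
  have hcont : Continuous (fun t : ℝ => (tri t : ℂ) * cexp (-c * t)) := by
    have := tri_cont
    fun_prop
  have h1 : K1 c = ∫ t in (-1 : ℝ)..1, (tri t : ℂ) * cexp (-c * t) := by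
    unfold K1
    rw [intervalIntegral.integral_of_le (by norm_num)]
    symm
    apply setIntegral_eq_integral_of_forall_compl_eq_zero
    intro t ht
    rw [mem_Ioc, not_and_or] at ht
    have : 1 ≤ |t| := by
      rcases ht with h | h
      · rw [le_abs]; right; linarith
      · rw [le_abs]; left; linarith
    rw [tri_zero_of this]; simp
  rw [h1, ← intervalIntegral.integral_add_adjacent_intervals (b := 0)
    (hcont.intervalIntegrable _ _) (hcont.intervalIntegrable _ _)]
  congr 1
  · apply intervalIntegral.integral_congr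
    intro t ht
    rw [uIcc_of_le (by norm_num), mem_Icc] at ht
    simp only
    congr 2
    unfold tri
    rw [abs_of_nonpos ht.2, max_eq_right (by linarith)]
    ring
  · apply intervalIntegral.integral_congr
    intro t ht
    rw [uIcc_of_le (by norm_num), mem_Icc] at ht
    simp only
    congr 2
    unfold tri
    rw [abs_of_nonneg ht.1, max_eq_right (by linarith)]

lemma half_int {c : ℂ} (hc : c ≠ 0) : ∫ t in (0 : ℝ)..1, ((1 - t : ℝ) : ℂ) * cexp (-c * t) =
    cexp (-c) / c ^ 2 + 1 / c - 1 / c ^ 2 := by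
  have h1 : ∀ t ∈ uIcc (0 : ℝ) 1, HasDerivAt
      (fun t : ℝ => (-((1 - t : ℝ) : ℂ) * cexp (-c * t) / c + cexp (-c * t) / c ^ 2))
      (((1 - t : ℝ) : ℂ) * cexp (-c * t)) t := by
    intro t _
    have hid : HasDerivAt (fun t : ℝ => (t : ℂ)) 1 t := Complex.ofRealCLM.hasDerivAt (x := t)
    have he : HasDerivAt (fun t : ℝ => cexp (-c * t)) (cexp (-c * t) * (-c * 1)) t :=
      (hid.const_mul (-c)).cexp
    have hl : HasDerivAt (fun t : ℝ => -((1 - t : ℝ) : ℂ)) 1 t := by
      have h3 := hid.sub_const 1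
      refine h3.congr_of_eventuallyEq (Filter.Eventually.of_forall fun x => ?_)
      push_cast
      ring
    have h2 := ((hl.mul he).div_const c).add (he.div_const (c ^ 2))
    have h4 : (1 * cexp (-c * t) + -((1 - t : ℝ) : ℂ) * (cexp (-c * t) * (-c * 1))) / c +
        cexp (-c * t) * (-c * 1) / c ^ 2 = ((1 - t : ℝ) : ℂ) * cexp (-c * t) := by
      field_simp
      push_cast
      ring
    rw [← h4]
    exact h2
  rw [intervalIntegral.integral_eq_sub_of_hasDerivAt h1]
  · push_cast
    simp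
    ring
  · apply Continuous.intervalIntegrable
    fun_prop

lemma half_int' {c : ℂ} (hc : c ≠ 0) :
    ∫ t in (-1 : ℝ)..0, ((1 + t : ℝ) : ℂ) * cexp (-c * t) =
    cexp c / c ^ 2 - 1 / c - 1 / c ^ 2 := by
  have h := intervalIntegral.integral_comp_neg (a := 0) (b := 1)
    (fun t : ℝ => ((1 + t : ℝ) : ℂ) * cexp (-c * t))
  simp only [neg_zero] at h
  rw [← h]
  have h2 := half_int (c := -c) (neg_ne_zero.mpr hc)
  rw [neg_neg, neg_sq] at h2
  rw [show (∫ t in (0 : ℝ)..1, ((1 + -t : ℝ) : ℂ) * cexp (-c * (-t : ℝ))) =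
    ∫ t in (0 : ℝ)..1, ((1 - t : ℝ) : ℂ) * cexp (c * t) from by
      apply intervalIntegral.integral_congr
      intro t _
      simp [sub_eq_add_neg], h2]
  rw [div_neg]
  ring

lemma K1_ne {c : ℂ} (hc : c ≠ 0) : K1 c = (cexp c + cexp (-c) - 2) / c ^ 2 := by
  rw [K1_eq, half_int hc, half_int' hc]
  field_simp
  ring

lemma K1_zero : K1 0 = 1 := by
  rw [K1_eq]
  simp only [neg_zero, zero_mul, Complex.exp_zero, mul_one]
  rw [intervalIntegral.integral_ofReal, intervalIntegral.integral_ofReal]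
  rw [intervalIntegral.integral_add (by simp) (by simp),
    intervalIntegral.integral_sub (by simp) (by simp)]
  simp
  norm_num

lemma tri_int : ∫ t : ℝ, tri t = 1 := by
  have h := K1_zero
  unfold K1 at h
  simp only [neg_zero, zero_mul, Complex.exp_zero, mul_one] at h
  have h2 : ((∫ t : ℝ, tri t : ℝ) : ℂ) = 1 := by
    rw [← h]
    exact (integral_ofReal (f := tri)).symm
  exact_mod_cast h2

lemma K1_le_one (s : ℝ) : ‖K1 (2 * Real.pi * I * s)‖ ≤ 1 := by
  unfold K1
  refine (norm_integral_le_integral_norm _).trans ?_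
  rw [← tri_int]
  apply le_of_eq
  apply integral_congr_ae
  filter_upwards with t
  rw [norm_mul, Complex.norm_real, Real.norm_of_nonneg (tri_nonneg t)]
  have : ‖cexp (-(2 * Real.pi * I * s) * t)‖ = 1 := by
    rw [show (-(2 * Real.pi * I * s) * t : ℂ) = ((-(2 * Real.pi * s * t) : ℝ) : ℂ) * I by
      push_cast; ring]
    exact Complex.norm_exp_ofReal_mul_I _
  rw [this, mul_one]

lemma K1_bound (s : ℝ) : ‖K1 (2 * Real.pi * I * s)‖ ≤ 2 / (1 + s ^ 2) := by
  by_cases hs : s ^ 2 ≤ 1
  · refine (K1_le_one s).trans ?_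
    rw [le_div_iff₀ (by positivity)]
    linarith
  · push Not at hs
    have hs0 : s ≠ 0 := by rintro rfl; norm_num at hs
    have hc : (2 * Real.pi * I * s : ℂ) ≠ 0 := by
      simp [Real.pi_ne_zero, hs0]
    rw [K1_ne hc, norm_div]
    have h1 : ‖(2 * Real.pi * I * s : ℂ) ^ 2‖ = 4 * Real.pi ^ 2 * s ^ 2 := by
      rw [norm_pow, norm_mul, norm_mul, norm_mul, Complex.norm_I, Complex.norm_real,
        Complex.norm_real]
      simp only [Complex.norm_ofNat, mul_one, Real.norm_eq_abs]
      rw [mul_pow, mul_pow, sq_abs, sq_abs]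
      ring
    have h2 : ‖cexp (2 * Real.pi * I * s) + cexp (-(2 * Real.pi * I * s)) - 2‖ ≤ 4 := by
      have e1 : ‖cexp (2 * Real.pi * I * s)‖ = 1 := by
        rw [show (2 * Real.pi * I * s : ℂ) = ((2 * Real.pi * s : ℝ) : ℂ) * I by push_cast; ring]
        exact Complex.norm_exp_ofReal_mul_I _
      have e2 : ‖cexp (-(2 * Real.pi * I * s))‖ = 1 := by
        rw [show (-(2 * Real.pi * I * s) : ℂ) = ((-(2 * Real.pi * s) : ℝ) : ℂ) * I by
          push_cast; ring]
        exact Complex.norm_exp_ofReal_mul_I _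
      refine (norm_sub_le _ _).trans ?_
      have := norm_add_le (cexp (2 * Real.pi * I * s)) (cexp (-(2 * Real.pi * I * s)))
      rw [e1, e2] at this
      simp only [Complex.norm_ofNat]
      linarith
    rw [h1, div_le_div_iff₀ (by positivity) (by positivity)]
    have hpi : 3 < Real.pi := Real.pi_gt_three
    have h3 : 9 ≤ Real.pi ^ 2 := by nlinarith
    have h4 : ‖cexp (2 * Real.pi * I * s) + cexp (-(2 * Real.pi * I * s)) - 2‖ * (1 + s ^ 2) ≤
        4 * (1 + s ^ 2) := mul_le_mul_of_nonneg_right h2 (by positivity)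
    refine h4.trans ?_
    nlinarith

/-- scaled transform. -/
lemma scaled_int {a : ℝ} (ha : 0 < a) (ξ : ℝ) :
    ∫ t : ℝ, (tri (t / a) : ℂ) * cexp (-(2 * Real.pi * I * ξ) * t) =
      a * K1 (2 * Real.pi * I * (a * ξ : ℝ)) := by
  unfold K1
  have h := MeasureTheory.Measure.integral_comp_div
    (fun t : ℝ => (tri t : ℂ) * cexp (-(2 * Real.pi * I * (a * ξ : ℝ)) * t)) a
  rw [abs_of_pos ha] at h
  rw [← Complex.real_smul, ← h]
  apply integral_congr_ae
  filter_upwards with t
  congr 2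
  have ha' : (a : ℂ) ≠ 0 := by exact_mod_cast ha.ne'
  push_cast
  field_simp

end CoverF

end Crest.Agent.HB
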