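import Crest.Agent.HB.CoverP1
import Crest.Agent.HB.CoverP2

/-! Row 32 (S0042), chunk S1, part 3: change of variables; abstract covering criterion. -/
set_option autoImplicit false

open MeasureTheory Set Function Complex

namespace Crest.Agent.HB

namespace CoverF

variable {ι J : Type*} [Fintype ι] [Fintype J]

lemma lin_cov (M : (ι → ℝ) ≃ₗ[ℝ] (J → ℝ)) : ∃ C : ℝ, 0 < C ∧ ∀ H : (J → ℝ) → ℂ,
    ∫ y, H (M y) = C * ∫ x, H x := by
  classical
  let M' : (ι → ℝ) ≃L[ℝ] (J → ℝ) := M.toContinuousLinearEquiv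
  have h1 : (Measure.map M' (volume : Measure (ι → ℝ))).IsAddHaarMeasure :=
    M'.isAddHaarMeasure_map volume
  have hc := Measure.isAddLeftInvariant_eq_smul
    (Measure.map M' (volume : Measure (ι → ℝ))) (volume : Measure (J → ℝ))
  have hpos := Measure.addHaarScalarFactor_pos_of_isAddHaarMeasure
    (Measure.map M' (volume : Measure (ι → ℝ))) (volume : Measure (J → ℝ))
  refine ⟨Measure.addHaarScalarFactor
    (Measure.map M' (volume : Measure (ι → ℝ))) (volume : Measure (J → ℝ)), hpos, fun H => ?_⟩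
  have h2 : ∫ y, H (M y) = ∫ x, H x ∂(Measure.map M' (volume : Measure (ι → ℝ))) := by
    exact (M'.toHomeomorph.measurableEmbedding.integral_map (μ := volume) H).symm
  rw [h2]
  conv_lhs => rw [hc]
  rw [integral_smul_nnreal_measure]
  rfl

/-- the box function. -/
noncomputable def boxf (M : (ι → ℝ) ≃ₗ[ℝ] (J → ℝ)) (a : ℝ) (y : ι → ℝ) : ℂ :=
  ∏ j, (tri (M y j / a) : ℂ)

lemma boxf_cont (M : (ι → ℝ) ≃ₗ[ℝ] (J → ℝ)) (a : ℝ) : Continuous (boxf M a) := by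
  have hM : Continuous M := M.toContinuousLinearEquiv.continuous
  have := tri_cont
  unfold boxf
  fun_prop

omit [Fintype ι] in
lemma boxf_ne {M : (ι → ℝ) ≃ₗ[ℝ] (J → ℝ)} {a : ℝ} (ha : 0 < a) {y : ι → ℝ}
    (h : boxf M a y ≠ 0) (j : J) : |M y j| < a := by
  unfold boxf at h
  rw [Finset.prod_ne_zero_iff] at h
  have h1 := h j (Finset.mem_univ j)
  have h2 : tri (M y j / a) ≠ 0 := by exact_mod_cast h1
  have h3 := tri_ne h2
  rwa [abs_div, abs_of_pos ha, div_lt_one ha] at h3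

lemma boxf_supp (M : (ι → ℝ) ≃ₗ[ℝ] (J → ℝ)) {a : ℝ} (ha : 0 < a) :
    ∃ B : ℝ, ∀ y, B < ‖y‖ → boxf M a y = 0 := by
  let M' : (J → ℝ) ≃L[ℝ] (ι → ℝ) := M.symm.toContinuousLinearEquiv
  refine ⟨‖(M' : (J → ℝ) →L[ℝ] (ι → ℝ))‖ * a, fun y hy => ?_⟩
  by_contra h
  have h1 : ‖M y‖ ≤ a := by
    rw [pi_norm_le_iff_of_nonneg ha.le]
    intro j
    exact (boxf_ne ha h j).le
  have h2 : ‖y‖ ≤ ‖(M' : (J → ℝ) →L[ℝ] (ι → ℝ))‖ * ‖M y‖ := by
    have := (M' : (J → ℝ) →L[ℝ] (ι → ℝ)).le_opNorm (M y)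
    simpa [M'] using this
  have h3 : ‖(M' : (J → ℝ) →L[ℝ] (ι → ℝ))‖ * ‖M y‖ ≤ ‖(M' : (J → ℝ) →L[ℝ] (ι → ℝ))‖ * a :=
    mul_le_mul_of_nonneg_left h1 (norm_nonneg _)
  linarith

lemma mF_eq (k : ι → ℤ) (y : ι → ℝ) : UnitAddTorus.mFourier (-k) (qt ι y) =
    cexp (-(2 * Real.pi * I) * ((∑ i, (k i : ℝ) * y i : ℝ) : ℂ)) := by
  change ∏ i, fourier ((-k) i) ((y i : ℝ) : UnitAddCircle) = _
  simp only [fourier_coe_apply]
  rw [← Complex.exp_sum]
  congr 1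
  push_cast
  rw [Finset.mul_sum]
  apply Finset.sum_congr rfl
  intro i _
  simp
  ring

lemma ft_boxf (M : (ι → ℝ) ≃ₗ[ℝ] (J → ℝ)) {a : ℝ} (ha : 0 < a)
    (ξ : (ι → ℤ) → J → ℝ) (hξ : ∀ k y, ∑ i, (k i : ℝ) * y i = ∑ j, ξ k j * M y j) :
    ∃ C : ℝ, 0 < C ∧ ∀ k, ft (boxf M a) k = C * ∏ j, K1 (2 * Real.pi * I * (a * ξ k j : ℝ)) := by
  obtain ⟨C, hC, hCH⟩ := lin_cov M
  refine ⟨C * a ^ (Fintype.card J), by positivity, fun k => ?_⟩
  unfold ft
  have h1 : ∀ y : ι → ℝ, UnitAddTorus.mFourier (-k) (qt ι y) * boxf M a y =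
      (fun x : J → ℝ => ∏ j, ((tri (x j / a) : ℂ) * cexp (-(2 * Real.pi * I * ξ k j) * x j)))
        (M y) := by
    intro y
    rw [mF_eq, hξ]
    simp only [Finset.prod_mul_distrib]
    rw [mul_comm, ← Complex.exp_sum]
    unfold boxf
    congr 2
    push_cast
    rw [Finset.mul_sum]
    apply Finset.sum_congr rfl
    intro j _
    ring
  rw [integral_congr_ae (Filter.Eventually.of_forall h1), hCH (fun x : J → ℝ =>
    ∏ j, ((tri (x j / a) : ℂ) * cexp (-(2 * Real.pi * I * ξ k j) * x j))), integral_fintype_prod_volume_eq_prod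
    (f := fun j (t : ℝ) => (tri (t / a) : ℂ) * cexp (-(2 * Real.pi * I * ξ k j) * t))]
  simp_rw [scaled_int ha]
  rw [Finset.prod_mul_distrib]
  simp
  ring

/-- **Abstract covering criterion.** -/
theorem cover_crit (M : (ι → ℝ) ≃ₗ[ℝ] (J → ℝ)) {a : ℝ} (ha : 0 < a)
    (ξ : (ι → ℤ) → J → ℝ) (hξ : ∀ k y, ∑ i, (k i : ℝ) * y i = ∑ j, ξ k j * M y j)
    (hξ0 : ∀ j, ξ 0 j = 0)
    (hsum : ∀ S : Finset (ι → ℤ), 0 ∉ S → ∑ k ∈ S, ∏ j, 2 / (1 + (a * ξ k j) ^ 2) ≤ 1 / 2)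
    (y : ι → ℝ) : ∃ m : ι → ℤ, ∀ j, |M (y + sh m) j| < a := by
  classical
  obtain ⟨C, hC, hft⟩ := ft_boxf M ha ξ hξ
  obtain ⟨B, hB⟩ := boxf_supp M ha
  have hb : ∀ k, ‖ft (boxf M a) k‖ ≤ C * ∏ j, 2 / (1 + (a * ξ k j) ^ 2) := by
    intro k
    rw [hft k, norm_mul, norm_prod, Complex.norm_real, Real.norm_of_nonneg hC.le]
    apply mul_le_mul_of_nonneg_left _ hC.le
    apply Finset.prod_le_prod
    · intro j _; exact norm_nonneg _
    · intro j _; exact K1_bound _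
  have h0 : ‖ft (boxf M a) 0‖ = C := by
    rw [hft 0]
    simp only [hξ0, mul_zero, Complex.ofReal_zero, K1_zero, Finset.prod_const_one, mul_one]
    rw [Complex.norm_real, Real.norm_of_nonneg hC.le]
  have hS : ∀ S : Finset (ι → ℤ),
      ∑ k ∈ S, (if k = 0 then 0 else ‖ft (boxf M a) k‖) ≤ C / 2 := by
    intro S
    have h1 : ∑ k ∈ S, (if k = 0 then 0 else ‖ft (boxf M a) k‖) =
        ∑ k ∈ S.erase 0, ‖ft (boxf M a) k‖ := by
      rw [← Finset.sum_erase S (a := (0 : ι → ℤ)) (by simp)]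
      apply Finset.sum_congr rfl
      intro k hk
      rw [if_neg (Finset.ne_of_mem_erase hk)]
    rw [h1]
    refine (Finset.sum_le_sum (fun k _ => hb k)).trans ?_
    rw [← Finset.mul_sum]
    have := hsum (S.erase 0) (Finset.notMem_erase 0 S)
    nlinarith
  have hsm : Summable (fun k : ι → ℤ => (if k = 0 then 0 else ‖ft (boxf M a) k‖)) :=
    summable_of_sum_le (fun k => by split_ifs <;> simp) hS
  have hsm2 : Summable (fun k : ι → ℤ => ‖ft (boxf M a) k‖) := by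
    have h2 : Summable (fun k : ι → ℤ => (if k = 0 then ‖ft (boxf M a) 0‖ else 0)) :=
      (hasSum_ite_eq (0 : ι → ℤ) _).summable
    refine (hsm.add h2).congr (fun k => ?_)
    split_ifs with hk
    · subst hk; simp
    · simp
  have hlt : ∑' k : ι → ℤ, (if k = 0 then 0 else ‖ft (boxf M a) k‖) < ‖ft (boxf M a) 0‖ := by
    rw [h0]
    have := hsm.tsum_le_of_sum_le hS
    linarith
  obtain ⟨m, hm⟩ := poisson_ne (boxf_cont M a) hB hsm2 hlt y
  exact ⟨m, fun j => boxf_ne ha hm j⟩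

end CoverF

end Crest.Agent.HB
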