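import Mathlib

/-! Row 32 (S0042): common definitions. -/
set_option autoImplicit false

namespace Crest.Agent.HB

/-- Symplectic area of the triangle `x y z` in `(R × R)^D` (twice the area for `D = 1`). -/
def KK {R : Type*} [CommRing R] {D : ℕ} (x y z : Fin D → R × R) : R :=
  ∑ j, (((y j).1 - (x j).1) * ((z j).2 - (x j).2) - ((y j).2 - (x j).2) * ((z j).1 - (x j).1))

end Crest.Agent.HB
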