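import Crest.Agent.HB.QuadStep

/-! Row 32 (S0042), chunk T6: enlarging good extensions. -/
set_option autoImplicit false

open NumberField IsDedekindDomain
open scoped nonZeroDivisors

namespace Crest.Agent.HB

section aux

variable (K L : Type) [Field K] [Field L] [Algebra K L]

theorem ext_mem2 (P : Ideal (𝓞 L)) : (2 : 𝓞 K) ∈ P.under (𝓞 K) ↔ (2 : 𝓞 L) ∈ P := by
  rw [Ideal.under, Ideal.mem_comap, map_ofNat]

theorem ext_mem5 (P : Ideal (𝓞 L)) : (5 : 𝓞 K) ∈ P.under (𝓞 K) ↔ (5 : 𝓞 L) ∈ P := by
  rw [Ideal.under, Ideal.mem_comap, map_ofNat]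

theorem ext_under_ne_bot (P : Ideal (𝓞 L)) (hP : P ≠ ⊥) : P.under (𝓞 K) ≠ ⊥ :=
  Ideal.IsIntegral.comap_ne_bot (𝓞 K) hP

theorem ext_exists_over (P : Ideal (𝓞 K)) [P.IsPrime] :
    ∃ Q : Ideal (𝓞 L), Q.IsPrime ∧ Q.LiesOver P := by
  obtain ⟨⟨Q, hQ1, hQ2⟩⟩ := P.nonempty_primesOver (S := 𝓞 L)
  exact ⟨Q, hQ1, hQ2⟩

theorem ext_ne_bot_over (P : Ideal (𝓞 K)) (hP : P ≠ ⊥) (Q : Ideal (𝓞 L)) [Q.LiesOver P] :
    Q ≠ ⊥ := Ideal.ne_bot_of_liesOver_of_ne_bot hP Q

theorem ext_ne_bot_of_mem {R : Type*} [CommRing R] {P : Ideal R} {a : R} (ha : a ≠ 0)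
    (h : a ∈ P) : P ≠ ⊥ := by
  rintro rfl
  exact ha (by simpa using h)

end aux

/-- Ramification/splitting facts in towers. -/
theorem unram_trans (K L M : Type) [Field K] [NumberField K] [Field L] [NumberField L]
    [Field M] [NumberField M] [Algebra K L] [Algebra L M] [Algebra K M] [IsScalarTower K L M]
    (h1 : Unram K L) (h2 : Unram L M) : Unram K M := by
  intro P hP hP0
  have hq : (P.under (𝓞 L)).IsPrime := hP.under _
  rw [Ideal.ramificationIdx_tower (R := 𝓞 K) (P.under (𝓞 L)) P,
    h1 _ hq (ext_under_ne_bot L M P hP0), h2 P hP hP0]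

theorem unram_top (K L M : Type) [Field K] [NumberField K] [Field L] [NumberField L]
    [Field M] [NumberField M] [Algebra K L] [Algebra L M] [Algebra K M] [IsScalarTower K L M]
    (h : Unram K M) : Unram L M := by
  intro P hP hP0
  have := Ideal.ramificationIdx_tower (R := 𝓞 K) (P.under (𝓞 L)) P
  rw [h P hP hP0] at this
  exact Nat.eq_one_of_mul_eq_one_left this.symm

theorem unram_bot (K L M : Type) [Field K] [NumberField K] [Field L] [NumberField L]
    [Field M] [NumberField M] [Algebra K L] [Algebra L M] [Algebra K M] [IsScalarTower K L M]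
    (h : Unram K M) : Unram K L := by
  intro P hP hP0
  obtain ⟨Q, hQ, hQP⟩ := ext_exists_over L M P
  have := Ideal.ramificationIdx_tower (R := 𝓞 K) P Q
  rw [h Q hQ (ext_ne_bot_over L M P hP0 Q)] at this
  exact Nat.eq_one_of_mul_eq_one_right this.symm

theorem split5_bot (L M : Type) [Field L] [NumberField L] [Field M] [NumberField M] [Algebra L M]
    (h : Split5 M) : Split5 L := by
  intro P hP h5
  obtain ⟨Q, hQ, hQP⟩ := ext_exists_over L M P
  have h5Q : (5 : 𝓞 M) ∈ Q := by
    have h := Ideal.over_def Q P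
    rw [h] at h5
    exact (ext_mem5 L M Q).1 h5
  obtain ⟨h1, h2⟩ := h Q hQ h5Q
  constructor
  · have h3 := Ideal.absNorm_pow_inertiaDeg P Q
    rw [h1] at h3
    have hne : Ideal.absNorm P ≠ 1 := by
      rw [Ne, Ideal.absNorm_eq_one_iff]; exact hP.ne_top
    have hp : Nat.Prime 5 := by norm_num
    have hdvd : Ideal.absNorm P ∣ 5 := by
      conv_rhs => rw [← h3]
      refine dvd_pow_self _ ?_
      intro h0
      rw [h0] at h3
      norm_num at h3
    rcases (Nat.Prime.eq_one_or_self_of_dvd hp (Ideal.absNorm P) hdvd) with h | h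
    · exact absurd h hne
    · exact h
  · have := Ideal.ramificationIdx_tower (R := ℤ) P Q
    rw [h2] at this
    exact Nat.eq_one_of_mul_eq_one_right this.symm

theorem totComplex_up (K L : Type) [Field K] [NumberField K] [Field L] [NumberField L] [Algebra K L]
    (h : TotComplex K) : TotComplex L := by
  intro w
  by_contra hw
  rw [InfinitePlace.not_isComplex_iff_isReal] at hw
  have := hw.comap (algebraMap K L)
  rw [← InfinitePlace.not_isComplex_iff_isReal] at this
  exact this (h _)

theorem odd2_up (K L : Type) [Field K] [NumberField K] [Field L] [NumberField L] [Algebra K L]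
    (h : Odd2 K) (hu : Unram K L) : Odd2 L := by
  intro P hP h2
  have hP0 : P ≠ ⊥ := ext_ne_bot_of_mem two_ne_zero h2
  have hq : (P.under (𝓞 K)).IsPrime := hP.under _
  rw [Ideal.ramificationIdx_tower (R := ℤ) (P.under (𝓞 K)) P, h _ hq ?_, hu P hP hP0]
  exact (ext_mem2 K L P).2 h2

theorem locSq_up (K L : Type) [Field K] [NumberField K] [Field L] [NumberField L] [Algebra K L]
    (x : K) (h : LocSq x) : LocSq (algebraMap K L x) := by
  intro P hP hP0
  have hq : (P.under (𝓞 K)).IsPrime := hP.under _
  obtain ⟨t, y, z, ht, hy, hxy, h2, h5⟩ := h (P.under (𝓞 K)) hq (ext_under_ne_bot K L P hP0)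
  refine ⟨algebraMap K L t, algebraMap (𝓞 K) (𝓞 L) y, algebraMap (𝓞 K) (𝓞 L) z, ?_, ?_, ?_, ?_, ?_⟩
  · simpa using ht
  · simpa [Ideal.mem_comap] using hy
  · rw [← map_pow, ← map_mul, hxy]
    rfl
  · intro h2P
    have := h2 ((ext_mem2 K L P).2 h2P)
    have h3 : algebraMap (𝓞 K) (𝓞 L) (y - z ^ 2) ∈ (P.under (𝓞 K) ^ 2).map
      (algebraMap (𝓞 K) (𝓞 L)) := Ideal.mem_map_of_mem _ this
    rw [Ideal.map_pow] at h3
    have h4 := Ideal.pow_right_mono (Ideal.map_comap_le (K := P) (f := algebraMap (𝓞 K) (𝓞 L))) 2 h3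
    simpa using h4
  · intro h5P
    have := h5 ((ext_mem5 K L P).2 h5P)
    simpa [Ideal.mem_comap] using this

theorem locSq_hom (K L : Type) [Field K] [NumberField K] [Field L] [NumberField L]
    (φ : K →+* L) (x : K) (h : LocSq x) : LocSq (φ x) :=
  @locSq_up K L _ _ _ _ φ.toAlgebra x h

/-- Extensions of degree one. -/
theorem ext_deg_one (L M : Type) [Field L] [NumberField L] [Field M] [NumberField M] [Algebra L M]
    (h1 : Module.finrank L M = 1) (hodd : Odd2 L) (h5 : Split5 L) :
    Unram L M ∧ Odd2 M ∧ Split5 M := by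
  have key : ∀ P : Ideal (𝓞 M), P.IsPrime → P ≠ ⊥ →
      P.ramificationIdx (𝓞 L) = 1 ∧ P.inertiaDeg (𝓞 L) = 1 := by
    intro P hP hP0
    have hq : (P.under (𝓞 L)).IsPrime := hP.under _
    have hq0 := ext_under_ne_bot L M P hP0
    have hqm : (P.under (𝓞 L)).IsMaximal := hq.isMaximal hq0
    have hPm : P.IsMaximal := hP.isMaximal hP0
    have hsum := Ideal.sum_ramification_inertia_eq_finrank (P.under (𝓞 L)) (𝓞 M)
    rw [← IsFractionRing.finrank_eq (𝓞 L) L (𝓞 M) M, h1] at hsum
    have hle := Finset.single_le_sum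
      (f := fun q : (P.under (𝓞 L)).primesOver (𝓞 M) =>
        q.1.ramificationIdx (𝓞 L) * q.1.inertiaDeg (𝓞 L)) (fun _ _ => Nat.zero_le _)
      (Finset.mem_univ (⟨P, hP, inferInstance⟩ : (P.under (𝓞 L)).primesOver (𝓞 M)))
    rw [hsum] at hle
    have he := P.ramificationIdx_pos (𝓞 L)
    have hf := P.inertiaDeg_pos (𝓞 L)
    have h2 : P.ramificationIdx (𝓞 L) * P.inertiaDeg (𝓞 L) = 1 :=
      le_antisymm hle (Nat.mul_pos he hf)
    exact ⟨Nat.eq_one_of_mul_eq_one_right h2, Nat.eq_one_of_mul_eq_one_left h2⟩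
  have hu : Unram L M := fun P hP hP0 => (key P hP hP0).1
  refine ⟨hu, odd2_up L M hodd hu, ?_⟩
  intro P hP h5P
  have hP0 : P ≠ ⊥ := ext_ne_bot_of_mem (by norm_num) h5P
  have hq : (P.under (𝓞 L)).IsPrime := hP.under _
  obtain ⟨hn, he⟩ := h5 _ hq ((ext_mem5 L M P).2 h5P)
  refine ⟨?_, ?_⟩
  · rw [← Ideal.absNorm_pow_inertiaDeg (P.under (𝓞 L)) P, (key P hP hP0).2, hn, pow_one]
  · rw [Ideal.ramificationIdx_tower (R := ℤ) (P.under (𝓞 L)) P, he, hu P hP hP0]

/-- Adjoining finitely many square roots of elements satisfying the local conditions. -/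
theorem ext_roots (k : ℕ) : ∀ (L M : Type) [Field L] [NumberField L] [Field M] [NumberField M]
    [Algebra L M] (T : Finset M), T.card = k →
    (∀ r ∈ T, ∃ s : L, LocSq s ∧ r ^ 2 = algebraMap L M s) →
    IntermediateField.adjoin L (T : Set M) = ⊤ → Odd2 L → Split5 L →
    Unram L M ∧ Odd2 M ∧ Split5 M ∧ ∃ n, Module.finrank L M = 2 ^ n := by
  classical
  induction k with
  | zero =>
    intro L M _ _ _ _ _ T hT _ htop hodd h5
    rw [Finset.card_eq_zero] at hT
    subst hT
    simp only [Finset.coe_empty, IntermediateField.adjoin_empty] at htop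
    have h1 : Module.finrank L M = 1 := by
      rw [← IntermediateField.finrank_top', ← htop, IntermediateField.finrank_bot]
    obtain ⟨h2, h3, h4⟩ := ext_deg_one L M h1 hodd h5
    exact ⟨h2, h3, h4, 0, by simpa using h1⟩
  | succ k ih =>
    intro L M _ _ _ _ _ T hT hroots htop hodd h5
    obtain ⟨r, hr⟩ : T.Nonempty := by
      rw [← Finset.card_pos, hT]; exact Nat.succ_pos k
    obtain ⟨s, hs, hrs⟩ := hroots r hr
    set L₁ : IntermediateField L M := IntermediateField.adjoin L {r} with hL₁
    have hint : IsIntegral L r := Algebra.IsIntegral.isIntegral r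
    have hstep : Unram L L₁ ∧ Odd2 L₁ ∧ Split5 L₁ ∧ ∃ n, Module.finrank L L₁ = 2 ^ n := by
      have hfr : Module.finrank L L₁ = (minpoly L r).natDegree :=
        IntermediateField.adjoin.finrank hint
      have hdvd : minpoly L r ∣ (Polynomial.X ^ 2 - Polynomial.C s) := by
        apply minpoly.dvd
        simp [hrs]
      have hne : (Polynomial.X ^ 2 - Polynomial.C s : Polynomial L) ≠ 0 :=
        Polynomial.X_pow_sub_C_ne_zero (by norm_num) s
      have hle : (minpoly L r).natDegree ≤ 2 := by
        have := Polynomial.natDegree_le_of_dvd hdvd hne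
        rwa [Polynomial.natDegree_X_pow_sub_C] at this
      have hpos := minpoly.natDegree_pos hint
      rcases (by omega : (minpoly L r).natDegree = 1 ∨ (minpoly L r).natDegree = 2) with h | h
      · rw [h] at hfr
        obtain ⟨h2, h3, h4⟩ := ext_deg_one L L₁ hfr hodd h5
        exact ⟨h2, h3, h4, 0, by simpa using hfr⟩
      · rw [h] at hfr
        have hmem : r ∈ L₁ := IntermediateField.mem_adjoin_simple_self L r
        have hsq : (⟨r, hmem⟩ : L₁) ^ 2 = algebraMap L L₁ s := by
          apply Subtype.ext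
          simpa using hrs
        have hns : ¬ IsSquare s := by
          rintro ⟨u, hu⟩
          have h1 : r ^ 2 = (algebraMap L M u) ^ 2 := by
            rw [hrs, hu, map_mul, sq]
          have h2 : r ∈ (algebraMap L M).range := by
            rcases sq_eq_sq_iff_eq_or_eq_neg.1 h1 with h2 | h2
            · exact ⟨u, h2.symm⟩
            · exact ⟨-u, by rw [map_neg]; exact h2.symm⟩
          have h3 := (minpoly.natDegree_eq_one_iff (A := L) (x := r)).2 h2
          omega
        obtain ⟨h2, h3, h4⟩ := quad_step L L₁ hfr s ⟨r, hmem⟩ hsq hns hodd hs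
        exact ⟨h2, h3, h4 h5, 1, by simpa using hfr⟩
    obtain ⟨hu1, ho1, hs1, n1, hn1⟩ := hstep
    obtain ⟨hu2, ho2, hs2, n2, hn2⟩ := ih L₁ M (T.erase r) (by rw [Finset.card_erase_of_mem hr, hT]; rfl)
      (by
        intro r' hr'
        obtain ⟨s', hs', hrs'⟩ := hroots r' (Finset.mem_of_mem_erase hr')
        exact ⟨algebraMap L L₁ s', locSq_up L L₁ s' hs', by
          rw [hrs', ← IsScalarTower.algebraMap_apply]⟩)
      (by
        have hU : ({r} : Set M) ∪ ((T.erase r : Finset M) : Set M) = (T : Set M) := by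
          ext a
          simp only [Set.mem_union, Set.mem_singleton_iff, Finset.coe_erase, Set.mem_sdiff,
            Finset.mem_coe]
          constructor
          · rintro (rfl | h)
            · exact hr
            · exact h.1
          · intro h
            by_cases ha : a = r
            · exact Or.inl ha
            · exact Or.inr ⟨h, ha⟩
        have h1 := IntermediateField.adjoin_adjoin_left L ({r} : Set M) ((T.erase r : Finset M) : Set M)
        rw [hU, htop] at h1
        rw [← IntermediateField.restrictScalars_eq_top_iff (K := L)]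
        exact h1)
      ho1 hs1
    refine ⟨unram_trans L L₁ M hu1 hu2, ho2, hs2, n1 + n2, ?_⟩
    rw [← Module.finrank_mul_finrank L L₁ M, hn1, hn2, pow_add]

/-- Enlarging a good extension by the square roots of all the conjugates of an element. -/
theorem ext_orbit (K L : Type) [Field K] [NumberField K] [Field L] [NumberField L] [Algebra K L]
    (hK : BaseField K) (hL : Good K L) (x : L) (hloc : LocSq x) :
    ∃ (M : Type) (_ : Field M) (_ : NumberField M) (_ : Algebra K M) (_ : Algebra L M)
      (_ : IsScalarTower K L M), Good K M ∧ IsSquare (algebraMap L M x) := by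
  classical
  have hgal := hL.gal
  obtain ⟨g, hg⟩ : ∃ g : Polynomial K, g = (minpoly K x).comp (Polynomial.X ^ 2) := ⟨_, rfl⟩
  have hint : IsIntegral K x := Algebra.IsIntegral.isIntegral x
  have hmp0 : minpoly K x ≠ 0 := minpoly.ne_zero hint
  have hg0 : g ≠ 0 := by
    rw [hg, Ne, Polynomial.comp_eq_zero_iff]
    rintro (h | ⟨-, h⟩)
    · exact hmp0 h
    · have := congrArg Polynomial.natDegree h
      rw [Polynomial.natDegree_C, Polynomial.natDegree_X_pow] at this
      norm_num at this
  have hgL0 : g.map (algebraMap K L) ≠ 0 :=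
    (Polynomial.map_ne_zero_iff (algebraMap K L).injective).2 hg0
  obtain ⟨M, _, _, _, hST, hM⟩ : ∃ (M : Type) (_ : Field M) (_ : Algebra K M) (_ : Algebra L M)
      (_ : IsScalarTower K L M), Polynomial.IsSplittingField L M (g.map (algebraMap K L)) :=
    ⟨(g.map (algebraMap K L)).SplittingField, inferInstance, inferInstance, inferInstance,
      inferInstance, inferInstance⟩
  have hfin : FiniteDimensional L M :=
    Polynomial.IsSplittingField.finiteDimensional M (g.map (algebraMap K L))
  have hNF : NumberField M := NumberField.of_module_finite L M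
  have hroots : ∀ r ∈ ((g.map (algebraMap K L)).aroots M).toFinset,
      ∃ s : L, LocSq s ∧ r ^ 2 = algebraMap L M s := by
    intro r hr
    rw [Multiset.mem_toFinset, Polynomial.mem_aroots] at hr
    have h1 : Polynomial.aeval (r ^ 2) (minpoly K x) = 0 := by
      have h2 := hr.2
      rw [Polynomial.aeval_map_algebraMap, hg, Polynomial.aeval_comp] at h2
      simpa using h2
    have h3 : ((minpoly K x).map (algebraMap K L)).Splits := Normal.splits inferInstance x
    have h4 : r ^ 2 ∈ (algebraMap L M).range := by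
      apply h3.mem_range_of_isRoot ((Polynomial.map_ne_zero_iff (algebraMap K L).injective).2 hmp0)
      rw [Polynomial.map_map, ← IsScalarTower.algebraMap_eq, Polynomial.IsRoot.def,
        Polynomial.eval_map_algebraMap]
      exact h1
    obtain ⟨s, hs⟩ := h4
    refine ⟨s, ?_, hs.symm⟩
    have h5 : Polynomial.aeval s (minpoly K x) = 0 := by
      rw [← hs, Polynomial.aeval_algebraMap_apply] at h1
      exact (algebraMap L M).injective (by rw [h1, map_zero])
    obtain ⟨σ, hσ⟩ := minpoly.exists_algEquiv_of_root (K := K) (x := s) (y := x)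
      (Algebra.IsAlgebraic.isAlgebraic x) h5
    have h6 : s = (σ.symm : L →+* L) x := by
      rw [← hσ]
      simp
    rw [h6]
    exact locSq_hom L L _ x hloc
  have htop : IntermediateField.adjoin L
      ((((g.map (algebraMap K L)).aroots M).toFinset : Finset M) : Set M) = ⊤ := by
    apply IntermediateField.adjoin_eq_top_of_algebra
    have h1 := Polynomial.IsSplittingField.adjoin_rootSet M (g.map (algebraMap K L))
    rwa [Polynomial.rootSet_def] at h1
  obtain ⟨hu, ho, hs, n, hn⟩ := ext_roots _ L M _ rfl hroots htop (odd2_up K L hK.odd2 hL.unram)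
    hL.split
  have hnormal : Normal K M := by
    obtain ⟨f, hf⟩ := Normal.exists_isSplittingField K L
    have : ∃ f : Polynomial K, f ≠ 0 ∧ Polynomial.IsSplittingField K L f := by
      by_cases hf0 : f = 0
      · refine ⟨1, one_ne_zero, ?_⟩
        rw [hf0] at hf
        refine ⟨by simp, ?_⟩
        have h1 := hf.adjoin_rootSet'
        simpa using h1
      · exact ⟨f, hf0, hf⟩
    obtain ⟨f, hf0, hf⟩ := this
    have h2 := Polynomial.IsSplittingField.mul (F := K) (K := L) M f g hf0 hg0
    exact Normal.of_isSplittingField (f * g)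
  obtain ⟨m, hm⟩ := hL.pow
  refine ⟨M, inferInstance, hNF, inferInstance, inferInstance, hST, ⟨?_, ⟨m + n, ?_⟩, ?_, hs⟩, ?_⟩
  · exact {}
  · rw [← Module.finrank_mul_finrank K L M, hm, hn, pow_add]
  · exact unram_trans K L M hL.unram hu
  · have h1 : (Polynomial.X ^ 2 - Polynomial.C x) ∣ g.map (algebraMap K L) := by
      have h2 : (Polynomial.X - Polynomial.C x) ∣ (minpoly K x).map (algebraMap K L) := by
        rw [Polynomial.dvd_iff_isRoot, Polynomial.IsRoot.def, Polynomial.eval_map_algebraMap]
        exact minpoly.aeval K x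
      obtain ⟨q, hq⟩ := h2
      refine ⟨q.comp (Polynomial.X ^ 2), ?_⟩
      rw [hg, Polynomial.map_comp, hq]
      simp
    have h2 : (Polynomial.X ^ 2 - Polynomial.C (algebraMap L M x)) ∣
        (g.map (algebraMap K L)).map (algebraMap L M) := by
      have h3 := Polynomial.map_dvd (algebraMap L M) h1
      simpa using h3
    have h3 : (Polynomial.X ^ 2 - Polynomial.C (algebraMap L M x)).Splits :=
      hM.splits'.of_dvd ((Polynomial.map_ne_zero_iff (algebraMap L M).injective).2 hgL0) h2
    obtain ⟨a, ha⟩ := h3.exists_eval_eq_zero (by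
      rw [Polynomial.degree_X_pow_sub_C (by norm_num)]
      norm_num)
    refine ⟨a, ?_⟩
    simp only [Polynomial.eval_sub, Polynomial.eval_pow, Polynomial.eval_X, Polynomial.eval_C] at ha
    rw [← sq]
    exact (sub_eq_zero.1 ha).symm

/-- Adjoining to a good `L/K` the square root of an element of `K` satisfying the local
conditions. -/
theorem extend_base (K L : Type) [Field K] [NumberField K] [Field L] [NumberField L] [Algebra K L]
    (hK : BaseField K) (hL : Good K L) (x : K) (hx : x ≠ 0) (hloc : LocSq x) :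
    ∃ (M : Type) (_ : Field M) (_ : NumberField M) (_ : Algebra K M) (_ : Algebra L M)
      (_ : IsScalarTower K L M), Good K M ∧ IsSquare (algebraMap K M x) := by
  obtain ⟨M, h1, h2, h3, h4, h5, h6, h7⟩ := ext_orbit K L hK hL (algebraMap K L x)
    (locSq_up K L x hloc)
  refine ⟨M, h1, h2, h3, h4, h5, h6, ?_⟩
  rwa [← IsScalarTower.algebraMap_apply] at h7

/-- A good `L/K` that has a nonsquare element `x` satisfying the local conditions is contained in a
strictly larger good extension.

Proof. Work in an algebraic closure of `L`; `M = L({√(σx) : σ ∈ Gal(L/K)})`. Every `σx` satisfies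
`LocSq`, in `L` and hence in every extension of `L` (`locSq_up`). Adjoin the roots one at a time,
every step being trivial or covered by `quad_step`; so `M/L` is unramified of 2-power degree and
`M` is split at 5. `M/K` is normal because every `K`-embedding permutes the set `{±√(σx)}`. -/
theorem extend_good (K L : Type) [Field K] [NumberField K] [Field L] [NumberField L] [Algebra K L]
    (hK : BaseField K) (hL : Good K L) (x : L) (hx : ¬ IsSquare x) (hloc : LocSq x) :
    ∃ (M : Type) (_ : Field M) (_ : NumberField M) (_ : Algebra K M) (_ : Algebra L M)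
      (_ : IsScalarTower K L M), Good K M ∧ Module.finrank K L < Module.finrank K M := by
  obtain ⟨M, h1, h2, h3, h4, h5, h6, h7⟩ := ext_orbit K L hK hL x hloc
  refine ⟨M, h1, h2, h3, h4, h5, h6, ?_⟩
  have hpos : 0 < Module.finrank K L := Module.finrank_pos
  have hpos' : 0 < Module.finrank L M := Module.finrank_pos
  have hne : Module.finrank L M ≠ 1 := by
    intro h8
    have h9 : (⊥ : Subalgebra L M) = ⊤ := Subalgebra.bot_eq_top_iff_finrank_eq_one.2 h8
    obtain ⟨a, ha⟩ := h7
    have h10 : a ∈ (⊥ : Subalgebra L M) := by rw [h9]; trivial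
    rw [Algebra.mem_bot] at h10
    obtain ⟨b, rfl⟩ := h10
    apply hx
    refine ⟨b, ?_⟩
    rw [← map_mul] at ha
    exact (algebraMap L M).injective ha
  rw [← Module.finrank_mul_finrank K L M]
  calc Module.finrank K L = Module.finrank K L * 1 := (mul_one _).symm
    _ < Module.finrank K L * Module.finrank L M :=
      Nat.mul_lt_mul_of_pos_left (by omega) hpos

end Crest.Agent.HB
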