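import Mathlib

/-! Row 32 (S0042), chunk T4, part 1: group theory for `factC`. -/
set_option autoImplicit false

namespace Crest.Agent.HB.FC

/-- Extending a section over a subgroup of index 2. -/
theorem extend_index_two {G E : Type*} [Group G] [Group E] (p : E →* G) (H : Subgroup G)
    (hH : H.index = 2) (s : G → E) (hs : ∀ x ∈ H, ∀ y ∈ H, s (x * y) = s x * s y)
    (hp : ∀ x ∈ H, p (s x) = x) (g : G) (hg : g ∉ H) (e : E) (he : p e = g)
    (hconj : ∀ h ∈ H, e * s h = s (g * h * g⁻¹) * e) (hsq : e * e = s (g * g)) :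
    ∃ s' : G → E, (∀ x y, s' (x * y) = s' x * s' y) ∧ ∀ x, p (s' x) = x := by
  classical
  have hmem : ∀ {a b : G}, a * b ∈ H ↔ (a ∈ H ↔ b ∈ H) := Subgroup.mul_mem_iff_of_index_two hH
  have hginv : g⁻¹ ∉ H := by simpa using hg
  have hconjmem : ∀ h ∈ H, g * h * g⁻¹ ∈ H := by
    intro h hh
    rw [hmem, hmem]
    simp [hg, hh, hginv]
  have hgg : g * g ∈ H := by rw [hmem]
  refine ⟨fun x => if x ∈ H then s x else s (x * g⁻¹) * e, ?_, ?_⟩
  · intro x y
    by_cases hx : x ∈ H
    · by_cases hy : y ∈ H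
      · simp only [hx, hy, H.mul_mem hx hy, if_true]
        exact hs x hx y hy
      · have hxy : x * y ∉ H := by rw [hmem]; simp [hx, hy]
        have hyg : y * g⁻¹ ∈ H := by rw [hmem]; simp [hy, hginv]
        simp only [hx, hy, hxy, if_true, if_false]
        rw [mul_assoc x y, hs x hx _ hyg, mul_assoc]
    · by_cases hy : y ∈ H
      · have hxy : x * y ∉ H := by rw [hmem]; simp [hx, hy]
        have hxg : x * g⁻¹ ∈ H := by rw [hmem]; simp [hx, hginv]
        simp only [hx, hy, hxy, if_true, if_false]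
        rw [mul_assoc (s _) e, hconj y hy, ← mul_assoc, ← hs _ hxg _ (hconjmem y hy)]
        congr 2
        group
      · have hxy : x * y ∈ H := by rw [hmem]; simp [hx, hy]
        have hxg : x * g⁻¹ ∈ H := by rw [hmem]; simp [hx, hginv]
        have hyg : y * g⁻¹ ∈ H := by rw [hmem]; simp [hy, hginv]
        simp only [hx, hy, hxy, if_true, if_false]
        have h1 : s (x * g⁻¹) * e * (s (y * g⁻¹) * e) =
            s (x * g⁻¹) * (e * s (y * g⁻¹)) * e := by group
        have h2 : s (x * g⁻¹) * (s (g * (y * g⁻¹) * g⁻¹) * e) * e =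
            s (x * g⁻¹) * s (g * (y * g⁻¹) * g⁻¹) * (e * e) := by group
        rw [h1, hconj _ hyg, h2, hsq, ← hs _ hxg _ (hconjmem _ hyg),
          ← hs _ (H.mul_mem hxg (hconjmem _ hyg)) _ hgg]
        congr 1
        group
  · intro x
    by_cases hx : x ∈ H
    · simp only [hx, if_true]
      exact hp x hx
    · have hxg : x * g⁻¹ ∈ H := by rw [hmem]; simp [hx, hginv]
      simp only [hx, if_false, map_mul]
      rw [hp _ hxg, he]
      group

variable {G A : Type*} [Group G] [CommGroup A] [MulDistribMulAction G A]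

/-- A multiplicative 2-cocycle. -/
structure Cocycle (G A : Type*) [Group G] [CommGroup A] [MulDistribMulAction G A] where
  f : G → G → A
  hf : ∀ g h j : G, f (g * h) j * f g h = g • f h j * f g (h * j)

/-- The extension of `G` by `A` attached to a cocycle. -/
@[ext]
structure Ext (c : Cocycle G A) where
  x : A
  g : G

namespace Ext

variable (c : Cocycle G A)

theorem f_one_left (g : G) : c.f 1 g = c.f 1 1 := by
  have := c.hf 1 1 g
  rw [one_mul, one_mul, one_smul] at this
  exact (mul_left_cancel this).symm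

instance : Mul (Ext c) := ⟨fun a b => ⟨a.x * a.g • b.x * c.f a.g b.g, a.g * b.g⟩⟩
instance : One (Ext c) := ⟨⟨(c.f 1 1)⁻¹, 1⟩⟩
instance : Inv (Ext c) := ⟨fun a => ⟨(c.f 1 1)⁻¹ * (c.f a.g⁻¹ a.g)⁻¹ * (a.g⁻¹ • a.x)⁻¹, a.g⁻¹⟩⟩

variable {c}

@[simp] theorem mul_x (a b : Ext c) : (a * b).x = a.x * a.g • b.x * c.f a.g b.g := rfl
@[simp] theorem mul_g (a b : Ext c) : (a * b).g = a.g * b.g := rfl
@[simp] theorem one_x : (1 : Ext c).x = (c.f 1 1)⁻¹ := rfl
@[simp] theorem one_g : (1 : Ext c).g = 1 := rfl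
@[simp] theorem inv_x (a : Ext c) :
    (a⁻¹).x = (c.f 1 1)⁻¹ * (c.f a.g⁻¹ a.g)⁻¹ * (a.g⁻¹ • a.x)⁻¹ := rfl
@[simp] theorem inv_g (a : Ext c) : (a⁻¹).g = a.g⁻¹ := rfl

instance : Group (Ext c) := Group.ofLeftAxioms
  (by
    intro a b d
    ext
    · simp only [mul_x, mul_g, smul_mul', mul_smul]
      have := c.hf a.g b.g d.g
      calc a.x * a.g • b.x * c.f a.g b.g * a.g • b.g • d.x * c.f (a.g * b.g) d.g
          = a.x * a.g • b.x * a.g • b.g • d.x * (c.f (a.g * b.g) d.g * c.f a.g b.g) := by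
            simp only [mul_assoc, mul_comm, mul_left_comm]
        _ = a.x * (a.g • b.x * a.g • b.g • d.x * a.g • c.f b.g d.g) * c.f a.g (b.g * d.g) := by
            rw [this]; simp only [mul_assoc]
    · simp [mul_assoc])
  (by
    intro a
    ext
    · simp [f_one_left]
    · simp)
  (by
    intro a
    ext
    · simp
    · simp)

/-- The projection to `G`. -/
def p (c : Cocycle G A) : Ext c →* G where
  toFun := fun a => a.g
  map_one' := rfl
  map_mul' := fun _ _ => rfl

/-- The inclusion of `A`. -/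
def i (c : Cocycle G A) (y : A) : Ext c := ⟨y * (c.f 1 1)⁻¹, 1⟩

@[simp] theorem p_apply (a : Ext c) : p c a = a.g := rfl
@[simp] theorem i_g (y : A) : (i c y).g = 1 := rfl
@[simp] theorem i_x (y : A) : (i c y).x = y * (c.f 1 1)⁻¹ := rfl

theorem f_one_right (g : G) : c.f g 1 = g • c.f 1 1 := by
  have := c.hf g 1 1
  rw [mul_one, mul_one] at this
  exact mul_right_cancel this

theorem i_mul_x (y : A) (a : Ext c) : (i c y * a).x = y * a.x := by
  simp only [mul_x, i_g, i_x, one_smul, f_one_left]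
  rw [mul_right_comm, inv_mul_cancel_right]

theorem i_mul_i (y z : A) : i c (y * z) = i c y * i c z := by
  ext
  · rw [i_mul_x]; simp [mul_assoc]
  · simp

theorem i_one : i c 1 = 1 := by
  ext
  · simp
  · simp

theorem i_inv (y : A) : i c y⁻¹ = (i c y)⁻¹ := by
  rw [eq_inv_iff_mul_eq_one, ← i_mul_i, inv_mul_cancel, i_one]

theorem i_injective : Function.Injective (i c) := by
  intro y z h
  have := congrArg Ext.x h
  simpa using this

theorem mul_i (a : Ext c) (y : A) : a * i c y = i c (a.g • y) * a := by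
  ext
  · rw [i_mul_x, mul_x, i_g, i_x, f_one_right a.g, smul_mul', smul_inv', ← mul_assoc,
      inv_mul_cancel_right, mul_comm]
  · simp

theorem exists_i (a b : Ext c) (h : a.g = b.g) : ∃ y : A, a = i c y * b := by
  refine ⟨a.x * b.x⁻¹, ?_⟩
  ext
  · rw [i_mul_x]; simp
  · simp [h]

/-- The main step: lifting an element outside a subgroup of index two compatibly with a section. -/
theorem step (H : Subgroup G) (hH : H.index = 2) (s : G → Ext c)
    (hs : ∀ x ∈ H, ∀ y ∈ H, s (x * y) = s x * s y) (hp : ∀ x ∈ H, (s x).g = x)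
    (h90 : ∀ z : G → A, (∀ x ∈ H, ∀ y ∈ H, z (x * y) = z x * x • z y) →
      ∃ β : A, ∀ x ∈ H, z x = β⁻¹ * x • β) (g : G) (hg : g ∉ H) :
    ∃ (e : Ext c) (y : A), e.g = g ∧ (∀ h ∈ H, e * s h = s (g * h * g⁻¹) * e) ∧
      e * e = i c y * s (g * g) ∧ ∀ x : G, x • y = y := by
  have hmem : ∀ {a b : G}, a * b ∈ H ↔ (a ∈ H ↔ b ∈ H) := Subgroup.mul_mem_iff_of_index_two hH
  have hginv : g⁻¹ ∉ H := by simpa using hg
  have hconjmem : ∀ h ∈ H, g * h * g⁻¹ ∈ H := by
    intro h hh
    rw [hmem, hmem]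
    simp [hg, hh, hginv]
  have hconjmem' : ∀ h ∈ H, g⁻¹ * h * g ∈ H := by
    intro h hh
    rw [hmem, hmem]
    simp [hg, hh, hginv]
  have hgg : g * g ∈ H := by rw [hmem]
  have hs1 : s 1 = 1 := by
    have := hs 1 H.one_mem 1 H.one_mem
    rw [mul_one] at this
    exact (left_eq_mul.mp this)
  have hsinv : ∀ x ∈ H, s x⁻¹ = (s x)⁻¹ := by
    intro x hx
    rw [eq_inv_iff_mul_eq_one, ← hs _ (H.inv_mem hx) _ hx, inv_mul_cancel, hs1]
  -- an arbitrary lift
  let w : Ext c := ⟨1, g⟩
  have hz : ∀ h : G, ∃ z : A, h ∈ H → w * s (g⁻¹ * h * g) * w⁻¹ = i c z * s h := by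
    intro h
    by_cases hh : h ∈ H
    · obtain ⟨z, hz⟩ := exists_i (w * s (g⁻¹ * h * g) * w⁻¹) (s h) (by
        simp only [mul_g, inv_g, hp _ (hconjmem' h hh), hp h hh, w]; group)
      exact ⟨z, fun _ => hz⟩
    · exact ⟨1, fun h' => absurd h' hh⟩
  choose z hz using hz
  obtain ⟨β, hβ⟩ := h90 z (by
    intro x hx y hy
    apply i_injective (c := c)
    apply mul_right_cancel (b := s (x * y))
    rw [← hz _ (H.mul_mem hx hy), i_mul_i, hs x hx y hy]
    have h1 : i c (z x) * i c (x • z y) * (s x * s y) = (i c (z x) * s x) * (i c (z y) * s y) := by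
      have : s x * i c (z y) = i c (x • z y) * s x := by
        rw [mul_i, hp x hx]
      calc i c (z x) * i c (x • z y) * (s x * s y) = i c (z x) * (i c (x • z y) * s x) * s y := by
            group
        _ = i c (z x) * (s x * i c (z y)) * s y := by rw [this]
        _ = _ := by group
    rw [h1, ← hz x hx, ← hz y hy]
    have h2 : g⁻¹ * (x * y) * g = (g⁻¹ * x * g) * (g⁻¹ * y * g) := by group
    rw [h2, hs _ (hconjmem' x hx) _ (hconjmem' y hy)]
    group)
  let e : Ext c := i c β * w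
  have heg : e.g = g := by simp [e, w]
  have hconj' : ∀ h ∈ H, e * s (g⁻¹ * h * g) = s h * e := by
    intro h hh
    have h1 := hz h hh
    rw [hβ h hh, i_mul_i, i_inv] at h1
    have h2 : i c (h • β) * s h = s h * i c β := by rw [mul_i, hp h hh]
    calc e * s (g⁻¹ * h * g) = i c β * (w * s (g⁻¹ * h * g) * w⁻¹) * w := by
          simp only [e]; group
      _ = i c β * ((i c β)⁻¹ * i c (h • β) * s h) * w := by rw [h1]
      _ = (i c (h • β) * s h) * w := by group
      _ = s h * e := by rw [h2]; simp only [e]; group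
  have hconj : ∀ h ∈ H, e * s h = s (g * h * g⁻¹) * e := by
    intro h hh
    rw [← hconj' _ (hconjmem h hh)]
    congr 2
    group
  obtain ⟨y, hy⟩ := exists_i (e * e) (s (g * g)) (by simp [heg, hp _ hgg])
  refine ⟨e, y, heg, hconj, hy, ?_⟩
  have hyH : ∀ x ∈ H, x • y = y := by
    intro x hx
    -- take h with (g*g) h (g*g)⁻¹ = x
    set h := (g * g)⁻¹ * x * (g * g) with hh
    have hhH : h ∈ H := H.mul_mem (H.mul_mem (H.inv_mem hgg) hx) hgg
    have h1 : e * e * s h = s x * (e * e) := by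
      have h2 : g * (g * h * g⁻¹) * g⁻¹ = x := by rw [hh]; group
      calc e * e * s h = e * (e * s h) := by group
        _ = e * (s (g * h * g⁻¹) * e) := by rw [hconj h hhH]
        _ = (e * s (g * h * g⁻¹)) * e := by group
        _ = s x * e * e := by rw [hconj _ (hconjmem h hhH), h2]
        _ = _ := by group
    rw [hy] at h1
    have h3 : s (g * g) * s h = s x * s (g * g) := by
      rw [← hs _ hgg _ hhH, ← hs _ hx _ hgg]
      congr 1
      rw [hh]; group
    rw [mul_assoc, h3, ← mul_assoc, ← mul_assoc, mul_i, hp x hx] at h1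
    exact (i_injective (mul_right_cancel (mul_right_cancel h1))).symm
  have hyg : g • y = y := by
    have h1 : e * (e * e) = (e * e) * e := by group
    have h2 : g * (g * g) * g⁻¹ = g * g := by group
    rw [hy] at h1
    rw [← mul_assoc, mul_i, heg, mul_assoc, hconj _ hgg, h2, ← mul_assoc] at h1
    exact i_injective (mul_right_cancel (mul_right_cancel h1))
  intro x
  by_cases hx : x ∈ H
  · exact hyH x hx
  · have hxg : x * g⁻¹ ∈ H := by rw [hmem]; simp [hx, hginv]
    have : x = (x * g⁻¹) * g := by group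
    rw [this, mul_smul, hyg, hyH _ hxg]

/-- Independence of `y` of the choice of the element outside `H`. -/
theorem change (H : Subgroup G) (hH : H.index = 2) (s : G → Ext c)
    (hs : ∀ x ∈ H, ∀ y ∈ H, s (x * y) = s x * s y) (hp : ∀ x ∈ H, (s x).g = x)
    (g : G) (hg : g ∉ H) (e : Ext c) (y : A) (heg : e.g = g)
    (hconj : ∀ h ∈ H, e * s h = s (g * h * g⁻¹) * e) (hsq : e * e = i c y * s (g * g))
    (hy : ∀ x : G, x • y = y) (g' : G) (hg' : g' ∉ H) :
    ∃ e' : Ext c, e'.g = g' ∧ e' * e' = i c y * s (g' * g') := by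
  have hmem : ∀ {a b : G}, a * b ∈ H ↔ (a ∈ H ↔ b ∈ H) := Subgroup.mul_mem_iff_of_index_two hH
  have hginv : g⁻¹ ∉ H := by simpa using hg
  have hgg : g * g ∈ H := by rw [hmem]
  have hconjmem : ∀ h ∈ H, g * h * g⁻¹ ∈ H := by
    intro h hh
    rw [hmem, hmem]
    simp [hg, hh, hginv]
  set h := g' * g⁻¹ with hh
  have hhH : h ∈ H := by rw [hh, hmem]; simp [hg', hginv]
  refine ⟨s h * e, by rw [mul_g, hp h hhH, heg, hh]; group, ?_⟩
  calc s h * e * (s h * e) = s h * (e * s h) * e := by group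
    _ = s h * s (g * h * g⁻¹) * (e * e) := by rw [hconj h hhH]; group
    _ = s (h * (g * h * g⁻¹)) * i c y * s (g * g) := by
        rw [hsq, ← hs _ hhH _ (hconjmem h hhH)]; group
    _ = i c y * (s (h * (g * h * g⁻¹)) * s (g * g)) := by rw [mul_i, hy]; group
    _ = i c y * s (g' * g') := by
        rw [← hs _ (H.mul_mem hhH (hconjmem h hhH)) _ hgg]
        congr 2
        rw [hh]; group

end Ext

end Crest.Agent.HB.FC
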