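import Crest.Agent.HB.NFDefs
import Crest.Agent.HB.FactCGroup

/-! Row 32 (S0042), chunk T4, part 2: number fields for `factC`. -/
set_option autoImplicit false

open NumberField IsDedekindDomain
open scoped nonZeroDivisors Pointwise

namespace Crest.Agent.HB.FC

theorem unram_top' (K L M : Type) [Field K] [NumberField K] [Field L] [NumberField L]
    [Field M] [NumberField M] [Algebra K L] [Algebra L M] [Algebra K M] [IsScalarTower K L M]
    (h : Unram K M) : Unram L M := by
  intro P hP hP0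
  have h1 := h P hP hP0
  rw [Ideal.ramificationIdx_tower (S := 𝓞 L) (P.under (𝓞 L)) P] at h1
  exact Nat.eq_one_of_mul_eq_one_left h1

theorem exists_over (K L : Type) [Field K] [NumberField K] [Field L] [NumberField L]
    [Algebra K L] (P : Ideal (𝓞 K)) (hP : P.IsPrime) (hP0 : P ≠ ⊥) :
    ∃ Q : Ideal (𝓞 L), Q.IsPrime ∧ Q ≠ ⊥ ∧ Q.LiesOver P := by
  have : P.IsMaximal := hP.isMaximal hP0
  obtain ⟨Q, hQ, hQ'⟩ := Ideal.exists_maximal_ideal_liesOver_of_isIntegral (S := 𝓞 L) P
  refine ⟨Q, hQ.isPrime, ?_, hQ'⟩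
  rintro rfl
  exact hP0 (by rw [hQ'.over]; exact Ideal.under_bot _ _)

theorem unram_bot' (K L M : Type) [Field K] [NumberField K] [Field L] [NumberField L]
    [Field M] [NumberField M] [Algebra K L] [Algebra L M] [Algebra K M] [IsScalarTower K L M]
    (h : Unram K M) : Unram K L := by
  intro P hP hP0
  obtain ⟨Q, hQ, hQ0, hQP⟩ := exists_over L M P hP hP0
  have h1 := h Q hQ hQ0
  rw [Ideal.ramificationIdx_tower (S := 𝓞 L) P Q] at h1
  exact Nat.eq_one_of_mul_eq_one_right h1

theorem totComplex_up' (K L : Type) [Field K] [NumberField K] [Field L] [NumberField L]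
    [Algebra K L] (h : TotComplex K) : TotComplex L := by
  intro w
  exact InfinitePlace.IsComplex.of_comap (algebraMap K L) (h _)

section val

variable {K L : Type} [Field K] [NumberField K] [Field L] [NumberField L] [Algebra K L]

theorem smul_pow_ideal (σ : L ≃ₐ[K] L) (P : Ideal (𝓞 L)) (n : ℕ) : σ • P ^ n = (σ • P) ^ n := by
  rw [Ideal.pointwise_smul_def, Ideal.pointwise_smul_def, Ideal.map_pow]

theorem intVal_le (w : HeightOneSpectrum (𝓞 L)) (σ : L ≃ₐ[K] L)
    (hσ : σ • w.asIdeal = w.asIdeal) (r : 𝓞 L) : w.intValuation (σ • r) ≤ w.intValuation r := by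
  by_cases hr : r = 0
  · simp [hr]
  rw [w.intValuation_eq_exp_neg_multiplicity hr, w.intValuation_le_pow_iff_mem]
  have h1 : r ∈ w.asIdeal ^ (multiplicity w.asIdeal (Ideal.span {r})) := by
    rw [← w.intValuation_le_pow_iff_mem, w.intValuation_eq_exp_neg_multiplicity hr]
  have h2 := (Ideal.smul_mem_pointwise_smul_iff (a := σ)).2 h1
  rwa [smul_pow_ideal, hσ] at h2

theorem intVal_eq (w : HeightOneSpectrum (𝓞 L)) (σ : L ≃ₐ[K] L)
    (hσ : σ • w.asIdeal = w.asIdeal) (r : 𝓞 L) : w.intValuation (σ • r) = w.intValuation r := by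
  apply le_antisymm (intVal_le w σ hσ r)
  have h1 : σ⁻¹ • w.asIdeal = w.asIdeal := by
    rw [inv_smul_eq_iff]; exact hσ.symm
  have := intVal_le w σ⁻¹ h1 (σ • r)
  rwa [inv_smul_smul] at this

theorem val_eq (w : HeightOneSpectrum (𝓞 L)) (σ : L ≃ₐ[K] L)
    (hσ : σ • w.asIdeal = w.asIdeal) (x : L) : w.valuation L (σ x) = w.valuation L x := by
  obtain ⟨a, b, hb, rfl⟩ := IsFractionRing.div_surjective (A := 𝓞 L) x
  have ha' : σ (algebraMap (𝓞 L) L a) = algebraMap (𝓞 L) L (σ • a) := rfl
  have hb' : σ (algebraMap (𝓞 L) L b) = algebraMap (𝓞 L) L (σ • b) := rfl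
  rw [map_div₀, map_div₀, map_div₀, ha', hb', HeightOneSpectrum.valuation_of_algebraMap,
    HeightOneSpectrum.valuation_of_algebraMap, HeightOneSpectrum.valuation_of_algebraMap,
    HeightOneSpectrum.valuation_of_algebraMap, intVal_eq w σ hσ, intVal_eq w σ hσ]

/-- In an unramified extension, an element whose valuation upstairs is the square of a value is
even downstairs. -/
theorem evenAt_of_sq (hunr : Unram K L) (v : HeightOneSpectrum (𝓞 K))
    (w : HeightOneSpectrum (𝓞 L)) [hw : w.asIdeal.LiesOver v.asIdeal] (y : K) (hy : y ≠ 0) (x : L)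
    (h : w.valuation L (algebraMap K L y) = w.valuation L x ^ 2) : EvenAt v y := by
  have he : v.asIdeal.ramificationIdx' w.asIdeal = 1 := by
    have := w.isPrime
    rw [Ideal.ramificationIdx'_eq_ramificationIdx v.asIdeal w.asIdeal v.ne_bot]
    exact hunr w.asIdeal w.isPrime w.ne_bot
  rw [← HeightOneSpectrum.valuation_liesOver L v w y, he, pow_one] at h
  have hx : w.valuation L x ≠ 0 := by
    intro h0
    rw [h0, zero_pow two_ne_zero] at h
    exact hy ((Valuation.zero_iff _).1 h)
  obtain ⟨t, ht⟩ := HeightOneSpectrum.valuation_surjective K v (w.valuation L x)⁻¹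
  refine ⟨t, ?_, ?_⟩
  · rintro rfl
    rw [map_zero] at ht
    exact (inv_ne_zero hx) ht.symm
  · rw [map_mul, map_pow, ht, h, ← mul_pow, mul_inv_cancel₀ hx, one_pow]

/-- Decomposition group element outside `H` above an inert prime. -/
theorem exists_decomp [IsGalois K L] (H : Subgroup (L ≃ₐ[K] L)) (hH : H ≠ ⊤)
    (v : HeightOneSpectrum (𝓞 K))
    (hv : (v.asIdeal.map (algebraMap (𝓞 K) (𝓞 (IntermediateField.fixedField H)))).IsPrime) :
    ∃ w : HeightOneSpectrum (𝓞 L), w.asIdeal.LiesOver v.asIdeal ∧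
      ∃ g : L ≃ₐ[K] L, g ∉ H ∧ g • w.asIdeal = w.asIdeal := by
  obtain ⟨Q, hQ, hQ0, hQv⟩ := exists_over K L v.asIdeal v.isPrime v.ne_bot
  obtain ⟨g', hg'⟩ : ∃ g', g' ∉ H := by
    by_contra hcon
    push Not at hcon
    exact hH (eq_top_iff.2 fun x _ => hcon x)
  set K' := IntermediateField.fixedField H with hK'
  set P' := v.asIdeal.map (algebraMap (𝓞 K) (𝓞 K')) with hP'
  have hP'0 : P' ≠ ⊥ := Ideal.map_ne_bot_of_ne_bot v.ne_bot
  have hP'max : P'.IsMaximal := hv.isMaximal hP'0
  have hover : ∀ R : Ideal (𝓞 L), R.IsPrime → R.LiesOver v.asIdeal → R.LiesOver P' := by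
    intro R hR hRv
    constructor
    apply hP'max.eq_of_le (Ideal.IsPrime.ne_top (Ideal.IsPrime.under _ R))
    rw [hP', Ideal.map_le_iff_le_comap]
    have : (R.under (𝓞 K')).comap (algebraMap (𝓞 K) (𝓞 K')) = R.under (𝓞 K) :=
      Ideal.under_under R
    rw [this, ← hRv.over]
  have : Q.LiesOver P' := hover Q hQ hQv
  have hgQ : (g' • Q).IsPrime := inferInstance
  have hgQv : (g' • Q).LiesOver v.asIdeal := inferInstance
  have : (g' • Q).LiesOver P' := hover _ hgQ hgQv
  obtain ⟨τ, hτ⟩ := Ideal.exists_smul_eq_of_isGaloisGroup P' Q (g' • Q) (L ≃ₐ[K'] L)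
  have hτH : τ.restrictScalars K ∈ H := by
    rw [← IntermediateField.fixingSubgroup_fixedField H, IntermediateField.mem_fixingSubgroup_iff]
    intro x hx
    exact τ.commutes ⟨x, hx⟩
  have hτQ : τ.restrictScalars K • Q = τ • Q := rfl
  refine ⟨⟨Q, hQ, hQ0⟩, hQv, (τ.restrictScalars K)⁻¹ * g', ?_, ?_⟩
  · intro hmem
    apply hg'
    have := H.mul_mem hτH hmem
    rwa [mul_inv_cancel_left] at this
  · change ((τ.restrictScalars K)⁻¹ * g') • Q = Q
    rw [mul_smul, inv_smul_eq_iff, hτQ, hτ]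

/-- The norm from a quadratic subextension. -/
theorem norm_quad [IsGalois K L] (H : Subgroup (L ≃ₐ[K] L)) (hH : H.index = 2)
    (g : L ≃ₐ[K] L) (hg : g ∉ H) (K' : IntermediateField K L)
    (hK' : K' = IntermediateField.fixedField H) (z : K') :
    algebraMap K L (Algebra.norm K z) = (z : L) * g (z : L) := by
  classical
  have : H.Normal := Subgroup.normal_of_index_eq_two hH
  have hgal : IsGalois K (IntermediateField.fixedField H) := inferInstance
  rw [← hK'] at hgal
  have hfix : K'.fixingSubgroup = H := by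
    rw [hK', IntermediateField.fixingSubgroup_fixedField]
  have hcard : Nat.card (K' ≃ₐ[K] K') = 2 := by
    rw [IsGalois.card_aut_eq_finrank, IntermediateField.finrank_eq_fixingSubgroup_index,
      hfix, hH]
  set g₁ : K' ≃ₐ[K] K' := g.restrictNormal K' with hg₁
  have hcomm : ∀ x : K', ((g₁ x : K') : L) = g (x : L) := fun x =>
    AlgEquiv.restrictNormal_commutes g K' x
  have hne : (1 : K' ≃ₐ[K] K') ≠ g₁ := by
    intro h
    apply hg
    rw [← hfix, IntermediateField.mem_fixingSubgroup_iff]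
    intro x hx
    rw [← hcomm ⟨x, hx⟩, ← h]
    rfl
  have huniv : (Finset.univ : Finset (K' ≃ₐ[K] K')) = {1, g₁} := by
    symm
    apply Finset.eq_of_subset_of_card_le (Finset.subset_univ _)
    rw [Finset.card_univ, ← Nat.card_eq_fintype_card, hcard, Finset.card_pair hne]
  rw [IsScalarTower.algebraMap_apply K K' L, Algebra.norm_eq_prod_automorphisms, huniv,
    Finset.prod_pair hne, map_mul]
  congr 1
  exact hcomm z

end val

end Crest.Agent.HB.FC
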