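import Crest.Agent.HB.HasseNorm
import Crest.Agent.HB.FactCVal

/-! Row 32 (S0042), chunk T4: central extensions by `±1` of the Galois group of an unramified
2-extension become split in `Lˣ`. -/
set_option autoImplicit false

open NumberField IsDedekindDomain
open scoped nonZeroDivisors Pointwise

namespace Crest.Agent.HB

namespace FC

/-- The sign attached to an element of `ZMod 2`. -/
def eps (L : Type) [Field L] (a : ZMod 2) : Lˣ := if a = 0 then 1 else -1

theorem eps_val (L : Type) [Field L] (a : ZMod 2) :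
    ((eps L a : Lˣ) : L) = if a = 0 then (1 : L) else -1 := by
  unfold eps; split_ifs <;> simp

theorem eps_add (L : Type) [Field L] (a b : ZMod 2) : eps L (a + b) = eps L a * eps L b := by
  have h : ∀ a : ZMod 2, a = 0 ∨ a = 1 := by decide
  rcases h a with rfl | rfl <;> rcases h b with rfl | rfl
  · simp [eps]
  · simp [eps]
  · simp [eps]
  · have : (1 : ZMod 2) + 1 = 0 := by decide
    simp [eps, this]

theorem eps_smul {K L : Type} [Field K] [Field L] [Algebra K L] (σ : L ≃ₐ[K] L) (a : ZMod 2) :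
    σ • eps L a = eps L a := by
  unfold eps
  split_ifs
  · simp
  · ext; simp [AlgEquiv.smul_units_def]

theorem eps_mul_self (L : Type) [Field L] (a : ZMod 2) : eps L a * eps L a = 1 := by
  unfold eps; split_ifs <;> simp

/-- The cocycle in `Lˣ`. -/
def toCocycle {K L : Type} [Field K] [Field L] [Algebra K L]
    (c : (L ≃ₐ[K] L) → (L ≃ₐ[K] L) → ZMod 2) (hc : c ∈ Z2 (L ≃ₐ[K] L)) :
    Cocycle (L ≃ₐ[K] L) Lˣ where
  f := fun g h => eps L (c g h)
  hf := by
    intro g h j
    have h1 : c g h + c (g * h) j = c h j + c g (h * j) := hc g h j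
    rw [eps_smul, ← eps_add, ← eps_add, ← h1, add_comm]

theorem val_unit_sign {L : Type} [Field L] [NumberField L] (w : HeightOneSpectrum (𝓞 L))
    (a : ZMod 2) : w.valuation L ((eps L a : Lˣ) : L) = 1 := by
  rw [eps_val]; split_ifs
  · simp
  · rw [Valuation.map_neg, map_one]

theorem factC_aux (L : Type) [Field L] [NumberField L] : ∀ (n : ℕ) (K : Type) [Field K]
    [NumberField K] [Algebra K L] [IsGalois K L], Module.finrank K L = 2 ^ n → TotComplex K →
    Unram K L → ∀ c : (L ≃ₐ[K] L) → (L ≃ₐ[K] L) → ZMod 2, c ∈ Z2 (L ≃ₐ[K] L) →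
    ∃ a : (L ≃ₐ[K] L) → L, (∀ σ, a σ ≠ 0) ∧
      ∀ σ τ, a σ * σ (a τ) = (if c σ τ = 0 then (1 : L) else -1) * a (σ * τ) := by
  intro n
  induction n with
  | zero =>
    intro K _ _ _ _ hn hK hunr c hc
    have hcard : Nat.card (L ≃ₐ[K] L) = 1 := by
      rw [IsGalois.card_aut_eq_finrank, hn, pow_zero]
    have hsub : Subsingleton (L ≃ₐ[K] L) := (Nat.card_eq_one_iff_unique.1 hcard).1
    refine ⟨fun _ => (eps L (c 1 1) : L), fun _ => Units.ne_zero _, ?_⟩
    intro σ τ
    have h1 : σ = 1 := Subsingleton.elim _ _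
    have h2 : τ = 1 := Subsingleton.elim _ _
    subst h1; subst h2
    rw [← eps_val]
    rfl
  | succ n ih =>
    intro K _ _ _ _ hn hK hunr c hc
    classical
    have hcard : Nat.card (L ≃ₐ[K] L) = 2 ^ (n + 1) := by
      rw [IsGalois.card_aut_eq_finrank, hn]
    obtain ⟨H, hHcard⟩ := Sylow.exists_subgroup_card_pow_prime (G := L ≃ₐ[K] L) 2 (n := n)
      (by rw [hcard]; exact pow_dvd_pow 2 (Nat.le_succ n))
    have hH : H.index = 2 := by
      have h1 := H.card_mul_index
      rw [hHcard, hcard, pow_succ] at h1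
      exact Nat.eq_of_mul_eq_mul_left (by positivity) h1
    have hHtop : H ≠ ⊤ := by
      rintro rfl
      rw [Subgroup.index_top] at hH
      omega
    obtain ⟨g, hg⟩ : ∃ g, g ∉ H := by
      by_contra hcon
      push Not at hcon
      exact hHtop (eq_top_iff.2 fun x _ => hcon x)
    obtain ⟨K', hK'⟩ : ∃ K', K' = IntermediateField.fixedField H := ⟨_, rfl⟩
    have hfix : K'.fixingSubgroup = H := by
      rw [hK', IntermediateField.fixingSubgroup_fixedField]
    have hfin : Module.finrank K' L = 2 ^ n := by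
      rw [← hHcard, ← hfix, IsGalois.card_fixingSubgroup_eq_finrank]
    have hfin2 : Module.finrank K K' = 2 := by
      rw [IntermediateField.finrank_eq_fixingSubgroup_index, hfix, hH]
    obtain ⟨a', ha', haa'⟩ := ih K' hfin (totComplex_up' K K' hK) (unram_top' K K' L hunr)
      (fun σ τ => c (σ.restrictScalars K) (τ.restrictScalars K))
      (fun σ τ ρ => hc (σ.restrictScalars K) (τ.restrictScalars K) (ρ.restrictScalars K))
    -- lifting elements of H
    have hlift : ∀ h : L ≃ₐ[K] L, ∃ τ : L ≃ₐ[K'] L, h ∈ H → τ.restrictScalars K = h := by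
      intro h
      by_cases hh : h ∈ H
      · rw [← hfix] at hh
        refine ⟨K'.fixingSubgroupEquiv ⟨h, hh⟩, fun _ => ?_⟩
        ext x
        rfl
      · exact ⟨1, fun h' => absurd h' hh⟩
    choose lift hlift using hlift
    have hlift_mul : ∀ x ∈ H, ∀ y ∈ H, lift (x * y) = lift x * lift y := by
      intro x hx y hy
      apply AlgEquiv.restrictScalars_injective K
      rw [hlift _ (H.mul_mem hx hy)]
      ext t
      have h1 := congrArg (fun f => f t) (hlift y hy)
      have h2 := congrArg (fun f => f (lift y t)) (hlift x hx)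
      simp only [AlgEquiv.restrictScalars_apply] at h1 h2
      simp only [AlgEquiv.restrictScalars_apply, AlgEquiv.mul_apply]
      rw [h2, h1]
    have hrestr : ∀ (τ : L ≃ₐ[K'] L), τ.restrictScalars K ∈ H := by
      intro τ
      rw [← hfix, IntermediateField.mem_fixingSubgroup_iff]
      intro x hx
      exact τ.commutes ⟨x, hx⟩
    let C := toCocycle c hc
    let s : (L ≃ₐ[K] L) → Ext C := fun h => ⟨(Units.mk0 (a' (lift h)) (ha' _))⁻¹, h⟩
    have hp : ∀ x ∈ H, (s x).g = x := fun x _ => rfl
    have hs : ∀ x ∈ H, ∀ y ∈ H, s (x * y) = s x * s y := by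
      intro x hx y hy
      ext1
      · rw [Ext.mul_x]
        change (Units.mk0 (a' (lift (x * y))) (ha' _))⁻¹ =
          (Units.mk0 (a' (lift x)) (ha' _))⁻¹ * x • (Units.mk0 (a' (lift y)) (ha' _))⁻¹ *
            eps L (c x y)
        have h1 := haa' (lift x) (lift y)
        simp only [hlift x hx, hlift y hy] at h1
        have h3 : (lift x) (a' (lift y)) = x (a' (lift y)) := by
          have := congrArg (fun f => f (a' (lift y))) (hlift x hx)
          simpa using this
        rw [h3, ← hlift_mul x hx y hy, ← eps_val] at h1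
        have h2 : Units.mk0 (a' (lift x)) (ha' _) * x • Units.mk0 (a' (lift y)) (ha' _) =
            eps L (c x y) * Units.mk0 (a' (lift (x * y))) (ha' _) := by
          ext
          simpa [AlgEquiv.smul_units_def] using h1
        rw [smul_inv', ← mul_inv, h2, mul_inv, mul_comm (eps L (c x y))⁻¹, inv_mul_cancel_right]
      · rfl
    have h90 : ∀ z : (L ≃ₐ[K] L) → Lˣ, (∀ x ∈ H, ∀ y ∈ H, z (x * y) = z x * x • z y) →
        ∃ β : Lˣ, ∀ x ∈ H, z x = β⁻¹ * x • β := by
      intro z hz
      obtain ⟨β, hβ⟩ := groupCohomology.isMulCoboundary₁_of_isMulCocycle₁_of_aut_to_units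
        (K := K') (L := L) (fun τ => z (τ.restrictScalars K)) (by
          intro σ τ
          have h1 := hz _ (hrestr σ) _ (hrestr τ)
          have h2 : (σ * τ).restrictScalars K = σ.restrictScalars K * τ.restrictScalars K := rfl
          change z ((σ * τ).restrictScalars K) =
            σ • z (τ.restrictScalars K) * z (σ.restrictScalars K)
          rw [h2, h1, mul_comm]
          rfl)
      refine ⟨β, fun x hx => ?_⟩
      have h1 : lift x • β / β = z ((lift x).restrictScalars K) := hβ (lift x)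
      rw [hlift x hx] at h1
      rw [← h1, div_eq_inv_mul]
      congr 1
      ext
      have := congrArg (fun f => f (β : L)) (hlift x hx)
      simpa [AlgEquiv.smul_units_def] using this
    obtain ⟨e, y, heg, hconj, hsq, hy⟩ := Ext.step H hH s hs hp h90 g hg
    obtain ⟨y₀, hy₀⟩ : ((y : Lˣ) : L) ∈ Set.range (algebraMap K L) := by
      rw [IsGalois.mem_range_algebraMap_iff_fixed]
      intro σ
      have := congrArg (fun u : Lˣ => (u : L)) (hy σ)
      simpa [AlgEquiv.smul_units_def] using this
    have hy₀0 : y₀ ≠ 0 := by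
      rintro rfl
      rw [map_zero] at hy₀
      exact y.ne_zero hy₀.symm
    have hev : ∀ v : HeightOneSpectrum (𝓞 K),
        (v.asIdeal.map (algebraMap (𝓞 K) (𝓞 K'))).IsPrime → EvenAt v y₀ := by
      intro v hv
      subst hK'
      obtain ⟨w, hwv, g', hg', hgw⟩ := exists_decomp H hHtop v hv
      obtain ⟨e', he'g, hsq'⟩ := Ext.change H hH s hs hp g hg e y heg hconj hsq hy g' hg'
      apply evenAt_of_sq hunr v w y₀ hy₀0 ((e'.x : Lˣ) : L)
      have hmem : g' * g' ∈ H := by
        rw [Subgroup.mul_mem_iff_of_index_two hH]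
      have hdw : (g' * g') • w.asIdeal = w.asIdeal := by rw [mul_smul, hgw, hgw]
      -- valuations of the section on powers
      have hval : w.valuation L (((s (g' * g')).x : Lˣ) : L) = 1 := by
        set d := g' * g' with hd
        have hdpow : ∀ n : ℕ, d ^ n • w.asIdeal = w.asIdeal := by
          intro n
          induction n with
          | zero => simp
          | succ n ihn => rw [pow_succ, mul_smul, hdw, ihn]
        have hs1 : s 1 = 1 := by
          have := hs 1 H.one_mem 1 H.one_mem
          rw [mul_one] at this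
          exact left_eq_mul.mp this
        have h0 : w.valuation L (((s 1).x : Lˣ) : L) = 1 := by
          rw [hs1, Ext.one_x, Units.val_inv_eq_inv_val, map_inv₀]
          change (w.valuation L ((eps L (c 1 1) : Lˣ) : L))⁻¹ = 1
          rw [val_unit_sign, inv_one]
        have hpow : ∀ n : ℕ, w.valuation L (((s (d ^ n)).x : Lˣ) : L) =
            w.valuation L (((s d).x : Lˣ) : L) ^ n := by
          intro n
          induction n with
          | zero => rw [pow_zero, pow_zero, h0]
          | succ n ihn =>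
            rw [pow_succ, pow_succ, hs _ (H.pow_mem hmem n) _ hmem, Ext.mul_x, Units.val_mul,
              Units.val_mul, map_mul, map_mul, ihn]
            have h1 : w.valuation L (((s (d ^ n)).g • (s d).x : Lˣ) : L) =
                w.valuation L (((s d).x : Lˣ) : L) := by
              change w.valuation L ((d ^ n) (((s d).x : Lˣ) : L)) = _
              exact val_eq w (d ^ n) (hdpow n) _
            rw [h1]
            change _ * w.valuation L ((eps L _ : Lˣ) : L) = _
            rw [val_unit_sign, mul_one]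
        have hN := hpow (Nat.card (L ≃ₐ[K] L))
        rw [pow_card_eq_one', h0] at hN
        have hne : Nat.card (L ≃ₐ[K] L) ≠ 0 := by rw [hcard]; positivity
        exact (pow_eq_one_iff_of_nonneg zero_le hne).1 hN.symm
      have h0 := congrArg Ext.x hsq'
      rw [Ext.i_mul_x, Ext.mul_x] at h0
      have h1 := congrArg (fun u : Lˣ => w.valuation L (u : L)) h0
      simp only [Units.val_mul, map_mul] at h1
      have h2 : w.valuation L ((e'.g • e'.x : Lˣ) : L) = w.valuation L ((e'.x : Lˣ) : L) := by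
        rw [he'g]
        change w.valuation L (g' ((e'.x : Lˣ) : L)) = _
        exact val_eq w g' hgw _
      have h3 : w.valuation L ((C.f e'.g e'.g : Lˣ) : L) = 1 := val_unit_sign w _
      rw [h2, h3, hval, mul_one, mul_one] at h1
      rw [hy₀, ← h1, sq]
    obtain ⟨z, hz⟩ := hasse_norm K K' hfin2 hK (unram_bot' K K' L hunr) y₀ hy₀0 hev
    have hnorm := norm_quad H hH g hg K' hK' z
    rw [hz, hy₀] at hnorm
    have hz0 : (z : L) ≠ 0 := by
      intro h0
      rw [h0, zero_mul] at hnorm
      exact y.ne_zero hnorm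
    let zu : Lˣ := Units.mk0 (z : L) hz0
    have hyz : y = zu * g • zu := by
      ext
      simpa [AlgEquiv.smul_units_def, zu] using hnorm
    have hzfix : ∀ k ∈ H, k • zu⁻¹ = zu⁻¹ := by
      intro k hk
      rw [smul_inv']
      congr 1
      ext
      rw [← hfix, IntermediateField.mem_fixingSubgroup_iff] at hk
      exact hk z z.2
    have hconjmem : ∀ h ∈ H, g * h * g⁻¹ ∈ H := by
      intro h hh
      have hnorm : H.Normal := Subgroup.normal_of_index_eq_two hH
      exact hnorm.conj_mem h hh g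
    have hgg : g * g ∈ H := by
      rw [Subgroup.mul_mem_iff_of_index_two hH]
    obtain ⟨s', hs', hp'⟩ := extend_index_two (Ext.p C) H hH s hs hp g hg (Ext.i C zu⁻¹ * e)
      (by simp [heg])
      (by
        intro h hh
        have h1 : s (g * h * g⁻¹) * Ext.i C zu⁻¹ = Ext.i C zu⁻¹ * s (g * h * g⁻¹) := by
          rw [Ext.mul_i, hp _ (hconjmem h hh), hzfix _ (hconjmem h hh)]
        calc Ext.i C zu⁻¹ * e * s h = Ext.i C zu⁻¹ * (e * s h) := by group
          _ = Ext.i C zu⁻¹ * s (g * h * g⁻¹) * e := by rw [hconj h hh]; group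
          _ = _ := by rw [← h1]; group)
      (by
        calc Ext.i C zu⁻¹ * e * (Ext.i C zu⁻¹ * e) = Ext.i C zu⁻¹ * (e * Ext.i C zu⁻¹) * e := by
              group
          _ = Ext.i C zu⁻¹ * Ext.i C (g • zu⁻¹) * (e * e) := by rw [Ext.mul_i, heg]; group
          _ = Ext.i C (zu⁻¹ * g • zu⁻¹ * y) * s (g * g) := by
              rw [hsq, Ext.i_mul_i, Ext.i_mul_i]; group
          _ = s (g * g) := by
              have : zu⁻¹ * g • zu⁻¹ * y = 1 := by
                rw [hyz, smul_inv', ← mul_inv, inv_mul_cancel]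
              rw [this, Ext.i_one, one_mul])
    refine ⟨fun σ => (((s' σ).x)⁻¹ : Lˣ), fun σ => Units.ne_zero _, ?_⟩
    intro σ τ
    have h1 : (s' (σ * τ)).x = (s' σ).x * σ • (s' τ).x * eps L (c σ τ) := by
      have h2 := congrArg Ext.x (hs' σ τ)
      rw [Ext.mul_x] at h2
      have h3 : (s' σ).g = σ := hp' σ
      have h4 : (s' τ).g = τ := hp' τ
      rw [h3, h4] at h2
      exact h2
    have h5 : ((s' σ).x)⁻¹ * σ • ((s' τ).x)⁻¹ = eps L (c σ τ) * ((s' (σ * τ)).x)⁻¹ := by
      rw [h1, smul_inv', mul_inv, mul_inv, mul_comm (eps L (c σ τ)), inv_mul_cancel_right]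
    have h6 := congrArg (fun u : Lˣ => (u : L)) h5
    simp only [Units.val_mul, eps_val] at h6
    exact h6

end FC

/-- `L/K` Galois of 2-power degree, unramified at all finite primes, `K` totally complex. Every
2-cocycle of `Gal(L/K)` with values in `±1` is a coboundary in `Lˣ`.

Proof: induction on `[L:K]` (with `K` varying). Let `H ≤ G` have index 2, `K' = L^H`. By induction
`c|_H` is split by some `b`. `E = Lˣ × G` with `(x,σ)(y,τ) = (x σ(y) c(σ,τ), στ)` is a group;
`s : H → E, h ↦ (b_h⁻¹, h)` a homomorphism. For `g ∉ H`, `ĝ = (u,g)`: `ĝ s(h) ĝ⁻¹` and `s(g h g⁻¹)`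
differ by a 1-cocycle of `H` in `Lˣ`, so by Hilbert 90 one can choose `u` with
`ĝ s(h) ĝ⁻¹ = s(g h g⁻¹)` for all `h ∈ H`. Then `ĝ² = y·s(g²)`, `y ∈ Lˣ` is fixed by `H` and by `g`,
so `y ∈ Kˣ` (and `y` does not depend on the choice of `g ∉ H` : for `ĝ s(h)` one gets the same `y`;
changing `u` by `v ∈ K'ˣ` multiplies `y` by `N(v)`).
If `y = N_{K'/K}(v)`, then `ĝ' = (v⁻¹,1) ĝ` satisfies `ĝ'² = s(g²)` and `s` extends to `G`, i.e. `c`
splits. To apply `hasse_norm` to `K'/K` one needs: `v_𝔮(y)` even for every prime `𝔮` of `K` inert in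
`K'`. Take `𝔔 | 𝔮` in `L`, `D` its decomposition group; `D ⊄ H`, choose `g ∈ D ∖ H`. On
`E_D = {(x,σ) : σ ∈ D}` the map `(x,σ) ↦ v_𝔔(x)` is a homomorphism to `ℤ` (`c = ±1`); it is
trivial on `s(H ∩ D)` (finite group), so `2 v_𝔔(u) = v_𝔔(y) + 0`, and `v_𝔔(y) = v_𝔮(y)` since
`L/K` is unramified. -/
theorem factC (K L : Type) [Field K] [NumberField K] [Field L] [NumberField L] [Algebra K L]
    [IsGalois K L] {n : ℕ} (hn : Module.finrank K L = 2 ^ n) (hK : TotComplex K)
    (hunr : Unram K L) (c : (L ≃ₐ[K] L) → (L ≃ₐ[K] L) → ZMod 2) (hc : c ∈ Z2 (L ≃ₐ[K] L)) :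
    ∃ a : (L ≃ₐ[K] L) → L, (∀ σ, a σ ≠ 0) ∧
      ∀ σ τ, a σ * σ (a τ) = (if c σ τ = 0 then (1 : L) else -1) * a (σ * τ) :=
  FC.factC_aux L n K hn hK hunr c hc

end Crest.Agent.HB
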