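import Crest.Agent.HB.Planar
import Crest.Agent.HB.SetsAsm

/-! Row 32 (S0042): final assembly. -/
set_option autoImplicit false

namespace Crest.Agent.HB

theorem final :
    ∃ η : ℝ, 0 < η ∧ ∃ c : ℝ, 0 < c ∧ ∃ n₀ : ℕ, ∀ n : ℕ, n₀ ≤ n →
      ∃ P : Finset (ℝ × ℝ), P.card = n ∧
        (∀ p ∈ P, 0 ≤ p.1 ∧ p.1 ≤ 1 ∧ 0 ≤ p.2 ∧ p.2 ≤ 1) ∧
        ∀ p ∈ P, ∀ q ∈ P, ∀ r ∈ P, p ≠ q → p ≠ r → q ≠ r →
          c * (n : ℝ) ^ (-2 + η) ≤
            |(q.1 - p.1) * (r.2 - p.2) - (q.2 - p.2) * (r.1 - p.1)| / 2 := by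
  obtain ⟨D, C, hS⟩ := sets
  obtain ⟨A, hA⟩ := planar D
  set E : ℕ := (C + 1) * (A + 1) with hE
  have hE1 : 1 ≤ E := Nat.one_le_iff_ne_zero.2 (by positivity)
  obtain ⟨m₀, hm₀⟩ := hA (2 * E)
  -- threshold
  refine ⟨1 / (8 * (2 * E : ℝ)), by positivity, 1, one_pos, (m₀ + 8) ^ E, ?_⟩
  intro n hn
  -- choose B maximal with (B+2)^E ≤ n
  obtain ⟨B, hB1, hB2⟩ : ∃ B : ℕ, (B + 2) ^ E ≤ n ∧ n < (B + 3) ^ E := by
    have hex : ∃ b : ℕ, n < (b + 3) ^ E := by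
      refine ⟨n, ?_⟩
      calc n < n + 3 := by omega
        _ = (n + 3) ^ 1 := (pow_one _).symm
        _ ≤ (n + 3) ^ E := Nat.pow_le_pow_right (by omega) hE1
    classical
    refine ⟨Nat.find hex, ?_, Nat.find_spec hex⟩
    rcases Nat.eq_zero_or_pos (Nat.find hex) with h0 | hpos
    · rw [h0]
      refine le_trans ?_ hn
      exact Nat.pow_le_pow_left (by omega) E
    · have := Nat.find_min hex (m := Nat.find hex - 1) (by omega)
      push Not at this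
      have h2 : Nat.find hex - 1 + 3 = Nat.find hex + 2 := by omega
      rwa [h2] at this
  have hBm : m₀ + 5 < B := by
    by_contra hcon
    push Not at hcon
    have : (B + 3) ^ E ≤ (m₀ + 8) ^ E := Nat.pow_le_pow_left (by omega) E
    omega
  obtain ⟨m, hm1, hm2, S, hSne, hScard⟩ := hS B
  have hmA : m ^ A ≤ n := by
    calc m ^ A ≤ ((B + 2) ^ C) ^ A := Nat.pow_le_pow_left hm2 A
      _ = (B + 2) ^ (C * A) := (pow_mul _ _ _).symm
      _ ≤ (B + 2) ^ E := Nat.pow_le_pow_right (by omega) (by rw [hE]; nlinarith)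
      _ ≤ n := hB1
  have hmB : n ≤ m ^ (2 * E) := by
    calc n ≤ (B + 3) ^ E := hB2.le
      _ ≤ (B ^ 2) ^ E := Nat.pow_le_pow_left (by nlinarith) E
      _ = B ^ (2 * E) := (pow_mul _ _ _).symm
      _ ≤ m ^ (2 * E) := Nat.pow_le_pow_left hm1 _
  obtain ⟨P, hPc, hPsq, hPtri⟩ := hm₀ m (by omega) S hSne hScard n hmA hmB
  refine ⟨P, hPc, hPsq, ?_⟩
  intro p hp q hq r hr h1 h2 h3
  refine le_trans ?_ (hPtri p hp q hq r hr h1 h2 h3)
  have hmpos : 0 < m := by omega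
  have hnpos : 0 < n := lt_of_lt_of_le (by positivity) hn
  have hnR : (0 : ℝ) < n := by exact_mod_cast hnpos
  have hmR : (0 : ℝ) < m := by exact_mod_cast hmpos
  have key : (n : ℝ) ^ (1 / (8 * (2 * E : ℝ))) ≤ (m : ℝ) ^ ((1 : ℝ) / 8) := by
    have h : (n : ℝ) ≤ (m : ℝ) ^ (2 * E) := by exact_mod_cast hmB
    calc (n : ℝ) ^ (1 / (8 * (2 * E : ℝ)))
        ≤ ((m : ℝ) ^ (2 * E)) ^ (1 / (8 * (2 * E : ℝ))) :=
          Real.rpow_le_rpow hnR.le h (by positivity)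
      _ = (m : ℝ) ^ ((1 : ℝ) / 8) := by
          rw [← Real.rpow_natCast, ← Real.rpow_mul hmR.le]
          congr 1
          have : (0 : ℝ) < E := by exact_mod_cast hE1
          push_cast
          field_simp
  rw [one_mul, Real.rpow_add hnR, Real.rpow_neg hnR.le]
  have h2' : (n : ℝ) ^ (2 : ℝ) = (n : ℝ) ^ 2 := by
    rw [← Real.rpow_natCast]; norm_num
  rw [h2', div_eq_mul_inv, mul_comm ((n : ℝ) ^ 2)⁻¹]
  exact mul_le_mul_of_nonneg_right key (by positivity)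

end Crest.Agent.HB
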