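import Mathlib

/-! Row 32 (S0042): Golod–Shafarevich inequality for finite 2-groups. -/

set_option autoImplicit false
set_option linter.all false

namespace Crest.Agent.HB

/-- 2-cocycles `G × G → ZMod 2` (trivial action). -/
def Z2 (G : Type*) [Group G] : AddSubgroup (G → G → ZMod 2) where
  carrier := {c | ∀ g h k : G, c g h + c (g * h) k = c h k + c g (h * k)}
  add_mem' := by
    intro a b ha hb g h k
    simp only [Set.mem_setOf_eq, Pi.add_apply] at *
    linear_combination ha g h k + hb g h k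
  zero_mem' := by intro g h k; simp
  neg_mem' := by
    intro a ha g h k
    simp only [Set.mem_setOf_eq, Pi.neg_apply] at *
    linear_combination - ha g h k

/-- 2-coboundaries `G × G → ZMod 2`. -/
def B2 (G : Type*) [Group G] : AddSubgroup (G → G → ZMod 2) where
  carrier := {c | ∃ f : G → ZMod 2, ∀ g h : G, c g h = f g + f h + f (g * h)}
  add_mem' := by
    rintro a b ⟨f, hf⟩ ⟨f', hf'⟩
    refine ⟨f + f', fun g h => ?_⟩
    simp only [Pi.add_apply, hf, hf']
    ring
  zero_mem' := ⟨0, by simp⟩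
  neg_mem' := by
    rintro a ⟨f, hf⟩
    refine ⟨-f, fun g h => ?_⟩
    simp only [Pi.neg_apply, hf]
    ring


namespace GSaux
open MonoidAlgebra Module

/-- group element as an element of the group algebra -/
noncomputable abbrev gsg {G : Type} [Group G] (g : G) : MonoidAlgebra (ZMod 2) G :=
  MonoidAlgebra.single g 1

/-- augmentation -/
noncomputable def aug (G : Type) [Group G] : MonoidAlgebra (ZMod 2) G →ₐ[ZMod 2] ZMod 2 :=
  MonoidAlgebra.lift (ZMod 2) (ZMod 2) G 1

lemma aug_gsg {G : Type} [Group G] (g : G) : aug G (gsg g) = 1 := by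
  simp [aug, gsg, MonoidAlgebra.lift_single]

/-- linear extension of a function on the group -/
noncomputable def linExt {G : Type} [Group G] {V : Type*} [AddCommGroup V] [Module (ZMod 2) V]
    (f : G → V) : MonoidAlgebra (ZMod 2) G →ₗ[ZMod 2] V :=
  (MonoidAlgebra.basis G (ZMod 2)).constr (ZMod 2) f

lemma linExt_gsg {G : Type} [Group G] {V : Type*} [AddCommGroup V] [Module (ZMod 2) V]
    (f : G → V) (g : G) : linExt f (gsg g) = f g := by
  have := (MonoidAlgebra.basis G (ZMod 2)).constr_basis (ZMod 2) f g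
  simpa [linExt, gsg] using this

lemma lin_ext {G : Type} [Group G] {V : Type*} [AddCommGroup V] [Module (ZMod 2) V]
    {f f' : MonoidAlgebra (ZMod 2) G →ₗ[ZMod 2] V} (h : ∀ g : G, f (gsg g) = f' (gsg g)) :
    f = f' := by
  apply (MonoidAlgebra.basis G (ZMod 2)).ext
  intro g
  simpa [gsg] using h g

section Mod

variable {G : Type} [Group G] {W : Type} [AddCommGroup W] [Module (ZMod 2) W]
  [Module (MonoidAlgebra (ZMod 2) G) W] [IsScalarTower (ZMod 2) (MonoidAlgebra (ZMod 2) G) W]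

variable (G W) in
/-- `I · W` as an `F`-subspace. -/
def IM : Submodule (ZMod 2) W :=
  Submodule.span (ZMod 2) {x | ∃ (g : G) (m : W), x = gsg g • m - m}

lemma smul_sub_mem_IM (a : MonoidAlgebra (ZMod 2) G) (m : W) :
    a • m - (aug G a) • m ∈ IM G W := by
  induction a using MonoidAlgebra.induction_linear with
  | zero => simp
  | add a b ha hb =>
    have : (a + b) • m - (aug G (a + b)) • m = (a • m - aug G a • m) + (b • m - aug G b • m) := by
      rw [add_smul, map_add, add_smul]; abel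
    rw [this]
    exact add_mem ha hb
  | single g c =>
    have h1 : (MonoidAlgebra.single g c : MonoidAlgebra (ZMod 2) G) = c • gsg g := by
      simp [gsg, MonoidAlgebra.smul_single]
    have h2 : (MonoidAlgebra.single g c : MonoidAlgebra (ZMod 2) G) • m -
        (aug G (MonoidAlgebra.single g c)) • m = c • (gsg g • m - m) := by
      rw [h1, smul_assoc, map_smul, aug_gsg, smul_sub]
      simp
    rw [h2]
    exact Submodule.smul_mem _ _ (Submodule.subset_span ⟨g, m, rfl⟩)

lemma smul_mem_IM {a : MonoidAlgebra (ZMod 2) G} (ha : aug G a = 0) (m : W) :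
    a • m ∈ IM G W := by
  have := smul_sub_mem_IM a m
  rwa [ha, zero_smul, sub_zero] at this

/-- A linear functional that is `G`-invariant kills `I·W`. -/
lemma inv_kills (φ : W →ₗ[ZMod 2] ZMod 2) (hφ : ∀ (g : G) (m : W), φ (gsg g • m) = φ m) :
    IM G W ≤ LinearMap.ker φ := by
  rw [IM, Submodule.span_le]
  rintro x ⟨g, m, rfl⟩
  simp [hφ g m]

lemma inv_smul (φ : W →ₗ[ZMod 2] ZMod 2) (hφ : ∀ (g : G) (m : W), φ (gsg g • m) = φ m)
    (a : MonoidAlgebra (ZMod 2) G) (m : W) : φ (a • m) = aug G a * φ m := by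
  have := inv_kills φ hφ (smul_sub_mem_IM a m)
  rw [LinearMap.mem_ker, map_sub, sub_eq_zero] at this
  rw [this, LinearMap.map_smul, smul_eq_mul]

/-- fixed functional -/
lemma exists_inv_functional [Finite G] {n : ℕ} (hG : Nat.card G = 2 ^ n) [Finite W] [Nontrivial W] :
    ∃ φ : W →ₗ[ZMod 2] ZMod 2, φ ≠ 0 ∧ ∀ (g : G) (m : W), φ (gsg g • m) = φ m := by
  have : Fact (Nat.Prime 2) := ⟨Nat.prime_two⟩
  have hp : IsPGroup 2 G := IsPGroup.of_card hG
  have hmul : ∀ g h : G, ∀ w : W, (gsg g : MonoidAlgebra (ZMod 2) G) • (gsg h : MonoidAlgebra (ZMod 2) G) • w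
      = gsg (g * h) • w := by
    intro g h w
    rw [smul_smul, gsg, gsg, MonoidAlgebra.single_mul_single, one_mul]
  have hone : ∀ w : W, (gsg (1 : G) : MonoidAlgebra (ZMod 2) G) • w = w := by
    intro w
    rw [gsg, ← MonoidAlgebra.one_def, one_smul]
  let L : G → W →ₗ[ZMod 2] W := fun g =>
    { toFun := fun w => (gsg g : MonoidAlgebra (ZMod 2) G) • w
      map_add' := fun x y => smul_add _ _ _
      map_smul' := fun c x => by
        simp only [RingHom.id_apply]
        rw [← IsScalarTower.algebraMap_smul (MonoidAlgebra (ZMod 2) G) c x,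
          ← IsScalarTower.algebraMap_smul (MonoidAlgebra (ZMod 2) G) c, smul_smul, smul_smul,
          Algebra.commutes] }
  have hL : ∀ g w, L g w = (gsg g : MonoidAlgebra (ZMod 2) G) • w := fun _ _ => rfl
  let act : MulAction G (Module.Dual (ZMod 2) W) :=
    { smul := fun g φ => φ ∘ₗ L g⁻¹
      one_smul := fun φ => by
        show φ ∘ₗ L (1 : G)⁻¹ = φ
        ext w
        rw [LinearMap.comp_apply, hL, inv_one, hone]
      mul_smul := fun g h φ => by
        show φ ∘ₗ L (g * h)⁻¹ = (φ ∘ₗ L h⁻¹) ∘ₗ L g⁻¹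
        ext w
        simp only [LinearMap.comp_apply, hL, hmul, mul_inv_rev] }
  have hact : ∀ (g : G) (φ : Module.Dual (ZMod 2) W) (w : W),
      (g • φ) w = φ ((gsg g⁻¹ : MonoidAlgebra (ZMod 2) G) • w) := fun _ _ _ => rfl
  have : Finite (Module.Dual (ZMod 2) W) := by
    have : Finite (W → ZMod 2) := inferInstance
    exact Finite.of_injective (fun φ : Module.Dual (ZMod 2) W => (φ : W → ZMod 2))
      DFunLike.coe_injective
  have : Module.Finite (ZMod 2) W := Module.Finite.of_finite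
  have hcard : 2 ∣ Nat.card (Module.Dual (ZMod 2) W) := by
    have : Module.Finite (ZMod 2) (Module.Dual (ZMod 2) W) := inferInstance
    rw [Module.natCard_eq_pow_finrank (K := ZMod 2) (V := Module.Dual (ZMod 2) W),
      Subspace.dual_finrank_eq, Nat.card_zmod]
    exact dvd_pow_self _ (Module.finrank_pos (R := ZMod 2) (M := W)).ne'
  have h0 : (0 : Module.Dual (ZMod 2) W) ∈ MulAction.fixedPoints G (Module.Dual (ZMod 2) W) := by
    intro g
    ext w
    rw [hact]; simp
  obtain ⟨φ, hφ, hne⟩ := hp.exists_fixed_point_of_prime_dvd_card_of_fixed_point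
    (Module.Dual (ZMod 2) W) hcard h0
  refine ⟨φ, hne.symm, fun g m => ?_⟩
  have := hφ g⁻¹
  have h2 := congrArg (fun ψ : Module.Dual (ZMod 2) W => ψ m) this
  simp only [hact, inv_inv] at h2
  exact h2

/-- Nakayama -/
lemma nak [Finite G] {n : ℕ} (hG : Nat.card G = 2 ^ n) [Finite W]
    (N : Submodule (MonoidAlgebra (ZMod 2) G) W)
    (hN : ∀ w : W, ∃ x ∈ N, w - x ∈ IM G W) : N = ⊤ := by
  by_contra hne
  have : Nontrivial (W ⧸ N) := Submodule.Quotient.nontrivial_iff.2 hne
  have : Finite (W ⧸ N) := Finite.of_surjective _ N.mkQ_surjective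
  obtain ⟨φ, hφ0, hφ⟩ := exists_inv_functional (G := G) (W := W ⧸ N) hG
  apply hφ0
  let q : W →ₗ[ZMod 2] (W ⧸ N) := N.mkQ.restrictScalars (ZMod 2)
  have hq : ∀ w, q w = N.mkQ w := fun _ => rfl
  have hinv : ∀ (g : G) (m : W), (φ ∘ₗ q) (gsg g • m) = (φ ∘ₗ q) m := by
    intro g m
    rw [LinearMap.comp_apply, LinearMap.comp_apply, hq, hq, map_smul, hφ]
  have hk := inv_kills (φ ∘ₗ q) hinv
  ext y
  obtain ⟨w, rfl⟩ := N.mkQ_surjective y
  obtain ⟨x, hx, hwx⟩ := hN w
  have h1 := hk hwx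
  rw [LinearMap.mem_ker, LinearMap.comp_apply, map_sub] at h1
  have h2 : q x = 0 := by
    rw [hq]; exact (Submodule.Quotient.mk_eq_zero N).2 hx
  rw [h2, sub_zero, hq] at h1
  simpa using h1

/-- invariant functionals -/
def InvF (G W : Type) [Group G] [AddCommGroup W] [Module (ZMod 2) W]
    [Module (MonoidAlgebra (ZMod 2) G) W] : Submodule (ZMod 2) (Module.Dual (ZMod 2) W) where
  carrier := {φ | ∀ (g : G) (m : W), φ (gsg g • m) = φ m}
  add_mem' := by
    intro a b ha hb g m
    simp only [LinearMap.add_apply, ha g m, hb g m]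
  zero_mem' := by intro g m; simp
  smul_mem' := by
    intro c a ha g m
    simp only [LinearMap.smul_apply, ha g m]

lemma card_invF [Finite W] :
    Nat.card (InvF G W) = 2 ^ (finrank (ZMod 2) (W ⧸ IM G W)) := by
  have : Module.Finite (ZMod 2) W := Module.Finite.of_finite
  have e : (InvF G W) ≃ Module.Dual (ZMod 2) (W ⧸ IM G W) :=
    { toFun := fun φ => (IM G W).liftQ φ.1 (inv_kills φ.1 φ.2)
      invFun := fun ψ => ⟨ψ ∘ₗ (IM G W).mkQ, fun g m => by
        have h : (IM G W).mkQ (gsg g • m - m) = 0 := by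
          rw [Submodule.mkQ_apply, Submodule.Quotient.mk_eq_zero]
          exact Submodule.subset_span ⟨g, m, rfl⟩
        rw [map_sub, sub_eq_zero] at h
        rw [LinearMap.comp_apply, h, LinearMap.comp_apply]⟩
      left_inv := fun φ => by
        ext w
        simp
      right_inv := fun ψ => by
        ext w
        simp }
  rw [Nat.card_congr e, Module.natCard_eq_pow_finrank (K := ZMod 2)
    (V := Module.Dual (ZMod 2) (W ⧸ IM G W)), Subspace.dual_finrank_eq, Nat.card_zmod]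

/-- minimal generating systems -/
lemma minGen [Finite G] {n : ℕ} (hG : Nat.card G = 2 ^ n) [Finite W] :
    ∃ x : Fin (finrank (ZMod 2) (W ⧸ IM G W)) → W,
      LinearIndependent (ZMod 2) (fun i => (IM G W).mkQ (x i)) ∧
      Submodule.span (MonoidAlgebra (ZMod 2) G) (Set.range x) = ⊤ := by
  have : Module.Finite (ZMod 2) W := Module.Finite.of_finite
  let b := Module.finBasis (ZMod 2) (W ⧸ IM G W)
  have hs : ∀ i, ∃ x : W, (IM G W).mkQ x = b i := fun i => (IM G W).mkQ_surjective (b i)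
  choose x hx using hs
  refine ⟨x, ?_, ?_⟩
  · have : (fun i => (IM G W).mkQ (x i)) = b := funext hx
    rw [this]
    exact b.linearIndependent
  · apply nak hG
    intro w
    refine ⟨∑ i, (b.repr ((IM G W).mkQ w) i) • x i, ?_, ?_⟩
    · apply Submodule.sum_mem
      intro i _
      rw [← IsScalarTower.algebraMap_smul (MonoidAlgebra (ZMod 2) G)]
      exact Submodule.smul_mem _ _ (Submodule.subset_span ⟨i, rfl⟩)
    · rw [← Submodule.Quotient.mk_eq_zero, ← Submodule.mkQ_apply, map_sub, sub_eq_zero, map_sum]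
      conv_lhs => rw [← b.sum_repr ((IM G W).mkQ w)]
      refine Finset.sum_congr rfl fun i _ => ?_
      rw [map_smul, hx]

end Mod

section Main

variable {G : Type} [Group G]

lemma gsg_mul (g h : G) : (gsg g : MonoidAlgebra (ZMod 2) G) * gsg h = gsg (g * h) := by
  rw [gsg, gsg, MonoidAlgebra.single_mul_single, one_mul]

lemma gsg_one : (gsg (1 : G) : MonoidAlgebra (ZMod 2) G) = 1 := rfl

lemma ga_induction {P : MonoidAlgebra (ZMod 2) G → Prop} (h0 : P 0)
    (hadd : ∀ a b, P a → P b → P (a + b)) (hg : ∀ g : G, P (gsg g)) (a : MonoidAlgebra (ZMod 2) G) :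
    P a := by
  induction a using MonoidAlgebra.induction_linear with
  | zero => exact h0
  | add a b ha hb => exact hadd a b ha hb
  | single g c =>
    have hc : c = 0 ∨ c = 1 := by
      revert c; decide
    rcases hc with rfl | rfl
    · rw [MonoidAlgebra.single_zero]; exact h0
    · exact hg g

lemma zmod2_add_self (a : ZMod 2) : a + a = 0 := by
  revert a; decide

/-- the additive function attached to a character -/
noncomputable def chF (χ : G →* ℤˣ) (g : G) : ZMod 2 := if χ g = 1 then 0 else 1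

lemma chF_mul (χ : G →* ℤˣ) (g h : G) : chF χ (g * h) = chF χ g + chF χ h := by
  unfold chF
  rw [map_mul]
  rcases Int.units_eq_one_or (χ g) with h1 | h1 <;> rcases Int.units_eq_one_or (χ h) with h2 | h2 <;>
    rw [h1, h2] <;> decide

lemma chF_inj {χ ψ : G →* ℤˣ} (h : ∀ g, chF χ g = chF ψ g) : χ = ψ := by
  ext1 g
  have := h g
  unfold chF at this
  rcases Int.units_eq_one_or (χ g) with h1 | h1 <;> rcases Int.units_eq_one_or (ψ g) with h2 | h2 <;>
    rw [h1, h2] at this ⊢ <;> revert this <;> decide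

lemma linExt_mul (f : G → ZMod 2) (hf : ∀ g h, f (g * h) = f g + f h) (g : G)
    (a : MonoidAlgebra (ZMod 2) G) :
    linExt f (gsg g * a) = f g * aug G a + linExt f a := by
  induction a using ga_induction with
  | h0 => simp
  | hadd a b ha hb => rw [mul_add, map_add, ha, hb, map_add, map_add]; ring
  | hg h => rw [gsg_mul, linExt_gsg, linExt_gsg, aug_gsg, hf, mul_one]

/-- augmentation ideal as a left ideal -/
noncomputable def augI (G : Type) [Group G] :
    Submodule (MonoidAlgebra (ZMod 2) G) (MonoidAlgebra (ZMod 2) G) :=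
  RingHom.ker (aug G)

lemma mem_augI {a : MonoidAlgebra (ZMod 2) G} : a ∈ augI G ↔ aug G a = 0 := Iff.rfl

lemma finite_ga [Finite G] : Finite (MonoidAlgebra (ZMod 2) G) := by
  have : Finite (G → ZMod 2) := inferInstance
  have : Finite (G →₀ ZMod 2) := Finite.of_injective _ DFunLike.coe_injective
  exact Finite.of_injective _ (MonoidAlgebra.coeff_injective (R := ZMod 2) (M := G))

lemma card_hom_le [Finite G] : Nat.card (G →* ℤˣ) ≤ Nat.card (InvF G (augI G)) := by
  have := finite_ga (G := G)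
  have : Finite (augI G) := inferInstance
  have : Finite (Module.Dual (ZMod 2) (augI G)) := by
    have : Finite ((augI G) → ZMod 2) := inferInstance
    exact Finite.of_injective (fun φ : Module.Dual (ZMod 2) (augI G) => (φ : (augI G) → ZMod 2))
      DFunLike.coe_injective
  have : Finite (InvF G (augI G)) := inferInstance
  let Φ : (G →* ℤˣ) → InvF G (augI G) := fun χ =>
    ⟨(linExt (chF χ)) ∘ₗ ((augI G).subtype.restrictScalars (ZMod 2)), fun g m => by
      have hm : aug G (m : MonoidAlgebra (ZMod 2) G) = 0 := m.2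
      show linExt (chF χ) (gsg g * (m : MonoidAlgebra (ZMod 2) G)) = linExt (chF χ) (m : MonoidAlgebra (ZMod 2) G)
      rw [linExt_mul _ (chF_mul χ), hm]
      ring⟩
  have hΦ : ∀ (χ : G →* ℤˣ) (a : augI G), (Φ χ).1 a = linExt (chF χ) (a : MonoidAlgebra (ZMod 2) G) :=
    fun _ _ => rfl
  apply Nat.card_le_card_of_injective Φ
  intro χ ψ h
  apply chF_inj
  intro g
  have hmem : (gsg g - 1 : MonoidAlgebra (ZMod 2) G) ∈ augI G := by
    rw [mem_augI, map_sub, aug_gsg, map_one, sub_self]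
  have h1 := congrArg (fun φ : InvF G (augI G) => φ.1 ⟨_, hmem⟩) h
  simp only [hΦ] at h1
  have h2 : ∀ χ : G →* ℤˣ, chF χ 1 = 0 := by
    intro χ; simp [chF]
  rw [map_sub, map_sub, linExt_gsg, linExt_gsg, ← gsg_one, linExt_gsg, linExt_gsg, h2, h2,
    sub_zero, sub_zero] at h1
  exact h1

lemma relations_bound [Finite G] {k : ℕ} (x : Fin k → MonoidAlgebra (ZMod 2) G)
    (hx : ∀ i, aug G (x i) = 0)
    (hspan : ∀ a, aug G a = 0 → ∃ v : Fin k → MonoidAlgebra (ZMod 2) G,
      Fintype.linearCombination (MonoidAlgebra (ZMod 2) G) x v = a)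
    (hrel : ∀ v : Fin k → MonoidAlgebra (ZMod 2) G,
      Fintype.linearCombination (MonoidAlgebra (ZMod 2) G) x v = 0 → ∀ i, aug G (v i) = 0) :
    Nat.card (InvF G (LinearMap.ker (Fintype.linearCombination (MonoidAlgebra (ZMod 2) G) x))) ≤
      (B2 G).relIndex (Z2 G) := by
  set π := Fintype.linearCombination (MonoidAlgebra (ZMod 2) G) x with hπ
  have haugπ : ∀ v, aug G (π v) = 0 := by
    intro v
    rw [hπ, Fintype.linearCombination_apply, map_sum]
    apply Finset.sum_eq_zero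
    intro i _
    rw [smul_eq_mul, map_mul, hx, mul_zero]
  have h1 : ∀ g : G, ∃ v, π v = gsg g - 1 := by
    intro g
    apply hspan
    rw [map_sub, aug_gsg, map_one, sub_self]
  choose m hm using h1
  have hmem : ∀ g h : G, m g + (gsg g : MonoidAlgebra (ZMod 2) G) • m h - m (g * h) ∈ LinearMap.ker π := by
    intro g h
    rw [LinearMap.mem_ker, map_sub, map_add, map_smul, hm, hm, hm, smul_eq_mul, mul_sub, gsg_mul,
      mul_one]
    abel
  -- the cocycle attached to an invariant functional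
  let c : (InvF G (LinearMap.ker π)) → G → G → ZMod 2 := fun φ g h =>
    φ.1 ⟨m g + (gsg g : MonoidAlgebra (ZMod 2) G) • m h - m (g * h), hmem g h⟩
  have hc : ∀ φ g h, c φ g h = φ.1 ⟨m g + (gsg g : MonoidAlgebra (ZMod 2) G) • m h - m (g * h), hmem g h⟩ :=
    fun _ _ _ => rfl
  have hcoc : ∀ φ, c φ ∈ Z2 G := by
    intro φ g h k
    have h2 : c φ h k = φ.1 ((gsg g : MonoidAlgebra (ZMod 2) G) •
      (⟨m h + (gsg h : MonoidAlgebra (ZMod 2) G) • m k - m (h * k), hmem h k⟩ : LinearMap.ker π)) := by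
      rw [hc]; exact (φ.2 g _).symm
    rw [h2, hc, hc, hc, ← map_add, ← map_add]
    congr 1
    apply Subtype.ext
    simp only [Submodule.coe_add, Submodule.coe_smul]
    rw [smul_sub, smul_add, smul_smul, gsg_mul, mul_assoc]
    abel
  let Ψ : (InvF G (LinearMap.ker π)) → (Z2 G) ⧸ ((B2 G).addSubgroupOf (Z2 G)) := fun φ =>
    QuotientAddGroup.mk ⟨c φ, hcoc φ⟩
  have hfin : Finite ((Z2 G) ⧸ ((B2 G).addSubgroupOf (Z2 G))) := by
    have : Finite (G → G → ZMod 2) := inferInstance
    have : Finite (Z2 G) := inferInstance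
    exact Finite.of_surjective _ (QuotientAddGroup.mk_surjective)
  have hcard : (B2 G).relIndex (Z2 G) = Nat.card ((Z2 G) ⧸ ((B2 G).addSubgroupOf (Z2 G))) := rfl
  rw [hcard]
  apply Nat.card_le_card_of_injective Ψ
  intro φ ψ hφψ
  have hq : -(⟨c φ, hcoc φ⟩ : Z2 G) + ⟨c ψ, hcoc ψ⟩ ∈ (B2 G).addSubgroupOf (Z2 G) :=
    QuotientAddGroup.eq.1 hφψ
  rw [AddSubgroup.mem_addSubgroupOf] at hq
  obtain ⟨f, hf⟩ := hq
  -- reduce to a single functional
  suffices hker : ∀ χ : (InvF G (LinearMap.ker π)),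
      (∀ g h : G, c χ g h = f g + f h + f (g * h)) → χ = 0 by
    have h3 : ψ - φ = 0 := by
      apply hker
      intro g h
      rw [← hf g h]
      show c (ψ - φ) g h = -(c φ g h) + c ψ g h
      rw [hc, hc, hc]
      show (ψ.1 - φ.1) _ = _
      rw [LinearMap.sub_apply]
      abel
    exact (sub_eq_zero.1 h3).symm
  intro χ hχ
  -- extend to the whole space
  obtain ⟨s, hs⟩ := LinearMap.exists_leftInverse_of_injective
    ((LinearMap.ker π).subtype.restrictScalars (ZMod 2)) (by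
      rw [LinearMap.ker_eq_bot]
      exact Subtype.coe_injective)
  set Φ : (Fin k → MonoidAlgebra (ZMod 2) G) →ₗ[ZMod 2] ZMod 2 := χ.1 ∘ₗ s with hΦdef
  have hΦ : ∀ v (hv : v ∈ LinearMap.ker π), Φ v = χ.1 ⟨v, hv⟩ := by
    intro v hv
    have := LinearMap.congr_fun hs (⟨v, hv⟩ : LinearMap.ker π)
    simp only [LinearMap.comp_apply, LinearMap.id_apply] at this
    rw [hΦdef, LinearMap.comp_apply]
    exact congrArg χ.1 this
  have hΦinv : ∀ (g : G) v, v ∈ LinearMap.ker π → Φ ((gsg g : MonoidAlgebra (ZMod 2) G) • v) = Φ v := by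
    intro g v hv
    rw [hΦ v hv, hΦ _ (Submodule.smul_mem _ _ hv)]
    exact χ.2 g ⟨v, hv⟩
  set Mx : MonoidAlgebra (ZMod 2) G →ₗ[ZMod 2] (Fin k → MonoidAlgebra (ZMod 2) G) := linExt m
  set ft : MonoidAlgebra (ZMod 2) G →ₗ[ZMod 2] ZMod 2 := linExt f
  have hid1 : ∀ a, π (Mx a) = a - (aug G a) • (1 : MonoidAlgebra (ZMod 2) G) := by
    intro a
    induction a using ga_induction with
    | h0 => simp
    | hadd a b ha hb => rw [map_add, map_add, ha, hb, map_add, add_smul]; abel
    | hg g => rw [linExt_gsg, hm, aug_gsg, one_smul]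
  have hid2 : ∀ (g : G) a, Φ ((gsg g : MonoidAlgebra (ZMod 2) G) • Mx a - Mx (gsg g * a) +
      (aug G a) • m g) = aug G a * f g + ft a + ft (gsg g * a) := by
    intro g a
    induction a using ga_induction with
    | h0 => simp
    | hadd a b ha hb =>
      have : (gsg g : MonoidAlgebra (ZMod 2) G) • Mx (a + b) - Mx (gsg g * (a + b)) +
          (aug G (a + b)) • m g =
          ((gsg g : MonoidAlgebra (ZMod 2) G) • Mx a - Mx (gsg g * a) + (aug G a) • m g) +
          ((gsg g : MonoidAlgebra (ZMod 2) G) • Mx b - Mx (gsg g * b) + (aug G b) • m g) := by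
        rw [map_add, smul_add, mul_add, map_add, map_add, add_smul]; abel
      rw [this, map_add, ha, hb, map_add, map_add, mul_add, map_add]
      ring
    | hg h =>
      rw [linExt_gsg, gsg_mul, linExt_gsg, aug_gsg, one_smul, linExt_gsg, linExt_gsg]
      have h4 : (gsg g : MonoidAlgebra (ZMod 2) G) • m h - m (g * h) + m g =
          m g + (gsg g : MonoidAlgebra (ZMod 2) G) • m h - m (g * h) := by abel
      rw [h4, hΦ _ (hmem g h), ← hc, hχ, one_mul]
  -- the invariant functional on the free module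
  set Λ : (Fin k → MonoidAlgebra (ZMod 2) G) →ₗ[ZMod 2] ZMod 2 :=
    Φ ∘ₗ (LinearMap.id - Mx ∘ₗ (π.restrictScalars (ZMod 2))) + ft ∘ₗ (π.restrictScalars (ZMod 2))
    with hΛdef
  have hΛ : ∀ v, Λ v = Φ (v - Mx (π v)) + ft (π v) := fun v => rfl
  have hΛinv : ∀ (g : G) v, Λ ((gsg g : MonoidAlgebra (ZMod 2) G) • v) = Λ v := by
    intro g v
    rw [hΛ, hΛ, map_smul, smul_eq_mul]
    have hw : v - Mx (π v) ∈ LinearMap.ker π := by
      rw [LinearMap.mem_ker, map_sub, hid1, haugπ, zero_smul, sub_zero, sub_self]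
    have h5 : (gsg g : MonoidAlgebra (ZMod 2) G) • v - Mx (gsg g * π v) =
        (gsg g : MonoidAlgebra (ZMod 2) G) • (v - Mx (π v)) +
        ((gsg g : MonoidAlgebra (ZMod 2) G) • Mx (π v) - Mx (gsg g * π v) +
          (aug G (π v)) • m g) := by
      rw [haugπ, zero_smul, smul_sub]; abel
    rw [h5, map_add, hΦinv g _ hw, hid2, haugπ, zero_mul, zero_add]
    have h6 := zmod2_add_self (ft (gsg g * π v))
    linear_combination h6
  apply Subtype.ext
  ext ⟨v, hv⟩
  have hv' : π v = 0 := hv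
  have h7 : χ.1 ⟨v, hv⟩ = Λ v := by
    rw [hΛ, hv', map_zero, map_zero, sub_zero, add_zero, hΦ v hv]
  rw [h7]
  have h8 : v = ∑ i, v i • (Pi.single i 1 : Fin k → MonoidAlgebra (ZMod 2) G) := by
    ext1 j
    rw [Finset.sum_apply]
    simp [Pi.single_apply]
  show Λ v = (0 : ZMod 2)
  rw [h8, map_sum]
  apply Finset.sum_eq_zero
  intro i _
  rw [inv_smul Λ hΛinv, hrel v hv' i, zero_mul]

/-- powers of the augmentation ideal, starting with everything -/
noncomputable def JJ (G : Type) [Group G] : ℕ → Submodule (ZMod 2) (MonoidAlgebra (ZMod 2) G)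
  | 0 => ⊤
  | (k+1) => JJ G k * LinearMap.ker (aug G).toLinearMap

lemma JJ_succ (k : ℕ) : JJ G (k+1) = JJ G k * LinearMap.ker (aug G).toLinearMap := rfl

lemma JJ_mul (k : ℕ) {a : MonoidAlgebra (ZMod 2) G} (ha : a ∈ JJ G k) (b : MonoidAlgebra (ZMod 2) G) :
    a * b ∈ JJ G k := by
  cases k with
  | zero => trivial
  | succ k =>
    rw [JJ_succ] at ha ⊢
    induction ha using Submodule.mul_induction_on' with
    | mem_mul_mem m hm n hn =>
      rw [mul_assoc]
      refine Submodule.mul_mem_mul hm ?_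
      rw [LinearMap.mem_ker] at hn ⊢
      have hn' : aug G n = 0 := hn
      show aug G (n * b) = 0
      rw [map_mul, hn', zero_mul]
    | add x hx y hy h1 h2 => rw [add_mul]; exact add_mem h1 h2

lemma JJ_mul_aug {k : ℕ} {a b : MonoidAlgebra (ZMod 2) G} (ha : a ∈ JJ G k) (hb : aug G b = 0) :
    a * b ∈ JJ G (k+1) := by
  rw [JJ_succ]
  exact Submodule.mul_mem_mul ha hb

lemma JJ_aug {k : ℕ} {a : MonoidAlgebra (ZMod 2) G} (ha : a ∈ JJ G (k+1)) : aug G a = 0 := by
  rw [JJ_succ] at ha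
  induction ha using Submodule.mul_induction_on' with
  | mem_mul_mem m hm n hn =>
    have hn' : aug G n = 0 := hn
    rw [map_mul, hn', mul_zero]
  | add x hx y hy h1 h2 => rw [map_add, h1, h2, add_zero]

lemma JJ_span {d' : ℕ} (x : Fin d' → MonoidAlgebra (ZMod 2) G)
    (hspan : ∀ a, aug G a = 0 → ∃ v : Fin d' → MonoidAlgebra (ZMod 2) G,
      Fintype.linearCombination (MonoidAlgebra (ZMod 2) G) x v = a) {k : ℕ}
    {a : MonoidAlgebra (ZMod 2) G} (ha : a ∈ JJ G (k+1)) :
    ∃ ρ : Fin d' → MonoidAlgebra (ZMod 2) G, (∀ i, ρ i ∈ JJ G k) ∧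
      Fintype.linearCombination (MonoidAlgebra (ZMod 2) G) x ρ = a := by
  rw [JJ_succ] at ha
  induction ha using Submodule.mul_induction_on' with
  | mem_mul_mem m hm n hn =>
    obtain ⟨v, hv⟩ := hspan n hn
    refine ⟨m • v, fun i => JJ_mul k hm _, ?_⟩
    rw [map_smul, hv, smul_eq_mul]
  | add y hy z hz h1 h2 =>
    obtain ⟨v, hv, hv'⟩ := h1
    obtain ⟨w, hw, hw'⟩ := h2
    exact ⟨v + w, fun i => add_mem (hv i) (hw i), by rw [map_add, hv', hw']⟩

lemma growth_step [Finite G] {d' r' : ℕ} (x : Fin d' → MonoidAlgebra (ZMod 2) G)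
    (hx : ∀ i, aug G (x i) = 0)
    (hspan : ∀ a, aug G a = 0 → ∃ v : Fin d' → MonoidAlgebra (ZMod 2) G,
      Fintype.linearCombination (MonoidAlgebra (ZMod 2) G) x v = a)
    (m : Fin r' → Fin d' → MonoidAlgebra (ZMod 2) G)
    (hm : ∀ j i, aug G (m j i) = 0)
    (hmspan : ∀ v : Fin d' → MonoidAlgebra (ZMod 2) G,
      Fintype.linearCombination (MonoidAlgebra (ZMod 2) G) x v = 0 →
      ∃ σ : Fin r' → MonoidAlgebra (ZMod 2) G, ∑ j, σ j • m j = v) (k : ℕ) :
    d' * finrank (ZMod 2) (MonoidAlgebra (ZMod 2) G ⧸ JJ G (k+1)) + 1 ≤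
      finrank (ZMod 2) (MonoidAlgebra (ZMod 2) G ⧸ JJ G (k+2)) +
      r' * finrank (ZMod 2) (MonoidAlgebra (ZMod 2) G ⧸ JJ G k) := by
  have := finite_ga (G := G)
  have : Module.Finite (ZMod 2) (MonoidAlgebra (ZMod 2) G) := Module.Finite.of_finite
  -- the map γ
  have hγ : ∀ i, JJ G (k+1) ≤ (JJ G (k+2)).comap (LinearMap.mulRight (ZMod 2) (x i)) := by
    intro i a ha
    exact JJ_mul_aug ha (hx i)
  have hδ : ∀ j i, JJ G k ≤ (JJ G (k+1)).comap (LinearMap.mulRight (ZMod 2) (m j i)) := by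
    intro j i a ha
    exact JJ_mul_aug ha (hm j i)
  let γ : (Fin d' → MonoidAlgebra (ZMod 2) G ⧸ JJ G (k+1)) →ₗ[ZMod 2]
      (MonoidAlgebra (ZMod 2) G ⧸ JJ G (k+2)) :=
    ∑ i, (Submodule.mapQ _ _ (LinearMap.mulRight (ZMod 2) (x i)) (hγ i)) ∘ₗ LinearMap.proj i
  have hγv : ∀ v : Fin d' → MonoidAlgebra (ZMod 2) G,
      γ (fun i => (JJ G (k+1)).mkQ (v i)) = (JJ G (k+2)).mkQ
        (Fintype.linearCombination (MonoidAlgebra (ZMod 2) G) x v) := by
    intro v
    simp only [γ, LinearMap.sum_apply, LinearMap.comp_apply, LinearMap.proj_apply,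
      Submodule.mapQ_apply, Submodule.mkQ_apply, Fintype.linearCombination_apply]
    rw [← Submodule.mkQ_apply, map_sum]
    rfl
  let δ : (Fin r' → MonoidAlgebra (ZMod 2) G ⧸ JJ G k) →ₗ[ZMod 2]
      (Fin d' → MonoidAlgebra (ZMod 2) G ⧸ JJ G (k+1)) :=
    LinearMap.pi fun i => ∑ j,
      (Submodule.mapQ _ _ (LinearMap.mulRight (ZMod 2) (m j i)) (hδ j i)) ∘ₗ LinearMap.proj j
  have hδv : ∀ σ : Fin r' → MonoidAlgebra (ZMod 2) G,
      δ (fun j => (JJ G k).mkQ (σ j)) = fun i => (JJ G (k+1)).mkQ ((∑ j, σ j • m j) i) := by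
    intro σ
    ext1 i
    simp only [δ, LinearMap.pi_apply, LinearMap.sum_apply, LinearMap.comp_apply,
      LinearMap.proj_apply, Submodule.mapQ_apply, Submodule.mkQ_apply, Finset.sum_apply]
    rw [← Submodule.mkQ_apply, map_sum]
    rfl
  have hker : LinearMap.ker γ ≤ LinearMap.range δ := by
    intro ρb hρb
    have h1 : ∀ i, ∃ v, (JJ G (k+1)).mkQ v = ρb i := fun i => (JJ G (k+1)).mkQ_surjective _
    choose v hv using h1
    have h2 : ρb = fun i => (JJ G (k+1)).mkQ (v i) := by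
      ext1 i; exact (hv i).symm
    rw [h2, LinearMap.mem_ker, hγv, Submodule.mkQ_apply, Submodule.Quotient.mk_eq_zero] at hρb
    obtain ⟨w, hw, hw'⟩ := JJ_span x hspan hρb
    obtain ⟨σ, hσ⟩ := hmspan (v - w) (by rw [map_sub, hw', sub_self])
    refine ⟨fun j => (JJ G k).mkQ (σ j), ?_⟩
    rw [hδv, hσ, h2]
    ext1 i
    rw [Pi.sub_apply, map_sub]
    have : (JJ G (k+1)).mkQ (w i) = 0 := by
      rw [Submodule.mkQ_apply, Submodule.Quotient.mk_eq_zero]; exact hw i
    rw [this, sub_zero]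
  have hrange : LinearMap.range γ < ⊤ := by
    rw [lt_top_iff_ne_top]
    intro htop
    have h1 : (JJ G (k+2)).mkQ 1 ∈ LinearMap.range γ := by rw [htop]; trivial
    obtain ⟨ρb, hρb⟩ := h1
    have h1 : ∀ i, ∃ v, (JJ G (k+1)).mkQ v = ρb i := fun i => (JJ G (k+1)).mkQ_surjective _
    choose v hv using h1
    have h2 : ρb = fun i => (JJ G (k+1)).mkQ (v i) := by
      ext1 i; exact (hv i).symm
    rw [h2, hγv, ← sub_eq_zero, ← map_sub, Submodule.mkQ_apply, Submodule.Quotient.mk_eq_zero] at hρb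
    have h3 := JJ_aug hρb
    rw [map_sub, map_one, Fintype.linearCombination_apply, map_sum,
      Finset.sum_eq_zero (fun i _ => by rw [smul_eq_mul, map_mul, hx, mul_zero])] at h3
    exact absurd h3 (by decide)
  have e1 := LinearMap.finrank_range_add_finrank_ker γ
  have e2 := Submodule.finrank_lt hrange.ne
  have e3 : finrank (ZMod 2) (LinearMap.ker γ) ≤ finrank (ZMod 2) (LinearMap.range δ) :=
    Submodule.finrank_mono hker
  have e4 := LinearMap.finrank_range_le δ
  have e5 : finrank (ZMod 2) (Fin d' → MonoidAlgebra (ZMod 2) G ⧸ JJ G (k+1)) =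
      d' * finrank (ZMod 2) (MonoidAlgebra (ZMod 2) G ⧸ JJ G (k+1)) := by
    rw [Module.finrank_pi_fintype]; simp
  have e6 : finrank (ZMod 2) (Fin r' → MonoidAlgebra (ZMod 2) G ⧸ JJ G k) =
      r' * finrank (ZMod 2) (MonoidAlgebra (ZMod 2) G ⧸ JJ G k) := by
    rw [Module.finrank_pi_fintype]; simp
  omega

lemma numeric (a : ℕ → ℕ) (C d' r' : ℕ) (h0 : a 0 = 0)
    (hstep : ∀ k, d' * a (k+1) + 1 ≤ a (k+2) + r' * a k) (hC : ∀ k, a k ≤ C) (hd : 2 ≤ d')
    (hr : 4 * r' ≤ d' ^ 2) : False := by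
  have h1 : ∀ k, d' * a k ≤ 2 * a (k+1) := by
    intro k
    induction k with
    | zero => rw [h0]; simp
    | succ k ih =>
      have h2 := hstep k
      have h3 : 4 * r' * a k ≤ d' ^ 2 * a k := Nat.mul_le_mul_right _ hr
      have h4 : d' * (d' * a k) ≤ d' * (2 * a (k+1)) := Nat.mul_le_mul_left _ ih
      have h5 : d' ^ 2 * a k = d' * (d' * a k) := by ring
      have h6 : d' * (2 * a (k+1)) = 2 * (d' * a (k+1)) := by ring
      have h7 : 4 * r' * a k = 4 * (r' * a k) := by ring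
      have e : k + 1 + 1 = k + 2 := rfl
      rw [e]
      omega
  have h2 : ∀ k, a (k+1) + 1 ≤ a (k+2) := by
    intro k
    have h2 := hstep k
    have h3 : 4 * r' * a k ≤ d' ^ 2 * a k := Nat.mul_le_mul_right _ hr
    have h4 : d' * (d' * a k) ≤ d' * (2 * a (k+1)) := Nat.mul_le_mul_left _ (h1 k)
    have h5 : d' ^ 2 * a k = d' * (d' * a k) := by ring
    have h6 : d' * (2 * a (k+1)) = 2 * (d' * a (k+1)) := by ring
    have h7 : 4 * r' * a k = 4 * (r' * a k) := by ring
    have h8 : 2 * a (k+1) ≤ d' * a (k+1) := Nat.mul_le_mul_right _ hd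
    omega
  have h3 : ∀ k, k ≤ a (k+1) := by
    intro k
    induction k with
    | zero => simp
    | succ k ih =>
      have := h2 k
      show k + 1 ≤ a (k+2)
      omega
  have := h3 (C+1)
  have := hC (C+1+1)
  omega

end Main

end GSaux

open MonoidAlgebra Module GSaux in
/-- **Golod–Shafarevich** for finite 2-groups: with `d = dim Hom(G, F₂)` and
`dim H²(G, F₂) ≤ r` we have `d² < 4 r` (for `d ≥ 2`).

Proof.  `R = F₂[G]` (`MonoidAlgebra (ZMod 2) G`), `I` augmentation ideal (nilpotent since `G` is a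
finite 2-group).  `I / I²` is dual to `Hom(G, F₂)`, so `dim I/I² = d`; choose `x₁..x_d ∈ I` whose
classes are a basis of `I/I²`; they generate `I` as a left ideal (nilpotent Nakayama).
`π : R^d → I`, kernel `R₁ ⊆ I·R^d`.
(1) `dim R₁/I R₁ = dim Hom_R(R₁, F₂) ≤ dim Z2/B2 ≤ r`: choose `m_g ∈ R^d` with `π m_g = g - 1`; for
`l ∈ Hom_R(R₁, F₂)` put `c(g,h) = l(m_g + g m_h - m_{gh})`; `c` is a cocycle; if `c` is a
coboundary, then `l` extends to an `R`-hom `R^d → F₂`
(`r·e_i`…: `M = R^d/ker l`, `g ↦ m_g + f(g)` is a derivation `G → M`, giving an `R`-hom `I → M`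
splitting `0 → F₂ → M → I → 0`), which kills `I·R^d ⊇ R₁`, so `l = 0`.
(2) `a_k = dim R/I^k`, `a_0 = 0`, `a_1 = 1`.  Then `d·a_k ≤ (a_{k+1} - 1) + r a_{k-1}` for `k ≥ 1`:
`(R/I^k)^d → I/I^{k+1}` is surjective with kernel the image of `R₁`, which is spanned by the images
of `≤ r` generators `m ∈ I·R^d` of `R₁`, each giving a quotient of `R/I^{k-1}`.
(3) If `4 r ≤ d²`, `b_k = a_k - (d/2) a_{k-1}` satisfies `b_1 = 1`, `b_{k+1} ≥ (d/2) b_k + 1 ≥ 1`,
so `a_k ≥ (d/2) a_{k-1} + 1` (for `d ≥ 2`: `≥ a_{k-1}+1`) is unbounded, contradicting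
`a_k ≤ |G|`. -/
theorem golodShafarevich (G : Type) [Group G] [Finite G] {n : ℕ} (hG : Nat.card G = 2 ^ n)
    {d r : ℕ} (hd : Nat.card (G →* ℤˣ) = 2 ^ d) (hd2 : 2 ≤ d)
    (hr : (B2 G).relIndex (Z2 G) ≤ 2 ^ r) : d ^ 2 < 4 * r := by
  by_contra hlt
  have hlt' : 4 * r ≤ d ^ 2 := not_lt.1 hlt
  have := finite_ga (G := G)
  obtain ⟨x, hxi, hxs⟩ := minGen (G := G) (W := augI G) hG
  have hdd : d ≤ finrank (ZMod 2) ((augI G) ⧸ IM G (augI G)) := by
    have h1 := card_hom_le (G := G)
    rw [hd, card_invF] at h1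
    exact (Nat.pow_le_pow_iff_right (by norm_num)).1 h1
  generalize finrank (ZMod 2) ((augI G) ⧸ IM G (augI G)) = d' at x hxi hxs hdd
  have hy : ∀ i, aug G ((x i : MonoidAlgebra (ZMod 2) G)) = 0 := fun i => (x i).2
  have hspan : ∀ a, aug G a = 0 → ∃ v : Fin d' → MonoidAlgebra (ZMod 2) G,
      Fintype.linearCombination (MonoidAlgebra (ZMod 2) G)
        (fun i => (x i : MonoidAlgebra (ZMod 2) G)) v = a := by
    intro a ha
    have h1 : (⟨a, ha⟩ : augI G) ∈ Submodule.span (MonoidAlgebra (ZMod 2) G) (Set.range x) := by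
      rw [hxs]; trivial
    rw [Submodule.mem_span_range_iff_exists_fun] at h1
    obtain ⟨v, hv⟩ := h1
    refine ⟨v, ?_⟩
    have h2 := congrArg (fun z : augI G => (z : MonoidAlgebra (ZMod 2) G)) hv
    simp only [AddSubmonoidClass.coe_finset_sum, Submodule.coe_smul] at h2
    rw [Fintype.linearCombination_apply]
    exact h2
  have hrel : ∀ v : Fin d' → MonoidAlgebra (ZMod 2) G,
      Fintype.linearCombination (MonoidAlgebra (ZMod 2) G)
        (fun i => (x i : MonoidAlgebra (ZMod 2) G)) v = 0 → ∀ i, aug G (v i) = 0 := by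
    intro v hv
    have h1 : ∑ i, v i • x i = 0 := by
      apply Subtype.ext
      rw [Fintype.linearCombination_apply] at hv
      simp only [AddSubmonoidClass.coe_finset_sum, Submodule.coe_smul, Submodule.coe_zero]
      exact hv
    have h2 : ∑ i, aug G (v i) • (IM G (augI G)).mkQ (x i) = 0 := by
      rw [← map_zero (IM G (augI G)).mkQ, ← h1, map_sum]
      refine Finset.sum_congr rfl fun i _ => ?_
      rw [← map_smul, ← sub_eq_zero, ← map_sub, ← neg_eq_zero, ← map_neg, neg_sub,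
        Submodule.mkQ_apply, Submodule.Quotient.mk_eq_zero]
      exact smul_sub_mem_IM _ _
    exact Fintype.linearIndependent_iff.1 hxi _ h2
  have hbound := relations_bound (fun i => (x i : MonoidAlgebra (ZMod 2) G)) hy hspan hrel
  obtain ⟨m, hmi, hms⟩ := minGen (G := G) (W := LinearMap.ker (Fintype.linearCombination
    (MonoidAlgebra (ZMod 2) G) (fun i => (x i : MonoidAlgebra (ZMod 2) G)))) hG
  rw [card_invF] at hbound
  have hrr := (Nat.pow_le_pow_iff_right (by norm_num : 1 < 2)).1 (hbound.trans hr)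
  clear hbound
  generalize finrank (ZMod 2) ((LinearMap.ker (Fintype.linearCombination
    (MonoidAlgebra (ZMod 2) G) (fun i => (x i : MonoidAlgebra (ZMod 2) G)))) ⧸
    IM G (LinearMap.ker (Fintype.linearCombination
    (MonoidAlgebra (ZMod 2) G) (fun i => (x i : MonoidAlgebra (ZMod 2) G))))) = r' at m hmi hms hrr
  have hmspan : ∀ v : Fin d' → MonoidAlgebra (ZMod 2) G,
      Fintype.linearCombination (MonoidAlgebra (ZMod 2) G)
        (fun i => (x i : MonoidAlgebra (ZMod 2) G)) v = 0 →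
      ∃ σ : Fin r' → MonoidAlgebra (ZMod 2) G, ∑ j, σ j •
        (m j : Fin d' → MonoidAlgebra (ZMod 2) G) = v := by
    intro v hv
    have h1 : (⟨v, hv⟩ : LinearMap.ker (Fintype.linearCombination
        (MonoidAlgebra (ZMod 2) G) (fun i => (x i : MonoidAlgebra (ZMod 2) G)))) ∈
        Submodule.span (MonoidAlgebra (ZMod 2) G) (Set.range m) := by
      rw [hms]; trivial
    rw [Submodule.mem_span_range_iff_exists_fun] at h1
    obtain ⟨σ, hσ⟩ := h1
    refine ⟨σ, ?_⟩
    have h2 := congrArg Subtype.val hσ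
    simp only [AddSubmonoidClass.coe_finset_sum, Submodule.coe_smul] at h2
    exact h2
  have : Module.Finite (ZMod 2) (MonoidAlgebra (ZMod 2) G) := Module.Finite.of_finite
  refine numeric (fun k => finrank (ZMod 2) (MonoidAlgebra (ZMod 2) G ⧸ JJ G k))
    (finrank (ZMod 2) (MonoidAlgebra (ZMod 2) G)) d' r' ?_ ?_ ?_ (hd2.trans hdd) ?_
  · have : Subsingleton (MonoidAlgebra (ZMod 2) G ⧸ JJ G 0) :=
      Submodule.Quotient.subsingleton_iff.2 rfl
    exact Module.finrank_zero_of_subsingleton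
  · intro k
    exact growth_step (fun i => (x i : MonoidAlgebra (ZMod 2) G)) hy hspan
      (fun j => (m j : Fin d' → MonoidAlgebra (ZMod 2) G)) (fun j i => hrel _ (m j).2 i) hmspan k
  · intro k
    exact Submodule.finrank_quotient_le _
  · have : 4 * r' ≤ 4 * r := by omega
    have h9 : d ^ 2 ≤ d' ^ 2 := Nat.pow_le_pow_left hdd 2
    omega

end Crest.Agent.HB
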