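import Mathlib

/-! Row 32 (S0042), chunk T3: the abstract index computation behind the Hasse norm theorem for
unramified quadratic extensions ("ambiguous class number formula"). -/
set_option autoImplicit false

namespace Crest.Agent.HB

namespace HN

variable {U J : Type*} [CommGroup U] [CommGroup J]

/-- Fixed points of an automorphism. -/
def fixS (τ : U ≃* U) : Subgroup U where
  carrier := {u | τ u = u}
  one_mem' := by simp
  mul_mem' := by
    intro a b (ha : τ a = a) (hb : τ b = b)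
    change τ (a * b) = a * b
    rw [map_mul, ha, hb]
  inv_mem' := by
    intro a (ha : τ a = a)
    change τ a⁻¹ = a⁻¹
    rw [map_inv, ha]

@[simp] lemma mem_fixS (τ : U ≃* U) (u : U) : u ∈ fixS τ ↔ τ u = u := Iff.rfl

/-- The norm map `u ↦ u * τ u`. -/
def nu (τ : U ≃* U) : U →* U where
  toFun u := u * τ u
  map_one' := by simp
  map_mul' a b := by rw [map_mul]; exact mul_mul_mul_comm a b (τ a) (τ b)

@[simp] lemma nu_apply (τ : U ≃* U) (u : U) : nu τ u = u * τ u := rfl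

/-- The map `u ↦ u / τ u`. -/
def de (τ : U ≃* U) : U →* U where
  toFun u := u / τ u
  map_one' := by simp
  map_mul' a b := by rw [map_mul]; exact mul_div_mul_comm a b (τ a) (τ b)

@[simp] lemma de_apply (τ : U ≃* U) (u : U) : de τ u = u / τ u := rfl

lemma relIndex_map_eq {A B : Type*} [Group A] [Group B] (f : A →* B) (S X : Subgroup A)
    (T : Subgroup B) (h : ∀ s ∈ S, f s ∈ T ↔ s ∈ X) :
    T.relIndex (S.map f) = X.relIndex S := by
  rw [← Subgroup.relIndex_comap, ← Subgroup.inf_relIndex_right, ← Subgroup.inf_relIndex_right X]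
  congr 1
  ext s
  simp only [Subgroup.mem_inf, Subgroup.mem_comap]
  constructor
  · rintro ⟨h1, h2⟩; exact ⟨(h s h2).1 h1, h2⟩
  · rintro ⟨h1, h2⟩; exact ⟨(h s h2).2 h1, h2⟩

theorem index_formula (τ : U ≃* U) (σ : J ≃* J) (d : U →* J) (hτ : ∀ u, τ (τ u) = u)
    (hσ : ∀ x, σ (σ x) = x) (hd : ∀ u, d (τ u) = σ (d u))
    (H : ∀ u, u * τ u = 1 → ∃ w, u = w / τ w)
    (HJ : ∀ x, x * σ x = 1 → ∃ y, x = y / σ y)
    (hfin : d.range.index ≠ 0) :
    (nu τ).range.relIndex (fixS τ ⊓ (nu σ).range.comap d) *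
      (d.ker.map (de τ)).relIndex (d.ker ⊓ (nu τ).ker) =
    ((fixS τ).map d ⊔ (nu σ).range).relIndex (fixS σ) *
      (d.ker.map (nu τ)).relIndex (d.ker ⊓ fixS τ) := by
  -- notation
  set Up := fixS τ with hUp
  set Jp := fixS σ with hJp
  set P := d.range with hP
  set E' := d.ker with hE'
  set NU := (nu τ).range with hNU
  set NJ := (nu σ).range with hNJ
  set E := E' ⊓ Up with hE
  set NE := E'.map (nu τ) with hNE
  set Em := E' ⊓ (nu τ).ker with hEm
  set E1 := E'.map (de τ) with hE1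
  set Y := Up ⊓ NJ.comap d with hY
  set dUp := Up.map d with hdUp
  set Pp := P ⊓ Jp with hPp
  set NP := NU.map d with hNP
  set Pm := P ⊓ (nu σ).ker with hPm
  set P1 := P.map (de σ) with hP1
  set W := P.comap (de σ) with hW
  -- basic facts
  have nu_fix : ∀ u, u * τ u ∈ Up := by
    intro u; rw [hUp, mem_fixS, map_mul, hτ, mul_comm]
  have nu_fixJ : ∀ u, u * σ u ∈ Jp := by
    intro u; rw [hJp, mem_fixS, map_mul, hσ, mul_comm]
  have NU_le : NU ≤ Up := by
    rintro _ ⟨u, rfl⟩; exact nu_fix u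
  have NJ_le : NJ ≤ Jp := by
    rintro _ ⟨u, rfl⟩; exact nu_fixJ u
  have d_nu : ∀ u, d (u * τ u) = d u * σ (d u) := by
    intro u; rw [map_mul, hd]
  have d_de : ∀ u, d (u / τ u) = d u / σ (d u) := by
    intro u; rw [map_div, hd]
  have d_fix : ∀ u ∈ Up, d u ∈ Jp := by
    intro u hu
    rw [hJp, mem_fixS, ← hd, (mem_fixS τ u).1 hu]
  have dUp_le : dUp ≤ Jp := by
    rintro _ ⟨u, hu, rfl⟩; exact d_fix u hu
  have de_nu : ∀ u, (u / τ u) * τ (u / τ u) = 1 := by
    intro u; rw [map_div, hτ]; simp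
  have de_nuJ : ∀ u, (u / σ u) * σ (u / σ u) = 1 := by
    intro u; rw [map_div, hσ]; simp
  have de_fix : ∀ u ∈ Up, u / τ u = 1 := by
    intro u hu; rw [(mem_fixS τ u).1 hu]; simp
  have de_eq : ∀ u, u / τ u = 1 ↔ u ∈ Up := by
    intro u; rw [div_eq_one, hUp, mem_fixS, eq_comm]
  have de_eqJ : ∀ u, u / σ u = 1 ↔ u ∈ Jp := by
    intro u; rw [div_eq_one, hJp, mem_fixS, eq_comm]
  -- (i1)
  have i1 : NP.relIndex (dUp ⊓ NJ) = (E ⊔ NU).relIndex Y := by
    have e : dUp ⊓ NJ = Y.map d := by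
      ext x
      constructor
      · rintro ⟨⟨u, hu, rfl⟩, h2⟩
        exact ⟨u, ⟨hu, h2⟩, rfl⟩
      · rintro ⟨u, ⟨hu, h2⟩, rfl⟩
        exact ⟨⟨u, hu, rfl⟩, h2⟩
    rw [e]
    apply relIndex_map_eq
    rintro y ⟨hy1, hy2⟩
    constructor
    · rintro ⟨_, ⟨w, rfl⟩, hw⟩
      rw [nu_apply] at hw
      rw [Subgroup.mem_sup]
      refine ⟨y / (w * τ w), ⟨?_, ?_⟩, w * τ w, ⟨w, rfl⟩, by simp⟩
      · change d (y / (w * τ w)) = 1
        rw [map_div, hw, div_self']
      · exact Up.div_mem hy1 (nu_fix w)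
    · intro h
      rw [Subgroup.mem_sup] at h
      obtain ⟨e, he, n, hn, rfl⟩ := h
      refine ⟨n, hn, ?_⟩
      have : d e = 1 := he.1
      rw [map_mul, this, one_mul]
  -- (i2)
  have i2 : NU.relIndex (E ⊔ NU) = NU.relIndex E := Subgroup.relIndex_sup_right E NU
  have i12 : NU.relIndex Y = NU.relIndex E * NP.relIndex (dUp ⊓ NJ) := by
    rw [i1, ← i2]
    refine (Subgroup.relIndex_mul_relIndex NU (E ⊔ NU) Y le_sup_right ?_).symm
    refine sup_le ?_ ?_
    · rintro u ⟨hu1, hu2⟩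
      refine ⟨hu2, ?_⟩
      have : d u = 1 := hu1
      change d u ∈ NJ
      rw [this]; exact NJ.one_mem
    · rintro _ ⟨u, rfl⟩
      refine ⟨nu_fix u, ?_⟩
      exact ⟨d u, by rw [nu_apply, nu_apply, d_nu]⟩
  -- (i3)
  have NE_le : NE ≤ E ⊓ NU := by
    rintro _ ⟨u, hu, rfl⟩
    refine ⟨⟨?_, nu_fix u⟩, ⟨u, rfl⟩⟩
    have hu' : d u = 1 := hu
    change d (u * τ u) = 1
    rw [d_nu, hu']; simp
  have i3 : NE.relIndex E = NE.relIndex (E ⊓ NU) * NU.relIndex E := by
    rw [← Subgroup.inf_relIndex_left E NU]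
    exact (Subgroup.relIndex_mul_relIndex NE (E ⊓ NU) E NE_le inf_le_left).symm
  -- (i4)
  have i4 : NE.relIndex (E ⊓ NU) = P1.relIndex Pm := by
    have e1 : E ⊓ NU = (E'.comap (nu τ)).map (nu τ) := by
      ext x
      constructor
      · rintro ⟨⟨h1, h2⟩, ⟨u, rfl⟩⟩
        exact ⟨u, h1, rfl⟩
      · rintro ⟨u, h, rfl⟩
        exact ⟨⟨h, nu_fix u⟩, ⟨u, rfl⟩⟩
    have e2 : Pm = (E'.comap (nu τ)).map d := by
      ext x
      constructor
      · rintro ⟨⟨u, rfl⟩, h2⟩
        refine ⟨u, ?_, rfl⟩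
        change d (u * τ u) = 1
        rw [d_nu]; exact h2
      · rintro ⟨u, h, rfl⟩
        refine ⟨⟨u, rfl⟩, ?_⟩
        have h' : d (u * τ u) = 1 := h
        rw [d_nu] at h'
        exact h'
    rw [e1, relIndex_map_eq (nu τ) (E'.comap (nu τ)) (E' ⊔ (nu τ).ker) NE, e2,
      relIndex_map_eq d (E'.comap (nu τ)) (E' ⊔ (nu τ).ker) P1]
    · intro s hs
      constructor
      · rintro ⟨_, ⟨w, rfl⟩, hw⟩
        rw [de_apply] at hw
        rw [Subgroup.mem_sup]
        refine ⟨s / (w / τ w), ?_, w / τ w, ?_, by simp⟩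
        · rw [hE', MonoidHom.mem_ker, map_div, d_de, hw, div_self']
        · rw [MonoidHom.mem_ker, nu_apply]; exact de_nu w
      · intro h
        rw [Subgroup.mem_sup] at h
        obtain ⟨e, he, n, hn, rfl⟩ := h
        rw [MonoidHom.mem_ker, nu_apply] at hn
        obtain ⟨w, rfl⟩ := H n hn
        have : d e = 1 := he
        refine ⟨d w, ⟨w, rfl⟩, ?_⟩
        rw [de_apply, map_mul, this, one_mul, d_de]
    · intro s hs
      constructor
      · rintro ⟨e, he, hw⟩
        rw [Subgroup.mem_sup]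
        refine ⟨e, he, s / e, ?_, by simp⟩
        rw [MonoidHom.mem_ker, map_div, hw, div_self']
      · intro h
        rw [Subgroup.mem_sup] at h
        obtain ⟨e, he, n, hn, rfl⟩ := h
        refine ⟨e, he, ?_⟩
        rw [MonoidHom.mem_ker] at hn
        rw [map_mul, hn, mul_one]
  -- (i5)
  have i5 : dUp.relIndex Pp = E1.relIndex Em := by
    have e1 : Pp = (Jp.comap d).map d := by
      ext x
      constructor
      · rintro ⟨⟨u, rfl⟩, h2⟩
        exact ⟨u, h2, rfl⟩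
      · rintro ⟨u, h, rfl⟩
        exact ⟨⟨u, rfl⟩, h⟩
    have e2 : Em = (Jp.comap d).map (de τ) := by
      ext x
      constructor
      · rintro ⟨h1, h2⟩
        obtain ⟨w, rfl⟩ := H x h2
        refine ⟨w, ?_, rfl⟩
        change d w ∈ Jp
        rw [← de_eqJ, ← d_de]
        exact h1
      · rintro ⟨u, h, rfl⟩
        refine ⟨?_, ?_⟩
        · change d (u / τ u) = 1
          rw [d_de, de_eqJ]
          exact h
        · change (u / τ u) * τ (u / τ u) = 1
          exact de_nu u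
    rw [e1, relIndex_map_eq d (Jp.comap d) (E' ⊔ Up) dUp, e2,
      relIndex_map_eq (de τ) (Jp.comap d) (E' ⊔ Up) E1]
    · intro s hs
      constructor
      · rintro ⟨e, he, hw⟩
        rw [Subgroup.mem_sup]
        refine ⟨e, he, s / e, ?_, by simp⟩
        rw [← de_eq, ← de_apply, map_div, hw, div_self']
      · intro h
        rw [Subgroup.mem_sup] at h
        obtain ⟨e, he, n, hn, rfl⟩ := h
        refine ⟨e, he, ?_⟩
        rw [map_mul]
        have : de τ n = 1 := de_fix n hn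
        rw [this, mul_one]
    · intro s hs
      constructor
      · rintro ⟨w, hw, hw'⟩
        rw [Subgroup.mem_sup]
        refine ⟨s / w, ?_, w, hw, by simp⟩
        rw [hE', MonoidHom.mem_ker, map_div, hw', div_self']
      · intro h
        rw [Subgroup.mem_sup] at h
        obtain ⟨e, he, n, hn, rfl⟩ := h
        have : d e = 1 := he
        exact ⟨n, hn, by rw [map_mul, this, one_mul]⟩
  -- (i6)
  have i6 : dUp.relIndex NJ * (dUp ⊔ NJ).relIndex Jp = dUp.relIndex Pp * Pp.relIndex Jp := by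
    rw [← Subgroup.relIndex_sup_left NJ dUp,
      Subgroup.relIndex_mul_relIndex _ _ _ le_sup_left (sup_le dUp_le NJ_le),
      Subgroup.relIndex_mul_relIndex _ _ _ ?_ inf_le_right]
    rintro _ ⟨u, hu, rfl⟩
    exact ⟨⟨u, rfl⟩, d_fix u hu⟩
  have i6c : NP.relIndex NJ = NP.relIndex (dUp ⊓ NJ) * dUp.relIndex NJ := by
    rw [← Subgroup.inf_relIndex_right dUp NJ, Subgroup.relIndex_mul_relIndex _ _ _ ?_ inf_le_right]
    rintro _ ⟨_, ⟨u, rfl⟩, rfl⟩
    refine ⟨⟨_, nu_fix u, rfl⟩, ⟨d u, ?_⟩⟩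
    rw [nu_apply, nu_apply, d_nu]
  -- (i7)
  have i7 : NP.relIndex NJ = (P ⊔ (de σ).range).index := by
    have e1 : NJ = (⊤ : Subgroup J).map (nu σ) := by rw [hNJ, MonoidHom.range_eq_map]
    rw [e1, relIndex_map_eq (nu σ) ⊤ (P ⊔ (de σ).range) NP, Subgroup.relIndex_top_right]
    intro s _
    constructor
    · rintro ⟨_, ⟨w, rfl⟩, hw⟩
      rw [nu_apply, d_nu] at hw
      have h1 : (s / d w) * σ (s / d w) = 1 := by
        rw [map_div, div_mul_div_comm, hw, nu_apply, div_self']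
      obtain ⟨y, hy⟩ := HJ _ h1
      rw [Subgroup.mem_sup]
      refine ⟨d w, ⟨w, rfl⟩, s / d w, ⟨y, ?_⟩, by simp⟩
      rw [de_apply]; exact hy.symm
    · intro h
      rw [Subgroup.mem_sup] at h
      obtain ⟨_, ⟨w, rfl⟩, _, ⟨y, rfl⟩, rfl⟩ := h
      refine ⟨nu τ w, ⟨w, rfl⟩, ?_⟩
      rw [nu_apply, d_nu, map_mul]
      have : nu σ (de σ y) = 1 := de_nuJ y
      rw [this, mul_one, nu_apply]
  -- (i8)
  have P_le_W : P ≤ W := by
    rintro _ ⟨u, rfl⟩
    exact ⟨u / τ u, d_de u⟩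
  have hWfin : W.index ≠ 0 := by
    intro h0
    apply hfin
    rw [← Subgroup.relIndex_mul_index P_le_W, h0, mul_zero]
  have i8 : (P ⊔ (de σ).range).index = P.relIndex W := by
    have h1 : P.relIndex W * W.index = P.index := Subgroup.relIndex_mul_index P_le_W
    have h2 : P.relIndex (P ⊔ (de σ).range) * (P ⊔ (de σ).range).index = P.index :=
      Subgroup.relIndex_mul_index le_sup_left
    have h3 : P.relIndex (P ⊔ (de σ).range) = W.index := by
      rw [Subgroup.relIndex_sup_left, hW, Subgroup.index_comap]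
    rw [h3, ← h1, mul_comm (P.relIndex W)] at h2
    exact Nat.eq_of_mul_eq_mul_left (Nat.pos_of_ne_zero hWfin) h2
  -- (i9)
  have i9 : P.relIndex W = Pp.relIndex Jp * P1.relIndex Pm := by
    have hle : P ⊔ Jp ≤ W := by
      refine sup_le P_le_W ?_
      intro x hx
      change x / σ x ∈ P
      rw [(de_eqJ x).2 hx]; exact P.one_mem
    rw [← Subgroup.relIndex_mul_relIndex _ _ _ le_sup_left hle, Subgroup.relIndex_sup_left,
      ← Subgroup.inf_relIndex_right P Jp]
    congr 1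
    have e2 : Pm = W.map (de σ) := by
      ext x
      constructor
      · rintro ⟨h1, h2⟩
        obtain ⟨y, rfl⟩ := HJ x h2
        exact ⟨y, h1, rfl⟩
      · rintro ⟨y, h, rfl⟩
        exact ⟨h, de_nuJ y⟩
    rw [e2, relIndex_map_eq (de σ) W (P ⊔ Jp) P1]
    intro s hs
    constructor
    · rintro ⟨p, hp, hw⟩
      rw [Subgroup.mem_sup]
      refine ⟨p, hp, s / p, ?_, by simp⟩
      rw [← de_eqJ, ← de_apply, map_div, hw, div_self']
    · intro h
      rw [Subgroup.mem_sup] at h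
      obtain ⟨p, hp, n, hn, rfl⟩ := h
      refine ⟨p, hp, ?_⟩
      have : de σ n = 1 := (de_eqJ n).2 hn
      rw [map_mul, this, mul_one]
  -- conclusion
  have hPpfin : Pp.relIndex Jp ≠ 0 := by
    intro h0
    rw [h0, zero_mul] at i9
    apply hfin
    rw [← Subgroup.relIndex_mul_index P_le_W, i9, zero_mul]
  have key : NP.relIndex (dUp ⊓ NJ) * dUp.relIndex Pp =
      (dUp ⊔ NJ).relIndex Jp * P1.relIndex Pm := by
    have h1 : NP.relIndex NJ = Pp.relIndex Jp * P1.relIndex Pm := by rw [i7, i8, i9]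
    apply Nat.eq_of_mul_eq_mul_right (Nat.pos_of_ne_zero hPpfin)
    calc NP.relIndex (dUp ⊓ NJ) * dUp.relIndex Pp * Pp.relIndex Jp
        = NP.relIndex (dUp ⊓ NJ) * (dUp.relIndex Pp * Pp.relIndex Jp) := by ring
      _ = NP.relIndex (dUp ⊓ NJ) * dUp.relIndex NJ * (dUp ⊔ NJ).relIndex Jp := by
          rw [← i6]; ring
      _ = (Pp.relIndex Jp * P1.relIndex Pm) * (dUp ⊔ NJ).relIndex Jp := by rw [← i6c, h1]
      _ = _ := by ring
  rw [i12, ← i5, i3, i4]
  calc NU.relIndex E * NP.relIndex (dUp ⊓ NJ) * dUp.relIndex Pp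
      = NU.relIndex E * (NP.relIndex (dUp ⊓ NJ) * dUp.relIndex Pp) := by ring
    _ = _ := by rw [key]; ring

end HN

end Crest.Agent.HB
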