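import Mathlib

/-! Row 32 (S0042), chunk T3: a subgroup of exponent-2 index separated by at most one quadratic
character has index at most 2. -/
set_option autoImplicit false

namespace Crest.Agent.HB

namespace HN

/-- The isomorphism `ZMod 2 → ±1`. -/
def zmodSign : Multiplicative (ZMod 2) →* ℤˣ where
  toFun a := if Multiplicative.toAdd a = 0 then 1 else -1
  map_one' := by simp
  map_mul' := by decide

lemma zmodSign_eq_one (a : ZMod 2) : zmodSign (Multiplicative.ofAdd a) = 1 ↔ a = 0 := by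
  revert a; decide

/-- Quadratic characters separate points of `C / H` if `C / H` has exponent `2`. -/
lemma exists_char {C : Type*} [CommGroup C] (H : Subgroup C) (hsq : ∀ c : C, c ^ 2 ∈ H) (c : C)
    (hc : c ∉ H) : ∃ ψ : C →* ℤˣ, (∀ h ∈ H, ψ h = 1) ∧ ψ c ≠ 1 := by
  have h2 : ∀ x : Additive (C ⧸ H), 2 • x = 0 := by
    intro x
    obtain ⟨c, hc⟩ := QuotientGroup.mk_surjective (Additive.toMul x)
    change Additive.ofMul ((Additive.toMul x) ^ 2) = 0
    rw [← hc]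
    change Additive.ofMul (((c ^ 2 : C) : C ⧸ H)) = 0
    rw [(QuotientGroup.eq_one_iff _).2 (hsq c)]
    rfl
  letI : Module (ZMod 2) (Additive (C ⧸ H)) := AddCommGroup.zmodModule h2
  have hne : (Additive.ofMul (c : C ⧸ H)) ≠ 0 := by
    intro h
    apply hc
    rw [← QuotientGroup.eq_one_iff]
    exact h
  obtain ⟨f, hf⟩ : ∃ f : Module.Dual (ZMod 2) (Additive (C ⧸ H)), f (Additive.ofMul (c : C ⧸ H)) ≠ 0 := by
    by_contra hcon
    push Not at hcon
    exact hne ((Module.forall_dual_apply_eq_zero_iff (ZMod 2) _).1 hcon)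
  refine ⟨zmodSign.comp ((AddMonoidHom.toMultiplicative f.toAddMonoidHom).comp
    (QuotientGroup.mk' H)), ?_, ?_⟩
  · intro h hh
    change zmodSign (Multiplicative.ofAdd (f (Additive.ofMul (h : C ⧸ H)))) = 1
    rw [(QuotientGroup.eq_one_iff _).2 hh, zmodSign_eq_one]
    exact map_zero f
  · change zmodSign (Multiplicative.ofAdd (f (Additive.ofMul (c : C ⧸ H)))) ≠ 1
    rw [Ne, zmodSign_eq_one]
    exact hf

lemma index_dvd_two {C : Type*} [CommGroup C] (H : Subgroup C) (hsq : ∀ c : C, c ^ 2 ∈ H)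
    (huniq : ∀ ψ₁ ψ₂ : C →* ℤˣ, ψ₁ ≠ 1 → ψ₂ ≠ 1 → (∀ h ∈ H, ψ₁ h = 1) → (∀ h ∈ H, ψ₂ h = 1) →
      ψ₁ = ψ₂) : H.index ∣ 2 := by
  rw [Subgroup.index_dvd_two_iff]
  by_cases hall : ∀ c, c ∈ H
  · exact ⟨1, fun b => Or.inr (hall b)⟩
  push Not at hall
  obtain ⟨a, ha⟩ := hall
  refine ⟨a, fun b => ?_⟩
  by_cases hb : b ∈ H
  · exact Or.inr hb
  left
  by_contra hab
  obtain ⟨ψ1, h1, h1'⟩ := exists_char H hsq a ha
  obtain ⟨ψ2, h2, h2'⟩ := exists_char H hsq b hb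
  obtain ⟨ψ3, h3, h3'⟩ := exists_char H hsq (b * a) hab
  have n1 : ψ1 ≠ 1 := by rintro rfl; exact h1' rfl
  have n2 : ψ2 ≠ 1 := by rintro rfl; exact h2' rfl
  have n3 : ψ3 ≠ 1 := by rintro rfl; exact h3' rfl
  have e13 := huniq ψ1 ψ3 n1 n3 h1 h3
  have e23 := huniq ψ2 ψ3 n2 n3 h2 h3
  apply h3'
  rw [map_mul, ← e23, e23, ← e13]
  rw [← e23] at h3'
  have ea : ψ1 a = -1 := (Int.units_eq_one_or _).resolve_left h1'
  have eb : ψ2 b = -1 := (Int.units_eq_one_or _).resolve_left h2'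
  rw [e23, ← e13] at eb
  rw [ea, eb]; rfl

end HN

end Crest.Agent.HB
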