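import Crest.Agent.HB.HNIdeals

/-! Row 32 (S0042), chunk T3: the action of the nontrivial automorphism of a quadratic extension
on fractional ideals. -/
set_option autoImplicit false
set_option linter.unusedSectionVars false

open NumberField IsDedekindDomain Module
open scoped nonZeroDivisors

namespace Crest.Agent.HB

namespace HN

section
variable {k k' : Type} [Field k] [NumberField k] [Field k'] [NumberField k'] [Algebra k k']

/-- Action on fractional ideals. -/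
noncomputable def sI (σ : k' ≃ₐ[k] k') :
    FractionalIdeal (𝓞 k')⁰ k' ≃+* FractionalIdeal (𝓞 k')⁰ k' :=
  FractionalIdeal.ringEquivOfRingEquiv k' k' (sO σ)

lemma isFr (σ : k' ≃ₐ[k] k') (x : k') :
    IsFractionRing.ringEquivOfRingEquiv (K := k') (L := k') (sO σ) x = σ x := by
  obtain ⟨a, b, hb, rfl⟩ := IsFractionRing.div_surjective (A := 𝓞 k') x
  rw [map_div₀, map_div₀, IsFractionRing.ringEquivOfRingEquiv_algebraMap,
    IsFractionRing.ringEquivOfRingEquiv_algebraMap]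
  rfl

lemma mem_sI (σ : k' ≃ₐ[k] k') (I : FractionalIdeal (𝓞 k')⁰ k') (x : k') :
    x ∈ sI σ I ↔ ∃ y ∈ I, σ y = x := by
  rw [← FractionalIdeal.mem_coe]
  change x ∈ (sI σ I).val ↔ _
  rw [sI, FractionalIdeal.ringEquivOfRingEquiv_apply_val, Submodule.mem_map]
  constructor
  · rintro ⟨y, hy, rfl⟩
    refine ⟨y, hy, ?_⟩
    rw [← isFr]; rfl
  · rintro ⟨y, hy, rfl⟩
    refine ⟨y, hy, ?_⟩
    rw [← isFr]; rfl

lemma sI_coeIdeal (σ : k' ≃ₐ[k] k') (I : Ideal (𝓞 k')) :
    sI σ (I : FractionalIdeal (𝓞 k')⁰ k') = (sId σ I : FractionalIdeal (𝓞 k')⁰ k') := by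
  ext x
  rw [mem_sI, FractionalIdeal.mem_coeIdeal]
  constructor
  · rintro ⟨y, hy, rfl⟩
    rw [FractionalIdeal.mem_coeIdeal] at hy
    obtain ⟨z, hz, rfl⟩ := hy
    exact ⟨sO σ z, (mem_sId σ I _).2 ⟨z, hz, rfl⟩, rfl⟩
  · rintro ⟨y, hy, rfl⟩
    rw [mem_sId] at hy
    obtain ⟨z, hz, rfl⟩ := hy
    exact ⟨z, (FractionalIdeal.mem_coeIdeal _).2 ⟨z, hz, rfl⟩, rfl⟩

lemma sI_spanSingleton (σ : k' ≃ₐ[k] k') (x : k') :
    sI σ (FractionalIdeal.spanSingleton _ x) = FractionalIdeal.spanSingleton _ (σ x) := by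
  rw [sI, FractionalIdeal.ringEquivOfRingEquiv_spanSingleton, isFr]

lemma sI_invol {σ : k' ≃ₐ[k] k'} (hσ : ∀ x, σ (σ x) = x) (I : FractionalIdeal (𝓞 k')⁰ k') :
    sI σ (sI σ I) = I := by
  rw [sI, ← FractionalIdeal.ringEquivOfRingEquiv_trans_apply]
  have : (sO σ).trans (sO σ) = RingEquiv.refl _ := by
    ext x
    exact congrArg _ (sO_invol hσ x)
  rw [this, FractionalIdeal.ringEquivOfRingEquiv_refl]
  rfl

lemma fr_algebraMap (x : k) :
    IsFractionRing.map (FaithfulSMul.algebraMap_injective (𝓞 k) (𝓞 k')) x = algebraMap k k' x := by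
  obtain ⟨a, b, hb, rfl⟩ := IsFractionRing.div_surjective (A := 𝓞 k) x
  rw [map_div₀, map_div₀]
  congr 1
  · exact IsLocalization.map_eq _ _
  · exact IsLocalization.map_eq _ _

/-- Extension of fractional ideals. -/
noncomputable abbrev exI (k k' : Type) [Field k] [NumberField k] [Field k'] [NumberField k']
    [Algebra k k'] : FractionalIdeal (𝓞 k)⁰ k →+* FractionalIdeal (𝓞 k')⁰ k' :=
  FractionalIdeal.extendedHom k' (𝓞 k')

lemma exI_spanSingleton (x : k) :
    exI k k' (FractionalIdeal.spanSingleton _ x) =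
      FractionalIdeal.spanSingleton _ (algebraMap k k' x) := by
  rw [exI, FractionalIdeal.extendedHom_spanSingleton, fr_algebraMap]

lemma exI_coeIdeal (I : Ideal (𝓞 k)) :
    exI k k' (I : FractionalIdeal (𝓞 k)⁰ k) =
      (I.map (algebraMap (𝓞 k) (𝓞 k')) : FractionalIdeal (𝓞 k')⁰ k') := by
  rw [exI, FractionalIdeal.extendedHom_coeIdeal_eq_map]

lemma sI_exI (σ : k' ≃ₐ[k] k') (I : FractionalIdeal (𝓞 k)⁰ k) :
    sI σ (exI k k' I) = exI k k' I := by
  obtain ⟨a, J, ha, rfl⟩ := FractionalIdeal.exists_eq_spanSingleton_mul I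
  rw [map_mul, map_mul, exI_spanSingleton, exI_coeIdeal, sI_spanSingleton, sI_coeIdeal, sId_map]
  congr 2
  exact σ.commutes _

/-- An invariant fractional ideal of `k'` is extended from `k` (unramified case). -/
theorem invariant_frac (hunr : Unram k k') (h2 : Module.finrank k k' = 2)
    (σ : k' ≃ₐ[k] k') (hg : ∀ g : k' ≃ₐ[k] k', g = 1 ∨ g = σ) (hσ : ∀ x, σ (σ x) = x)
    (hfix : ∀ x, σ x = x → x ∈ Set.range (algebraMap k k'))
    (I : FractionalIdeal (𝓞 k')⁰ k') (hI0 : I ≠ 0) (hI : sI σ I = I) :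
    ∃ J : FractionalIdeal (𝓞 k)⁰ k, J ≠ 0 ∧ exI k k' J = I := by
  obtain ⟨a, A, ha, hA⟩ := FractionalIdeal.exists_eq_spanSingleton_mul I
  -- `b = a σ(a)`
  have hba : (algebraMap (𝓞 k') k' a) ≠ 0 := by
    rw [Ne, FaithfulSMul.algebraMap_eq_zero_iff]; exact ha
  have hb1 : σ ((algebraMap (𝓞 k') k' a) * σ (algebraMap (𝓞 k') k' a)) =
      (algebraMap (𝓞 k') k' a) * σ (algebraMap (𝓞 k') k' a) := by
    rw [map_mul, hσ, mul_comm]
  obtain ⟨b, hb⟩ := hfix _ hb1
  have hb0 : b ≠ 0 := by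
    rintro rfl
    rw [map_zero] at hb
    rcases mul_eq_zero.1 hb.symm with h | h
    · exact hba h
    · rw [map_eq_zero] at h; exact hba h
  -- `B = (σ a) A`
  set B : Ideal (𝓞 k') := Ideal.span {sO σ a} * A with hBdef
  have hB : (B : FractionalIdeal (𝓞 k')⁰ k') =
      FractionalIdeal.spanSingleton _ (algebraMap k k' b) * I := by
    rw [hA, hBdef, FractionalIdeal.coeIdeal_mul, FractionalIdeal.coeIdeal_span_singleton, hb,
      ← mul_assoc, FractionalIdeal.spanSingleton_mul_spanSingleton]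
    congr 2
    have : (algebraMap (𝓞 k') k') (sO σ a) = σ (algebraMap (𝓞 k') k' a) := rfl
    rw [this]
    field_simp
  have hBσ : sId σ B = B := by
    have h : sI σ (B : FractionalIdeal (𝓞 k')⁰ k') = B := by
      rw [hB, map_mul, hI, sI_spanSingleton, σ.commutes]
    rw [sI_coeIdeal] at h
    exact FractionalIdeal.coeIdeal_injective h
  have hB0 : B ≠ ⊥ := by
    intro h
    rw [h, FractionalIdeal.coeIdeal_bot] at hB
    rcases mul_eq_zero.1 hB.symm with h | h
    · rw [FractionalIdeal.spanSingleton_eq_zero_iff, map_eq_zero] at h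
      exact hb0 h
    · exact hI0 h
  obtain ⟨c, hc0, hc⟩ := invariant_ideal hunr h2 σ hg hσ _ B hB0 rfl hBσ
  refine ⟨FractionalIdeal.spanSingleton _ b⁻¹ * (c : FractionalIdeal (𝓞 k)⁰ k), ?_, ?_⟩
  · intro h
    rcases mul_eq_zero.1 h with h | h
    · rw [FractionalIdeal.spanSingleton_eq_zero_iff] at h
      exact (inv_ne_zero hb0) h
    · rw [FractionalIdeal.coeIdeal_eq_zero] at h
      exact hc0 h
  · rw [map_mul, exI_spanSingleton, exI_coeIdeal, hc, hB, ← mul_assoc,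
      FractionalIdeal.spanSingleton_mul_spanSingleton, map_inv₀, inv_mul_cancel₀,
      FractionalIdeal.spanSingleton_one, one_mul]
    rw [Ne, map_eq_zero]; exact hb0

lemma valuation_eq_exp_count (v : HeightOneSpectrum (𝓞 k)) (x : k) (hx : x ≠ 0) :
    v.valuation k x = WithZero.exp
      (-(FractionalIdeal.count k v (FractionalIdeal.spanSingleton (𝓞 k)⁰ x))) := by
  have hint : ∀ a : 𝓞 k, a ≠ 0 → v.valuation k (algebraMap (𝓞 k) k a) = WithZero.exp
      (-(FractionalIdeal.count k v (FractionalIdeal.spanSingleton (𝓞 k)⁰ (algebraMap (𝓞 k) k a)))) := by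
    classical
    intro a ha
    rw [HeightOneSpectrum.valuation_of_algebraMap, HeightOneSpectrum.intValuation_if_neg _ ha,
      ← FractionalIdeal.coeIdeal_span_singleton, FractionalIdeal.count_coe]
    rw [Ne, Submodule.zero_eq_bot, Ideal.span_singleton_eq_bot]
    exact ha
  obtain ⟨a, b, hb, rfl⟩ := IsFractionRing.div_surjective (A := 𝓞 k) x
  have hb0 : b ≠ 0 := nonZeroDivisors.ne_zero hb
  have ha0 : a ≠ 0 := by rintro rfl; simp at hx
  have ha' : (algebraMap (𝓞 k) k a) ≠ 0 := by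
    rw [Ne, FaithfulSMul.algebraMap_eq_zero_iff]; exact ha0
  have hb' : (algebraMap (𝓞 k) k b) ≠ 0 := by
    rw [Ne, FaithfulSMul.algebraMap_eq_zero_iff]; exact hb0
  have hspan : FractionalIdeal.spanSingleton (𝓞 k)⁰
      ((algebraMap (𝓞 k) k a) / (algebraMap (𝓞 k) k b)) =
      FractionalIdeal.spanSingleton (𝓞 k)⁰ (algebraMap (𝓞 k) k a) *
      (FractionalIdeal.spanSingleton (𝓞 k)⁰ (algebraMap (𝓞 k) k b))⁻¹ := by
    rw [FractionalIdeal.spanSingleton_inv, FractionalIdeal.spanSingleton_mul_spanSingleton,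
      div_eq_mul_inv]
  rw [hspan, FractionalIdeal.count_mul, FractionalIdeal.count_inv, map_div₀, hint a ha0, hint b hb0,
    ← WithZero.exp_sub]
  · congr 1; ring
  · rw [Ne, FractionalIdeal.spanSingleton_eq_zero_iff]; exact ha'
  · apply inv_ne_zero
    rw [Ne, FractionalIdeal.spanSingleton_eq_zero_iff]; exact hb'

lemma evenAt_count (v : HeightOneSpectrum (𝓞 k)) (y : k) (hy : y ≠ 0) (h : EvenAt v y) :
    ∃ m : ℤ, FractionalIdeal.count k v (FractionalIdeal.spanSingleton (𝓞 k)⁰ y) = m + m := by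
  obtain ⟨t, ht, hyt⟩ := h
  have ht2 : t ^ 2 ≠ 0 := pow_ne_zero _ ht
  rw [valuation_eq_exp_count v _ (mul_ne_zero hy ht2), WithZero.exp_eq_one] at hyt
  rw [← FractionalIdeal.spanSingleton_mul_spanSingleton, FractionalIdeal.count_mul] at hyt
  · rw [← FractionalIdeal.spanSingleton_pow, FractionalIdeal.count_pow] at hyt
    refine ⟨-FractionalIdeal.count k v (FractionalIdeal.spanSingleton (𝓞 k)⁰ t), ?_⟩
    push_cast at hyt
    linarith
  · rw [Ne, FractionalIdeal.spanSingleton_eq_zero_iff]; exact hy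
  · rw [Ne, FractionalIdeal.spanSingleton_eq_zero_iff]; exact ht2

/-- A nonzero `y` with even valuation at all inert primes: `(y) = 𝔄 · σ𝔄`. -/
theorem even_norm (hunr : Unram k k') (h2 : Module.finrank k k' = 2)
    (σ : k' ≃ₐ[k] k') (hg : ∀ g : k' ≃ₐ[k] k', g = 1 ∨ g = σ) (hσ : ∀ x, σ (σ x) = x)
    (y : k) (hy : y ≠ 0)
    (hev : ∀ v : HeightOneSpectrum (𝓞 k),
      (v.asIdeal.map (algebraMap (𝓞 k) (𝓞 k'))).IsPrime → EvenAt v y) :
    ∃ A : FractionalIdeal (𝓞 k')⁰ k', A ≠ 0 ∧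
      FractionalIdeal.spanSingleton _ (algebraMap k k' y) = A * sI σ A := by
  have hy0 : FractionalIdeal.spanSingleton (𝓞 k)⁰ y ≠ 0 := by
    rw [Ne, FractionalIdeal.spanSingleton_eq_zero_iff]; exact hy
  rw [← exI_spanSingleton, ← FractionalIdeal.finprod_heightOneSpectrum_factorization' (K := k) hy0]
  refine finprod_induction (p := fun I : FractionalIdeal (𝓞 k)⁰ k =>
    ∃ A : FractionalIdeal (𝓞 k')⁰ k', A ≠ 0 ∧ exI k k' I = A * sI σ A) ?_ ?_ ?_
  · exact ⟨1, one_ne_zero, by simp⟩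
  · rintro I J ⟨A, hA0, hA⟩ ⟨B, hB0, hB⟩
    exact ⟨A * B, mul_ne_zero hA0 hB0, by rw [map_mul, hA, hB, map_mul]; ring⟩
  · intro v
    rcases prime_dichotomy hunr h2 σ hg hσ v.asIdeal v.ne_bot with
      h | ⟨P, hPp, hP0, -, -, -, hprod⟩
    · obtain ⟨m, hm⟩ := evenAt_count v y hy (hev v h)
      have hv0 : exI k k' (v.asIdeal : FractionalIdeal (𝓞 k)⁰ k) ≠ 0 := by
        rw [exI_coeIdeal, Ne, FractionalIdeal.coeIdeal_eq_zero]
        intro h0
        exact v.ne_bot ((Ideal.map_eq_bot_iff_of_injective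
          (FaithfulSMul.algebraMap_injective (𝓞 k) (𝓞 k'))).1 h0)
      refine ⟨(exI k k' (v.asIdeal : FractionalIdeal (𝓞 k)⁰ k)) ^ m, zpow_ne_zero _ hv0, ?_⟩
      rw [hm, map_zpow₀, map_zpow₀, sI_exI, zpow_add₀ hv0]
    · refine ⟨(P : FractionalIdeal (𝓞 k')⁰ k') ^
        (FractionalIdeal.count k v (FractionalIdeal.spanSingleton (𝓞 k)⁰ y)), zpow_ne_zero _ ?_, ?_⟩
      · rw [Ne, FractionalIdeal.coeIdeal_eq_zero]; exact hP0
      · rw [map_zpow₀, map_zpow₀, exI_coeIdeal, hprod, sI_coeIdeal, FractionalIdeal.coeIdeal_mul,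
          mul_zpow]

end
end HN
end Crest.Agent.HB
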