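import Mathlib
import Crest.Agent.HB.GS

/-! Row 32 (S0042): common definitions for the number-field part. -/
set_option autoImplicit false

open NumberField IsDedekindDomain
open scoped nonZeroDivisors

namespace Crest.Agent.HB

/-- Totally complex number field. -/
def TotComplex (k : Type*) [Field k] [NumberField k] : Prop :=
  ∀ v : InfinitePlace k, v.IsComplex

/-- `L/K` is unramified at all finite primes. -/
def Unram (K L : Type*) [Field K] [NumberField K] [Field L] [NumberField L] [Algebra K L] : Prop :=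
  ∀ P : Ideal (𝓞 L), P.IsPrime → P ≠ ⊥ → P.ramificationIdx (𝓞 K) = 1

/-- `2` is unramified in `L` (over `ℚ`). -/
def Odd2 (L : Type*) [Field L] [NumberField L] : Prop :=
  ∀ P : Ideal (𝓞 L), P.IsPrime → (2 : 𝓞 L) ∈ P → P.ramificationIdx ℤ = 1

/-- `5` splits completely in `L`. -/
def Split5 (L : Type*) [Field L] [NumberField L] : Prop :=
  ∀ P : Ideal (𝓞 L), P.IsPrime → (5 : 𝓞 L) ∈ P → Ideal.absNorm P = 5 ∧ P.ramificationIdx ℤ = 1

/-- The `v`-adic valuation of `x` is even. -/
def EvenAt {L : Type*} [Field L] [NumberField L] (v : HeightOneSpectrum (𝓞 L)) (x : L) : Prop :=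
  ∃ t : L, t ≠ 0 ∧ v.valuation L (x * t ^ 2) = 1

/-- Local conditions on `x` (at every finite prime) making `L(√x)/L` unramified and split above `5`:
up to squares `x` is a `P`-unit `y`; `y` is a square mod `P²` if `2 ∈ P` (i.e. a square mod `4`
locally, when `2` is unramified in `L`) and a square mod `P` if `5 ∈ P`. -/
def LocSq {L : Type*} [Field L] [NumberField L] (x : L) : Prop :=
  ∀ P : Ideal (𝓞 L), P.IsPrime → P ≠ ⊥ → ∃ (t : L) (y z : 𝓞 L), t ≠ 0 ∧ y ∉ P ∧
    x * t ^ 2 = (y : L) ∧ ((2 : 𝓞 L) ∈ P → y - z ^ 2 ∈ P ^ 2) ∧ ((5 : 𝓞 L) ∈ P → y - z ^ 2 ∈ P)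

/-- `K` is an admissible base field: imaginary quadratic, `2` unramified, `5` split. -/
structure BaseField (K : Type) [Field K] [NumberField K] : Prop where
  deg : Module.finrank ℚ K = 2
  cplx : TotComplex K
  odd2 : Odd2 K
  split5 : Split5 K

/-- `L/K` is a good extension: finite Galois of `2`-power degree, unramified, split above `5`. -/
structure Good (K L : Type) [Field K] [NumberField K] [Field L] [NumberField L] [Algebra K L] :
    Prop where
  gal : IsGalois K L
  pow : ∃ n : ℕ, Module.finrank K L = 2 ^ n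
  unram : Unram K L
  split : Split5 L

end Crest.Agent.HB
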