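import Crest.Agent.HB.HNUnits
import Crest.Agent.HB.NFDefs

/-! Row 32 (S0042), chunk T3: the action of the nontrivial automorphism of a quadratic extension
on (fractional) ideals; invariant ideals of an unramified quadratic extension are extended. -/
set_option autoImplicit false
set_option linter.unusedSectionVars false

open NumberField IsDedekindDomain Module
open scoped nonZeroDivisors

namespace Crest.Agent.HB

namespace HN

section
variable {k k' : Type} [Field k] [NumberField k] [Field k'] [NumberField k'] [Algebra k k']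

theorem exists_sigma (h2 : Module.finrank k k' = 2) :
    ∃ σ : k' ≃ₐ[k] k', σ ≠ 1 ∧ (∀ g : k' ≃ₐ[k] k', g = 1 ∨ g = σ) ∧ (∀ x, σ (σ x) = x) ∧
      (∀ x, σ x = x → x ∈ Set.range (algebraMap k k')) ∧
      (∀ x, algebraMap k k' (Algebra.norm k x) = x * σ x) := by
  classical
  have : Algebra.IsQuadraticExtension k k' := ⟨h2⟩
  have : IsGalois k k' := inferInstance
  have hc : Nat.card (k' ≃ₐ[k] k') = 2 := by rw [IsGalois.card_aut_eq_finrank, h2]
  obtain ⟨σ, hσ1, hσ2⟩ := (Nat.card_eq_two_iff' (1 : k' ≃ₐ[k] k')).1 hc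
  have hg : ∀ g : k' ≃ₐ[k] k', g = 1 ∨ g = σ := by
    intro g
    by_cases h : g = 1
    · exact Or.inl h
    · exact Or.inr (hσ2 g h)
  refine ⟨σ, hσ1, hg, ?_, ?_, ?_⟩
  · intro x
    rcases hg (σ * σ) with h | h
    · exact congrArg (fun g : k' ≃ₐ[k] k' => g x) h
    · exfalso; apply hσ1
      exact mul_eq_left.1 h
  · intro x hx
    rw [IsGalois.mem_range_algebraMap_iff_fixed]
    intro f
    rcases hg f with h | h
    · rw [h]; rfl
    · rw [h]; exact hx
  · intro x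
    rw [Algebra.norm_eq_prod_automorphisms]
    have : (Finset.univ : Finset (k' ≃ₐ[k] k')) = {1, σ} := by
      ext g
      simp only [Finset.mem_univ, Finset.mem_insert, Finset.mem_singleton, true_iff]
      exact hg g
    rw [this, Finset.prod_pair hσ1.symm]
    rfl

/-- Action on the ring of integers. -/
noncomputable def sO (σ : k' ≃ₐ[k] k') : 𝓞 k' ≃+* 𝓞 k' :=
  RingOfIntegers.mapRingEquiv σ.toRingEquiv

omit [NumberField k] [NumberField k'] in
lemma sO_coe (σ : k' ≃ₐ[k] k') (x : 𝓞 k') : (sO σ x : k') = σ (x : k') := rfl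

omit [NumberField k] [NumberField k'] in
lemma sO_algebraMap (σ : k' ≃ₐ[k] k') (x : 𝓞 k) :
    sO σ (algebraMap (𝓞 k) (𝓞 k') x) = algebraMap (𝓞 k) (𝓞 k') x := by
  apply RingOfIntegers.ext
  exact σ.commutes _

omit [NumberField k] [NumberField k'] in
lemma sO_invol {σ : k' ≃ₐ[k] k'} (hσ : ∀ x, σ (σ x) = x) (x : 𝓞 k') : sO σ (sO σ x) = x := by
  apply RingOfIntegers.ext
  rw [sO_coe, sO_coe, hσ]

/-- Action on integral ideals. -/
noncomputable def sId (σ : k' ≃ₐ[k] k') (I : Ideal (𝓞 k')) : Ideal (𝓞 k') :=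
  I.map ((sO σ : 𝓞 k' ≃+* 𝓞 k') : 𝓞 k' →+* 𝓞 k')

lemma mem_sId (σ : k' ≃ₐ[k] k') (I : Ideal (𝓞 k')) (x : 𝓞 k') :
    x ∈ sId σ I ↔ ∃ y ∈ I, sO σ y = x := by
  constructor
  · intro h
    exact (Ideal.mem_map_iff_of_surjective ((sO σ : 𝓞 k' ≃+* 𝓞 k') : 𝓞 k' →+* 𝓞 k')
      (sO σ).surjective).1 h
  · rintro ⟨y, hy, rfl⟩
    exact Ideal.mem_map_of_mem _ hy

lemma mem_sId_iff {σ : k' ≃ₐ[k] k'} (hσ : ∀ x, σ (σ x) = x) (I : Ideal (𝓞 k')) (x : 𝓞 k') :
    x ∈ sId σ I ↔ sO σ x ∈ I := by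
  rw [mem_sId]
  constructor
  · rintro ⟨y, hy, rfl⟩
    rwa [sO_invol hσ]
  · intro h
    exact ⟨_, h, sO_invol hσ x⟩

lemma sId_mul (σ : k' ≃ₐ[k] k') (I J : Ideal (𝓞 k')) : sId σ (I * J) = sId σ I * sId σ J :=
  Ideal.map_mul _ _ _

lemma sId_mono (σ : k' ≃ₐ[k] k') {I J : Ideal (𝓞 k')} (h : I ≤ J) : sId σ I ≤ sId σ J :=
  Ideal.map_mono h

lemma sId_map (σ : k' ≃ₐ[k] k') (I : Ideal (𝓞 k)) :
    sId σ (I.map (algebraMap (𝓞 k) (𝓞 k'))) = I.map (algebraMap (𝓞 k) (𝓞 k')) := by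
  rw [sId, Ideal.map_map]
  congr 1
  ext x
  exact σ.commutes _

lemma sId_invol {σ : k' ≃ₐ[k] k'} (hσ : ∀ x, σ (σ x) = x) (I : Ideal (𝓞 k')) :
    sId σ (sId σ I) = I := by
  rw [sId, sId, Ideal.map_map]
  have : ((sO σ : 𝓞 k' ≃+* 𝓞 k') : 𝓞 k' →+* 𝓞 k').comp ((sO σ : 𝓞 k' ≃+* 𝓞 k') : 𝓞 k' →+* 𝓞 k')
      = RingHom.id _ := by
    ext x
    exact congrArg _ (sO_invol hσ x)
  rw [this, Ideal.map_id]

lemma sId_isPrime (σ : k' ≃ₐ[k] k') (I : Ideal (𝓞 k')) [hI : I.IsPrime] : (sId σ I).IsPrime :=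
  Ideal.map_isPrime_of_equiv (sO σ)

lemma sId_ne_bot (σ : k' ≃ₐ[k] k') {I : Ideal (𝓞 k')} (hI : I ≠ ⊥) : sId σ I ≠ ⊥ := by
  intro h
  apply hI
  exact (Ideal.map_eq_bot_iff_of_injective (sO σ).injective).1 h

/-- Either `𝔮` stays prime or it is a product `P · σP` of two distinct primes. -/
theorem prime_dichotomy (hunr : Unram k k') (h2 : Module.finrank k k' = 2)
    (σ : k' ≃ₐ[k] k') (hg : ∀ g : k' ≃ₐ[k] k', g = 1 ∨ g = σ) (hσ : ∀ x, σ (σ x) = x)
    (q : Ideal (𝓞 k)) [hq : q.IsPrime] (hq0 : q ≠ ⊥) :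
    (q.map (algebraMap (𝓞 k) (𝓞 k'))).IsPrime ∨
    ∃ P : Ideal (𝓞 k'), P.IsPrime ∧ P ≠ ⊥ ∧ P.LiesOver q ∧ (sId σ P).LiesOver q ∧ P ≠ sId σ P ∧
      q.map (algebraMap (𝓞 k) (𝓞 k')) = P * sId σ P := by
  classical
  have : Algebra.IsQuadraticExtension k k' := ⟨h2⟩
  have : IsGalois k k' := inferInstance
  have hqm : q.IsMaximal := hq.isMaximal hq0
  have hne : (q.primesOver (𝓞 k')).Nonempty := by
    have := IsDedekindDomain.primesOver_ncard_ne_zero q (𝓞 k')
    exact Set.nonempty_of_ncard_ne_zero this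
  obtain ⟨P, hP⟩ := hne
  have hPprime : P.IsPrime := hP.1
  have hPover : P.LiesOver q := hP.2
  have hP0 : P ≠ ⊥ := Ideal.ne_bot_of_mem_primesOver hq0 hP
  have hall : ∀ P' ∈ q.primesOver (𝓞 k'), P' = P ∨ P' = sId σ P := by
    intro P' hP'
    obtain ⟨g, hg'⟩ := Ideal.exists_comap_galRestrict_eq (𝓞 k) k k' (𝓞 k') hP hP'
    rcases hg g with h | h
    · left
      rw [← hg', h, map_one]
      exact Ideal.comap_id _
    · right
      rw [← hg', h]
      ext x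
      rw [Ideal.mem_comap]
      have e : (galRestrict (𝓞 k) k k' (𝓞 k') σ) x = sO σ x := by
        apply RingOfIntegers.ext
        exact algebraMap_galRestrict_apply (𝓞 k) σ x
      rw [e, mem_sId_iff hσ]
  have hsP : sId σ P ∈ q.primesOver (𝓞 k') := by
    refine ⟨sId_isPrime σ P, ⟨?_⟩⟩
    rw [hPover.over]
    ext x
    rw [Ideal.mem_comap, Ideal.mem_comap, mem_sId_iff hσ, sO_algebraMap]
  have hmap := Ideal.map_algebraMap_eq_finsetProd_pow (S := 𝓞 k) (R := 𝓞 k') (p := q) hq0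
  by_cases hPP : P = sId σ P
  · left
    have hset : (q.primesOver (𝓞 k')).toFinset = {P} := by
      ext P'
      rw [Set.mem_toFinset, Finset.mem_singleton]
      constructor
      · intro h
        rcases hall P' h with h | h
        · exact h
        · rw [h, ← hPP]
      · rintro rfl; exact hP
    rw [hmap, hset, Finset.prod_singleton, hunr P hPprime hP0, pow_one]
    exact hPprime
  · right
    refine ⟨P, hPprime, hP0, hPover, hsP.2, hPP, ?_⟩
    have hset : (q.primesOver (𝓞 k')).toFinset = {P, sId σ P} := by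
      ext P'
      rw [Set.mem_toFinset, Finset.mem_insert, Finset.mem_singleton]
      constructor
      · exact hall P'
      · rintro (rfl | rfl)
        · exact hP
        · exact hsP
    rw [hmap, hset, Finset.prod_pair hPP, hunr P hPprime hP0, pow_one,
      hunr _ (sId_isPrime σ P) (sId_ne_bot σ hP0), pow_one]

/-- An invariant nonzero integral ideal is extended from `k`. -/
theorem invariant_ideal (hunr : Unram k k') (h2 : Module.finrank k k' = 2)
    (σ : k' ≃ₐ[k] k') (hg : ∀ g : k' ≃ₐ[k] k', g = 1 ∨ g = σ) (hσ : ∀ x, σ (σ x) = x) (n : ℕ) :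
    ∀ A : Ideal (𝓞 k'), A ≠ ⊥ → Ideal.absNorm A = n → sId σ A = A →
    ∃ a : Ideal (𝓞 k), a ≠ ⊥ ∧ a.map (algebraMap (𝓞 k) (𝓞 k')) = A := by
  induction n using Nat.strong_induction_on with
  | _ n ih =>
  intro A hA0 hAn hAσ
  by_cases hA1 : A = ⊤
  · exact ⟨⊤, by simp, by rw [hA1, Ideal.map_top]⟩
  obtain ⟨P, hPm, hAP⟩ := Ideal.exists_le_maximal A hA1
  have hPp : P.IsPrime := hPm.isPrime
  have hP0 : P ≠ ⊥ := by
    intro h; rw [h] at hAP; exact hA0 (le_bot_iff.1 hAP)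
  set q : Ideal (𝓞 k) := P.comap (algebraMap (𝓞 k) (𝓞 k')) with hqdef
  have hqp : q.IsPrime := Ideal.comap_isPrime _ _
  have hPover : P.LiesOver q := ⟨rfl⟩
  have hq0 : q ≠ ⊥ := by
    intro h
    exact hP0 (Ideal.eq_bot_of_comap_eq_bot h)
  have hqle : q.map (algebraMap (𝓞 k) (𝓞 k')) ≤ P := Ideal.map_comap_le
  have hq0' : q.map (algebraMap (𝓞 k) (𝓞 k')) ≠ ⊥ := by
    intro h
    exact hq0 ((Ideal.map_eq_bot_iff_of_injective
      (FaithfulSMul.algebraMap_injective (𝓞 k) (𝓞 k'))).1 h)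
  have hdvd : q.map (algebraMap (𝓞 k) (𝓞 k')) ∣ A := by
    rcases prime_dichotomy hunr h2 σ hg hσ q hq0 with h | ⟨P1, hP1p, hP10, hP1o, hP1o', hne, hprod⟩
    · have : (q.map (algebraMap (𝓞 k) (𝓞 k'))).IsMaximal := h.isMaximal hq0'
      rw [this.eq_of_le hPp.ne_top hqle, Ideal.dvd_iff_le]
      exact hAP
    · rw [hprod] at hqle ⊢
      have hsP1 : (sId σ P1).IsPrime := sId_isPrime σ P1
      have hP1m : P1.IsMaximal := hP1p.isMaximal hP10
      have hsP1m : (sId σ P1).IsMaximal := hsP1.isMaximal (sId_ne_bot σ hP10)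
      have hA1 : A ≤ P1 ∧ A ≤ sId σ P1 := by
        rcases (Ideal.IsPrime.mul_le hPp).1 hqle with h | h
        · have e := hP1m.eq_of_le hPp.ne_top h
          rw [e]
          refine ⟨hAP, ?_⟩
          rw [← hAσ]; exact sId_mono σ hAP
        · have e := hsP1m.eq_of_le hPp.ne_top h
          rw [e]
          refine ⟨?_, hAP⟩
          rw [← hAσ, ← sId_invol hσ P1, e]
          exact sId_mono σ hAP
      have hcop : IsCoprime P1 (sId σ P1) := Ideal.isCoprime_of_isMaximal hne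
      rw [Ideal.dvd_iff_le, Ideal.mul_eq_inf_of_coprime (Ideal.isCoprime_iff_sup_eq.1 hcop)]
      exact le_inf hA1.1 hA1.2
  obtain ⟨B, hB⟩ := hdvd
  have hB0 : B ≠ ⊥ := by
    rintro rfl
    rw [Ideal.mul_bot] at hB
    exact hA0 hB
  have hBσ : sId σ B = B := by
    have h : q.map (algebraMap (𝓞 k) (𝓞 k')) * sId σ B = q.map (algebraMap (𝓞 k) (𝓞 k')) * B := by
      rw [← hB, ← hAσ]
      conv_rhs => rw [hB, sId_mul, sId_map]
    exact mul_left_cancel₀ hq0' h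
  have hBn : Ideal.absNorm B < n := by
    rw [← hAn, hB, map_mul]
    have h1 : 1 < Ideal.absNorm (q.map (algebraMap (𝓞 k) (𝓞 k'))) := by
      have hz : Ideal.absNorm (q.map (algebraMap (𝓞 k) (𝓞 k'))) ≠ 0 := by
        rw [Ne, Ideal.absNorm_eq_zero_iff]; exact hq0'
      have ho : Ideal.absNorm (q.map (algebraMap (𝓞 k) (𝓞 k'))) ≠ 1 := by
        rw [Ne, Ideal.absNorm_eq_one_iff]
        intro h
        rw [h] at hqle
        exact hPp.ne_top (top_le_iff.1 hqle)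
      omega
    have h3 : 0 < Ideal.absNorm B := by
      apply Nat.pos_of_ne_zero
      rw [Ne, Ideal.absNorm_eq_zero_iff]; exact hB0
    nlinarith
  obtain ⟨b, hb0, hb⟩ := ih _ hBn B hB0 rfl hBσ
  refine ⟨q * b, ?_, ?_⟩
  · intro h
    rcases Ideal.mul_eq_bot.1 h with h | h
    · exact hq0 h
    · exact hb0 h
  · rw [Ideal.map_mul, hb, ← hB]

end
end HN
end Crest.Agent.HB
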