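import Crest.Agent.HB.HNIdeals

/-! Row 32 (S0042), chunk T3: Herbrand quotient of the units of a quadratic extension of a totally
complex field. -/
set_option autoImplicit false
set_option linter.unusedSectionVars false

open NumberField IsDedekindDomain Module
open scoped nonZeroDivisors

namespace Crest.Agent.HB

namespace HN

section
variable {k k' : Type} [Field k] [NumberField k] [Field k'] [NumberField k'] [Algebra k k']

/-- Action on units. -/
noncomputable def sU (σ : k' ≃ₐ[k] k') : (𝓞 k')ˣ ≃* (𝓞 k')ˣ :=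
  Units.mapEquiv (sO σ).toMulEquiv

lemma sU_coe (σ : k' ≃ₐ[k] k') (u : (𝓞 k')ˣ) : ((sU σ u : (𝓞 k')ˣ) : 𝓞 k') = sO σ u := rfl

lemma sU_invol {σ : k' ≃ₐ[k] k'} (hσ : ∀ x, σ (σ x) = x) (u : (𝓞 k')ˣ) :
    sU σ (sU σ u) = u := by
  apply Units.ext
  rw [sU_coe, sU_coe, sO_invol hσ]

lemma fixed_integer {σ : k' ≃ₐ[k] k'} (hfix : ∀ x, σ x = x → x ∈ Set.range (algebraMap k k'))
    (x : 𝓞 k') (hx : sO σ x = x) : ∃ y : 𝓞 k, algebraMap (𝓞 k) (𝓞 k') y = x := by
  obtain ⟨z, hz⟩ := hfix (x : k') (congrArg (fun v : 𝓞 k' => (v : k')) hx)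
  have hint : IsIntegral ℤ z := by
    rw [← isIntegral_algebraMap_iff (algebraMap k k').injective, hz]
    exact RingOfIntegers.isIntegral_coe x
  refine ⟨⟨z, hint⟩, ?_⟩
  apply RingOfIntegers.ext
  exact hz

lemma range_units {σ : k' ≃ₐ[k] k'} (hfix : ∀ x, σ x = x → x ∈ Set.range (algebraMap k k')) :
    (Units.map (algebraMap (𝓞 k) (𝓞 k')).toMonoidHom : (𝓞 k)ˣ →* (𝓞 k')ˣ).range =
      fixS (sU σ) := by
  ext u
  constructor
  · rintro ⟨v, rfl⟩
    rw [mem_fixS]
    apply Units.ext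
    exact sO_algebraMap σ _
  · intro hu
    rw [mem_fixS] at hu
    obtain ⟨y, hy⟩ := fixed_integer hfix (u : 𝓞 k') (congrArg (fun v : (𝓞 k')ˣ => (v : 𝓞 k')) hu)
    have hu' : sU σ u⁻¹ = u⁻¹ := by rw [map_inv, hu]
    obtain ⟨z, hz⟩ := fixed_integer hfix ((u⁻¹ : (𝓞 k')ˣ) : 𝓞 k')
      (congrArg (fun v : (𝓞 k')ˣ => (v : 𝓞 k')) hu')
    have hyz : y * z = 1 := by
      apply FaithfulSMul.algebraMap_injective (𝓞 k) (𝓞 k')
      rw [map_mul, hy, hz, map_one, Units.mul_inv]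
    refine ⟨⟨y, z, hyz, by rw [mul_comm]; exact hyz⟩, ?_⟩
    apply Units.ext
    exact hy

lemma finrank_fix {σ : k' ≃ₐ[k] k'} (hfix : ∀ x, σ x = x → x ∈ Set.range (algebraMap k k')) :
    finrank ℤ (Additive (fixS (sU σ))) = Units.rank k := by
  rw [← Units.finrank_eq k, ← range_units hfix]
  have hinj : Function.Injective
      (Units.map (algebraMap (𝓞 k) (𝓞 k')).toMonoidHom : (𝓞 k)ˣ →* (𝓞 k')ˣ) :=
    Units.map_injective (FaithfulSMul.algebraMap_injective (𝓞 k) (𝓞 k'))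
  exact (MulEquiv.toAdditive (MonoidHom.ofInjective hinj)).toIntLinearEquiv.finrank_eq.symm

lemma rank_totComplex (K : Type) [Field K] [NumberField K] [IsTotallyComplex K] :
    finrank ℚ K = 2 * (Units.rank K + 1) := by
  have h1 := IsTotallyComplex.finrank K
  have h2 := InfinitePlace.card_eq_nrRealPlaces_add_nrComplexPlaces (K := K)
  have h3 := IsTotallyComplex.nrRealPlaces_eq_zero K
  have h4 : 0 < Fintype.card (InfinitePlace K) := Fintype.card_pos
  rw [Units.rank]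
  omega

theorem herbrand_units (hk : TotComplex k) (h2 : Module.finrank k k' = 2) {σ : k' ≃ₐ[k] k'}
    (hσ : ∀ x, σ (σ x) = x) (hfix : ∀ x, σ x = x → x ∈ Set.range (algebraMap k k')) :
    2 * (nu (sU σ)).range.relIndex (fixS (sU σ)) =
      (de (sU σ)).range.relIndex (nu (sU σ)).ker ∧
      (nu (sU σ)).range.relIndex (fixS (sU σ)) ≠ 0 := by
  have : IsTotallyComplex k := ⟨hk⟩
  have : IsTotallyComplex k' := isTotallyComplex_of_algebra k k'
  have hr : finrank ℤ (Additive (𝓞 k')ˣ) = 2 * Units.rank k + 1 := by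
    rw [Units.finrank_eq k']
    have h1 := rank_totComplex k
    have h3 := rank_totComplex k'
    have h4 : finrank ℚ k * finrank k k' = finrank ℚ k' := Module.finrank_mul_finrank ℚ k k'
    rw [h2] at h4
    omega
  refine herbrand_involution (sU σ) (sU_invol hσ) (-1) ?_ ?_ ?_ (Units.rank k)
    (finrank_fix hfix) hr
  · intro h
    have h' : (-1 : 𝓞 k') = 1 := congrArg (fun v : (𝓞 k')ˣ => (v : 𝓞 k')) h
    have h5 : (2 : 𝓞 k') = 0 := by linear_combination -h'
    exact two_ne_zero h5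
  · simp
  · intro x hx
    have hx' : (x : 𝓞 k') ^ 2 = 1 := congrArg (fun v : (𝓞 k')ˣ => (v : 𝓞 k')) hx
    have hx2 : ((x : 𝓞 k') - 1) * ((x : 𝓞 k') + 1) = 0 := by linear_combination hx'
    rcases (by
      rcases mul_eq_zero.1 hx2 with h | h
      · exact Or.inl (sub_eq_zero.1 h)
      · exact Or.inr (eq_neg_of_add_eq_zero_left h) :
        (x : 𝓞 k') = 1 ∨ (x : 𝓞 k') = -1) with h | h
    · left; exact Units.ext h
    · right; exact Units.ext h

end
end HN
end Crest.Agent.HB
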