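import Crest.Agent.HB.HNAbs

/-! Row 32 (S0042), chunk T3: Herbrand quotient of a finitely generated abelian group with an
involution. -/
set_option autoImplicit false

open Module

namespace Crest.Agent.HB

namespace HN

/-- For a finitely generated abelian group, `[M : 2M] = 2^rank * |M[2]|`. -/
theorem index_two (M : Type*) [AddCommGroup M] [Module.Finite ℤ M] :
    (nsmulAddMonoidHom (α := M) 2).range.index =
      2 ^ finrank ℤ M * Nat.card (nsmulAddMonoidHom (α := M) 2).ker := by
  set f := nsmulAddMonoidHom (α := M) 2 with hf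
  set T := AddCommGroup.torsion M with hT
  have hTfin : Finite T := by
    have h1 : Module.Finite ℤ T.toIntSubmodule := inferInstance
    have h2 : AddGroup.FG T := Module.Finite.iff_addGroup_fg.mp h1
    refine AddCommGroup.finite_of_fg_isAddTorsion T ?_
    rintro ⟨x, hx⟩
    have hx' : IsOfFinAddOrder x := hx
    exact AddSubmonoid.isOfFinAddOrder_coe.1 hx'
  have hmem : ∀ y : M, 2 • y ∈ T → y ∈ T := by
    intro y hy
    have hy' : IsOfFinAddOrder (2 • y) := hy
    exact (isOfFinAddOrder_nsmul.1 hy').resolve_right (by norm_num)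
  have h1 : f.range.index = f.range.relIndex (f.range ⊔ T) * (f.range ⊔ T).index :=
    (AddSubgroup.relIndex_mul_index le_sup_left).symm
  have h2 : f.range.relIndex (f.range ⊔ T) = Nat.card f.ker := by
    rw [AddSubgroup.relIndex_sup_left]
    have : f.range.relIndex T = (nsmulAddMonoidHom (α := T) 2).range.index := by
      rw [AddSubgroup.relIndex]
      congr 1
      ext ⟨x, hx⟩
      rw [AddSubgroup.mem_addSubgroupOf]
      constructor
      · rintro ⟨y, hy⟩
        have hy' : 2 • y = x := hy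
        exact ⟨⟨y, hmem y (by rw [hy']; exact hx)⟩, Subtype.ext hy'⟩
      · rintro ⟨y, hy⟩
        exact ⟨y, congrArg Subtype.val hy⟩
    rw [this, AddSubgroup.index_range]
    refine Nat.card_congr ⟨fun x => ⟨x.1.1, ?_⟩, fun x => ⟨⟨x.1, ?_⟩, ?_⟩, ?_, ?_⟩
    · have := x.2
      rw [AddMonoidHom.mem_ker] at this ⊢
      exact congrArg Subtype.val this
    · apply hmem
      have := x.2
      rw [AddMonoidHom.mem_ker] at this
      change 2 • x.1 = 0 at this
      rw [this]; exact T.zero_mem
    · have := x.2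
      rw [AddMonoidHom.mem_ker] at this ⊢
      exact Subtype.ext this
    · intro x; rfl
    · intro x; rfl
  have h3 : (f.range ⊔ T).index = 2 ^ finrank ℤ M := by
    have : Module.Finite ℤ (M ⧸ T.toIntSubmodule) := inferInstance
    have : IsTorsionFree ℤ (M ⧸ T.toIntSubmodule) := by
      have h5 : IsAddTorsionFree (M ⧸ T) := inferInstance
      rw [Module.isTorsionFree_int_iff_isAddTorsionFree]
      exact h5
    have : Module.Free ℤ (M ⧸ T.toIntSubmodule) := inferInstance
    have h4 := AddSubgroup.index_range_nsmul (M ⧸ T.toIntSubmodule) 2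
    rw [finrank_quotient_torsion_eq] at h4
    rw [← h4]
    have hsurj : Function.Surjective (T.toIntSubmodule.mkQ).toAddMonoidHom :=
      Submodule.mkQ_surjective _
    rw [← AddSubgroup.index_comap_of_surjective _ hsurj]
    congr 1
    ext x
    rw [AddSubgroup.mem_sup, AddSubgroup.mem_comap]
    constructor
    · rintro ⟨_, ⟨y, rfl⟩, t, ht, rfl⟩
      refine ⟨T.toIntSubmodule.mkQ y, ?_⟩
      change 2 • T.toIntSubmodule.mkQ y = T.toIntSubmodule.mkQ (2 • y + t)
      rw [map_add, map_nsmul]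
      have : T.toIntSubmodule.mkQ t = 0 := by
        rw [Submodule.mkQ_apply, Submodule.Quotient.mk_eq_zero]; exact ht
      rw [this, add_zero]
    · rintro ⟨y, hy⟩
      obtain ⟨y, rfl⟩ := Submodule.mkQ_surjective _ y
      refine ⟨2 • y, ⟨y, rfl⟩, x - 2 • y, ?_, by abel⟩
      change 2 • T.toIntSubmodule.mkQ y = T.toIntSubmodule.mkQ x at hy
      have : T.toIntSubmodule.mkQ (x - 2 • y) = 0 := by
        rw [map_sub, map_nsmul, hy, sub_self]
      rw [Submodule.mkQ_apply, Submodule.Quotient.mk_eq_zero] at this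
      exact this
  rw [h1, h2, h3, mul_comm]


variable {A : Type*} [CommGroup A]

lemma finite_sub [Module.Finite ℤ (Additive A)] (B : Subgroup A) :
    Module.Finite ℤ (Additive B) := by
  let f : Additive B →ₗ[ℤ] Additive A := (MonoidHom.toAdditive B.subtype).toIntLinearMap
  exact Module.Finite.of_injective f B.subtype_injective

lemma index_sq [Module.Finite ℤ (Additive A)] (B : Subgroup A) (ε : A) (hε : ε ∈ B) (hε1 : ε ≠ 1)
    (hε2 : ε ^ 2 = 1) (htwo : ∀ x : A, x ^ 2 = 1 → x = 1 ∨ x = ε) :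
    (B.map (powMonoidHom 2)).relIndex B = 2 ^ (finrank ℤ (Additive B) + 1) := by
  have := finite_sub B
  have h := index_two (Additive B)
  have h2 : Nat.card (nsmulAddMonoidHom (α := Additive B) 2).ker = 2 := by
    rw [Nat.card_eq_two_iff]
    refine ⟨⟨Additive.ofMul (1 : B), ?_⟩, ⟨Additive.ofMul (⟨ε, hε⟩ : B), ?_⟩, ?_, ?_⟩
    · rw [AddMonoidHom.mem_ker]; simp
    · rw [AddMonoidHom.mem_ker]
      change Additive.ofMul ((⟨ε, hε⟩ : B) ^ 2) = 0
      have : (⟨ε, hε⟩ : B) ^ 2 = 1 := Subtype.ext hε2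
      rw [this]; rfl
    · intro h0
      apply hε1
      have := congrArg (fun z => ((Additive.toMul z.1 : B) : A)) h0
      exact this.symm
    · ext ⟨x, hx⟩
      rw [AddMonoidHom.mem_ker] at hx
      have hx' : ((Additive.toMul x : B) : A) ^ 2 = 1 := congrArg (fun z => ((Additive.toMul z : B) : A)) hx
      simp only [Set.mem_insert_iff, Set.mem_singleton_iff, Set.mem_univ, iff_true]
      rcases htwo _ hx' with h' | h'
      · left; apply Subtype.ext; exact Subtype.ext h'
      · right; apply Subtype.ext; exact Subtype.ext h'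
  rw [h2] at h
  rw [pow_succ, ← h]
  rw [Subgroup.relIndex]
  have e : (nsmulAddMonoidHom (α := Additive B) 2).range.index =
      (powMonoidHom (α := B) 2).range.index := rfl
  rw [e]
  congr 1
  ext ⟨x, hx⟩
  rw [Subgroup.mem_subgroupOf]
  constructor
  · rintro ⟨y, hy, hxy⟩
    exact ⟨⟨y, hy⟩, Subtype.ext hxy⟩
  · rintro ⟨y, hy⟩
    exact ⟨y.1, y.2, congrArg Subtype.val hy⟩

/-- `Additive` of a kernel/range as a submodule. -/
def addEquivSub (B : Subgroup A) :
    Additive B ≃+ (Subgroup.toAddSubgroup B).toIntSubmodule where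
  toFun x := ⟨Additive.ofMul ((Additive.toMul x : B) : A), (Additive.toMul x : B).2⟩
  invFun x := Additive.ofMul ⟨Additive.toMul x.1, x.2⟩
  left_inv _ := rfl
  right_inv _ := rfl
  map_add' _ _ := rfl

lemma finrank_sub (B : Subgroup A) :
    finrank ℤ (Additive B) = finrank ℤ (Subgroup.toAddSubgroup B).toIntSubmodule :=
  (addEquivSub B).toIntLinearEquiv.finrank_eq

lemma finrank_mono [Module.Finite ℤ (Additive A)] {B C : Subgroup A} (h : B ≤ C) :
    finrank ℤ (Additive B) ≤ finrank ℤ (Additive C) := by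
  rw [finrank_sub, finrank_sub]
  apply Submodule.finrank_mono
  intro x hx
  exact h hx

lemma finrank_ker_add_range [Module.Finite ℤ (Additive A)] (f : A →* A) :
    finrank ℤ (Additive f.range) + finrank ℤ (Additive f.ker) = finrank ℤ (Additive A) := by
  have h := Submodule.finrank_quotient_add_finrank
    (LinearMap.ker (MonoidHom.toAdditive f).toIntLinearMap)
  rw [(LinearMap.quotKerEquivRange (MonoidHom.toAdditive f).toIntLinearMap).finrank_eq] at h
  rw [← h, finrank_sub, finrank_sub]
  rfl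

lemma finrank_map_sq [Module.Finite ℤ (Additive A)] (B : Subgroup A) :
    finrank ℤ (Additive (B.map (powMonoidHom 2))) = finrank ℤ (Additive B) := by
  have := finite_sub B
  have h := finrank_ker_add_range (A := B) (powMonoidHom 2)
  have h1 : finrank ℤ (Additive (powMonoidHom (α := B) 2).ker) = 0 := by
    apply Module.IsTorsion.finrank_eq_zero
    intro x
    refine ⟨⟨2, by simp⟩, ?_⟩
    have h3 := (Additive.toMul x).2
    rw [MonoidHom.mem_ker] at h3
    change Additive.ofMul ((Additive.toMul x) ^ (2:ℤ)) = 0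
    have h2 : (Additive.toMul x) ^ (2:ℤ) = 1 := by
      apply Subtype.ext
      rw [zpow_ofNat]
      exact h3
    rw [h2]; rfl
  rw [h1, add_zero] at h
  rw [← h]
  have e : (powMonoidHom (α := B) 2).range ≃* (B.map (powMonoidHom 2)) := by
    have e1 := Subgroup.equivMapOfInjective (powMonoidHom (α := B) 2).range B.subtype
      B.subtype_injective
    refine e1.trans (MulEquiv.subgroupCongr ?_)
    ext x
    constructor
    · rintro ⟨_, ⟨y, rfl⟩, rfl⟩
      exact ⟨y.1, y.2, rfl⟩
    · rintro ⟨y, hy, rfl⟩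
      exact ⟨_, ⟨⟨y, hy⟩, rfl⟩, rfl⟩
  exact (MulEquiv.toAdditive e).toIntLinearEquiv.finrank_eq.symm

theorem herbrand_involution [Module.Finite ℤ (Additive A)] (τ : A ≃* A)
    (hτ : ∀ x, τ (τ x) = x) (ε : A) (hε1 : ε ≠ 1) (hε2 : ε ^ 2 = 1)
    (htwo : ∀ x : A, x ^ 2 = 1 → x = 1 ∨ x = ε) (r : ℕ)
    (h1 : finrank ℤ (Additive (fixS τ)) = r) (h2 : finrank ℤ (Additive A) = 2 * r + 1) :
    2 * (nu τ).range.relIndex (fixS τ) = (de τ).range.relIndex (nu τ).ker ∧
      (nu τ).range.relIndex (fixS τ) ≠ 0 := by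
  have hτε : τ ε = ε := by
    have h3 : τ ε ^ 2 = 1 := by rw [← map_pow, hε2, map_one]
    rcases htwo _ h3 with h | h
    · exfalso; apply hε1
      have := hτ ε
      rw [h, map_one] at this
      exact this.symm
    · exact h
  have nu_fix : ∀ u, u * τ u ∈ fixS τ := by
    intro u; rw [mem_fixS, map_mul, hτ, mul_comm]
  have de_nu : ∀ u, (u / τ u) * τ (u / τ u) = 1 := by
    intro u; rw [map_div, hτ]; simp
  -- squares
  have sqp : (((fixS τ).map (powMonoidHom 2)).relIndex (nu τ).range) =
      (fixS τ ⊔ (nu τ).ker).index := by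
    have e1 : (nu τ).range = (⊤ : Subgroup A).map (nu τ) := by rw [MonoidHom.range_eq_map]
    rw [e1, relIndex_map_eq (nu τ) ⊤ (fixS τ ⊔ (nu τ).ker), Subgroup.relIndex_top_right]
    intro s _
    constructor
    · rintro ⟨x, hx, hxs⟩
      rw [Subgroup.mem_sup]
      refine ⟨x, hx, s / x, ?_, by simp⟩
      have hx' : τ x = x := hx
      have hxs' : x ^ 2 = s * τ s := hxs
      rw [MonoidHom.mem_ker, nu_apply, map_div, hx', div_mul_div_comm, ← hxs', ← pow_two, div_self']
    · intro h
      rw [Subgroup.mem_sup] at h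
      obtain ⟨x, hx, y, hy, rfl⟩ := h
      refine ⟨x, hx, ?_⟩
      have hx' : τ x = x := hx
      rw [MonoidHom.mem_ker] at hy
      rw [map_mul, hy, mul_one, nu_apply, hx']
      exact pow_two x
  have sqm : (((nu τ).ker.map (powMonoidHom 2)).relIndex (de τ).range) =
      (fixS τ ⊔ (nu τ).ker).index := by
    have e1 : (de τ).range = (⊤ : Subgroup A).map (de τ) := by rw [MonoidHom.range_eq_map]
    rw [e1, relIndex_map_eq (de τ) ⊤ (fixS τ ⊔ (nu τ).ker), Subgroup.relIndex_top_right]
    intro s _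
    constructor
    · rintro ⟨x, hx, hxs⟩
      rw [Subgroup.mem_sup]
      refine ⟨s / x, ?_, x, hx, by simp⟩
      have hx' : x * τ x = 1 := hx
      have hxs' : x ^ 2 = s / τ s := hxs
      have hx2 : τ x = x⁻¹ := (inv_eq_of_mul_eq_one_right hx').symm
      rw [mem_fixS, map_div, hx2]
      have h5 : s = x ^ 2 * τ s := by rw [hxs']; simp
      rw [div_inv_eq_mul]
      nth_rewrite 2 [h5]
      rw [pow_two, eq_div_iff_mul_eq', mul_assoc, mul_comm]
    · intro h
      rw [Subgroup.mem_sup] at h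
      obtain ⟨x, hx, y, hy, rfl⟩ := h
      refine ⟨y, hy, ?_⟩
      have hx' : τ x = x := hx
      have hy' : y * τ y = 1 := hy
      have hy2 : τ y = y⁻¹ := (inv_eq_of_mul_eq_one_right hy').symm
      rw [de_apply, map_mul, hx', hy2, mul_div_mul_left_eq_div, div_inv_eq_mul]
      exact pow_two y
  have sqp_le : (fixS τ).map (powMonoidHom 2) ≤ (nu τ).range := by
    rintro _ ⟨x, hx, rfl⟩
    have hx' : τ x = x := hx
    exact ⟨x, by rw [nu_apply, hx']; exact (pow_two x).symm⟩
  have sqm_le : (nu τ).ker.map (powMonoidHom 2) ≤ (de τ).range := by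
    rintro _ ⟨x, hx, rfl⟩
    have hx' : x * τ x = 1 := hx
    have hx2 : τ x = x⁻¹ := (inv_eq_of_mul_eq_one_right hx').symm
    exact ⟨x, by rw [de_apply, hx2, div_inv_eq_mul]; exact (pow_two x).symm⟩
  have nu_le : (nu τ).range ≤ fixS τ := by
    rintro _ ⟨u, rfl⟩; exact nu_fix u
  have de_le : (de τ).range ≤ (nu τ).ker := by
    rintro _ ⟨u, rfl⟩; exact de_nu u
  have εp : ε ∈ fixS τ := hτε
  have εm : ε ∈ (nu τ).ker := by rw [MonoidHom.mem_ker, nu_apply, hτε, ← pow_two, hε2]
  have Ip := index_sq (fixS τ) ε εp hε1 hε2 htwo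
  have Im := index_sq (nu τ).ker ε εm hε1 hε2 htwo
  -- ranks
  have hr : finrank ℤ (Additive (nu τ).range) = r := by
    apply le_antisymm
    · rw [← h1]; exact finrank_mono nu_le
    · rw [← h1, ← finrank_map_sq (fixS τ)]; exact finrank_mono sqp_le
  have hm : finrank ℤ (Additive (nu τ).ker) = r + 1 := by
    have := finrank_ker_add_range (nu τ)
    omega
  rw [h1] at Ip
  rw [hm] at Im
  rw [← Subgroup.relIndex_mul_relIndex _ _ _ sqp_le nu_le, sqp] at Ip
  rw [← Subgroup.relIndex_mul_relIndex _ _ _ sqm_le de_le, sqm] at Im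
  have ht : (fixS τ ⊔ (nu τ).ker).index ≠ 0 := by
    intro h0
    rw [h0, zero_mul] at Ip
    exact (pow_ne_zero _ two_ne_zero) Ip.symm
  refine ⟨?_, ?_⟩
  · apply Nat.eq_of_mul_eq_mul_left (Nat.pos_of_ne_zero ht)
    rw [Im, mul_left_comm, Ip]
    ring
  · intro h0
    rw [h0, mul_zero] at Ip
    exact (pow_ne_zero _ two_ne_zero) Ip.symm

end HN

end Crest.Agent.HB
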