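import Crest.Agent.HB.SecondIneq
import Crest.Agent.HB.HNFrac
import Crest.Agent.HB.HNChar
import Crest.Agent.HB.HNRank

/-! Row 32 (S0042), chunk T3: Hasse norm theorem for unramified quadratic extensions. -/
set_option autoImplicit false
set_option linter.unusedSectionVars false

open NumberField IsDedekindDomain
open scoped nonZeroDivisors

namespace Crest.Agent.HB

namespace HN

lemma transport_nu {A U : Type*} [CommGroup A] [CommGroup U] (i : A →* U)
    (hi : Function.Injective i) (tA : A ≃* A) (τ : U ≃* U) (h : ∀ a, i (tA a) = τ (i a)) :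
    (i.range.map (nu τ)).relIndex (i.range ⊓ fixS τ) = (nu tA).range.relIndex (fixS tA) := by
  rw [← Subgroup.relIndex_map_map_of_injective _ _ hi]
  congr 1
  · ext x
    constructor
    · rintro ⟨_, ⟨a, rfl⟩, rfl⟩
      exact ⟨nu tA a, ⟨a, rfl⟩, by rw [nu_apply, nu_apply, map_mul, h]⟩
    · rintro ⟨_, ⟨a, rfl⟩, rfl⟩
      exact ⟨i a, ⟨a, rfl⟩, by rw [nu_apply, nu_apply, map_mul, h]⟩
  · ext x
    constructor
    · rintro ⟨⟨a, rfl⟩, h2⟩
      refine ⟨a, ?_, rfl⟩
      have h2' : τ (i a) = i a := h2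
      rw [← h] at h2'
      exact hi h2'
    · rintro ⟨a, ha, rfl⟩
      have ha' : tA a = a := ha
      refine ⟨⟨a, rfl⟩, ?_⟩
      change τ (i a) = i a
      rw [← h, ha']

lemma transport_de {A U : Type*} [CommGroup A] [CommGroup U] (i : A →* U)
    (hi : Function.Injective i) (tA : A ≃* A) (τ : U ≃* U) (h : ∀ a, i (tA a) = τ (i a)) :
    (i.range.map (de τ)).relIndex (i.range ⊓ (nu τ).ker) =
      (de tA).range.relIndex (nu tA).ker := by
  rw [← Subgroup.relIndex_map_map_of_injective _ _ hi]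
  congr 1
  · ext x
    constructor
    · rintro ⟨_, ⟨a, rfl⟩, rfl⟩
      exact ⟨de tA a, ⟨a, rfl⟩, by rw [de_apply, de_apply, map_div, h]⟩
    · rintro ⟨_, ⟨a, rfl⟩, rfl⟩
      exact ⟨i a, ⟨a, rfl⟩, by rw [de_apply, de_apply, map_div, h]⟩
  · ext x
    constructor
    · rintro ⟨⟨a, rfl⟩, h2⟩
      refine ⟨a, ?_, rfl⟩
      have h2' : i a * τ (i a) = 1 := h2
      rw [← h, ← map_mul] at h2'
      change a * tA a = 1
      exact hi (by rw [h2', map_one])
    · rintro ⟨a, ha, rfl⟩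
      have ha' : a * tA a = 1 := ha
      refine ⟨⟨a, rfl⟩, ?_⟩
      change i a * τ (i a) = 1
      rw [← h, ← map_mul, ha', map_one]

section
variable {k k' : Type} [Field k] [NumberField k] [Field k'] [NumberField k'] [Algebra k k']

/-- Action on `k'ˣ`. -/
noncomputable def sK (σ : k' ≃ₐ[k] k') : k'ˣ ≃* k'ˣ := Units.mapEquiv σ.toMulEquiv

lemma sK_coe (σ : k' ≃ₐ[k] k') (u : k'ˣ) : ((sK σ u : k'ˣ) : k') = σ u := rfl

/-- Action on invertible fractional ideals. -/
noncomputable def sJ (σ : k' ≃ₐ[k] k') :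
    (FractionalIdeal (𝓞 k')⁰ k')ˣ ≃* (FractionalIdeal (𝓞 k')⁰ k')ˣ :=
  Units.mapEquiv (sI σ).toMulEquiv

lemma sJ_coe (σ : k' ≃ₐ[k] k') (u : (FractionalIdeal (𝓞 k')⁰ k')ˣ) :
    ((sJ σ u : (FractionalIdeal (𝓞 k')⁰ k')ˣ) : FractionalIdeal (𝓞 k')⁰ k') = sI σ u := rfl

lemma range_units_ker :
    (Units.map (algebraMap (𝓞 k') k').toMonoidHom : (𝓞 k')ˣ →* k'ˣ).range =
      (toPrincipalIdeal (𝓞 k') k').ker := by
  ext u
  rw [MonoidHom.mem_ker, toPrincipalIdeal_eq_iff, Units.val_one]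
  constructor
  · rintro ⟨v, rfl⟩
    change FractionalIdeal.spanSingleton _ (algebraMap (𝓞 k') k' (v : 𝓞 k')) = 1
    rw [← FractionalIdeal.coeIdeal_span_singleton, Ideal.span_singleton_eq_top.2 v.isUnit,
      FractionalIdeal.coeIdeal_top]
  · intro h
    have h1 : (u : k') ∈ (1 : FractionalIdeal (𝓞 k')⁰ k') := by
      rw [← h]; exact FractionalIdeal.mem_spanSingleton_self _ _
    have h' : FractionalIdeal.spanSingleton (𝓞 k')⁰ ((u : k')⁻¹) = 1 := by
      rw [← FractionalIdeal.spanSingleton_inv, h, inv_one]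
    have h2 : (u : k')⁻¹ ∈ (1 : FractionalIdeal (𝓞 k')⁰ k') := by
      rw [← h']; exact FractionalIdeal.mem_spanSingleton_self _ _
    rw [FractionalIdeal.mem_one_iff] at h1 h2
    obtain ⟨x, hx⟩ := h1
    obtain ⟨y, hy⟩ := h2
    have hxy : x * y = 1 := by
      apply FaithfulSMul.algebraMap_injective (𝓞 k') k'
      rw [map_mul, hx, hy, map_one, mul_inv_cancel₀ u.ne_zero]
    refine ⟨⟨x, y, hxy, by rw [mul_comm]; exact hxy⟩, ?_⟩
    apply Units.ext
    exact hx

end

end HN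

open HN in
/-- `E = 𝓞_kˣ`, `E' = 𝓞_{k'}ˣ`, `σ` the nontrivial automorphism of `k'/k`.  See ideas row 32
(STEP 3, section X) for the full proof.  -/
theorem hasse_norm (k k' : Type) [Field k] [NumberField k] [Field k'] [NumberField k']
    [Algebra k k'] (h2 : Module.finrank k k' = 2) (hk : TotComplex k) (hunr : Unram k k')
    (y : k) (hy : y ≠ 0)
    (hev : ∀ v : HeightOneSpectrum (𝓞 k),
      (v.asIdeal.map (algebraMap (𝓞 k) (𝓞 k'))).IsPrime → EvenAt v y) :
    ∃ z : k', Algebra.norm k z = y := by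
  obtain ⟨σ, hσ1, hg, hσ, hfix, hnorm⟩ := exists_sigma (k := k) (k' := k') h2
  set d := toPrincipalIdeal (𝓞 k') k' with hd
  have hdval : ∀ u : k'ˣ, ((d u : (FractionalIdeal (𝓞 k')⁰ k')ˣ) : FractionalIdeal (𝓞 k')⁰ k') =
      FractionalIdeal.spanSingleton _ (u : k') := fun u => coe_toPrincipalIdeal u
  have hsK : ∀ u, sK σ (sK σ u) = u := fun u => Units.ext (hσ _)
  have hsJ : ∀ x, sJ σ (sJ σ x) = x := fun x => Units.ext (sI_invol hσ _)
  have hdσ : ∀ u, d (sK σ u) = sJ σ (d u) := by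
    intro u
    apply Units.ext
    rw [hdval, sJ_coe, hdval, sI_spanSingleton, sK_coe]
  have H90 : ∀ u : k'ˣ, u * sK σ u = 1 → ∃ w, u = w / sK σ w := by
    intro u hu
    have hu' : (u : k') * σ (u : k') = 1 := congrArg Units.val hu
    by_cases h1 : (1 : k') + u = 0
    · -- `u = -1`
      have hu1 : (u : k') = -1 := by linear_combination h1
      obtain ⟨x, hx⟩ : ∃ x, σ x ≠ x := by
        by_contra hcon
        push Not at hcon
        exact hσ1 (AlgEquiv.ext hcon)
      have hw : x - σ x ≠ 0 := sub_ne_zero.2 hx.symm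
      refine ⟨Units.mk0 (x - σ x) hw, ?_⟩
      apply Units.ext
      rw [Units.val_div_eq_div_val, sK_coe, Units.val_mk0, map_sub, hσ, hu1,
        eq_div_iff (by rw [← neg_sub]; exact neg_ne_zero.2 hw)]
      ring
    · refine ⟨Units.mk0 (1 + (u : k')) h1, ?_⟩
      apply Units.ext
      have h3 : σ (1 + (u : k')) ≠ 0 := by rw [Ne, map_eq_zero]; exact h1
      rw [Units.val_div_eq_div_val, sK_coe, Units.val_mk0, eq_div_iff h3, map_add, map_one]
      linear_combination hu'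
  have HJ : ∀ x, x * sJ σ x = 1 → ∃ y, x = y / sJ σ y := by
    intro x hx
    have hx' : (x : FractionalIdeal (𝓞 k')⁰ k') * sI σ x = 1 := congrArg Units.val hx
    have h1 : (1 : FractionalIdeal (𝓞 k')⁰ k') + x ≠ 0 := by
      intro h0
      have : (1 : FractionalIdeal (𝓞 k')⁰ k') ≤ 0 := by
        rw [← h0, ← FractionalIdeal.sup_eq_add]
        exact le_sup_left
      exact one_ne_zero (le_antisymm this (FractionalIdeal.zero_le _))
    refine ⟨Units.mk0 _ h1, ?_⟩
    rw [eq_div_iff_mul_eq']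
    apply Units.ext
    rw [Units.val_mul, sJ_coe, Units.val_mk0, map_add, map_one, mul_add, mul_one, hx', add_comm]
  have hfin : d.range.index ≠ 0 := by
    have : Finite ((FractionalIdeal (𝓞 k')⁰ k')ˣ ⧸ d.range) :=
      Finite.of_equiv (ClassGroup (𝓞 k')) (ClassGroup.equiv k').toEquiv
    exact Subgroup.index_ne_zero_of_finite
  have hformula := index_formula (sK σ) (sJ σ) d hsK hsJ hdσ H90 HJ hfin
  -- units
  have hinj : Function.Injective
      (Units.map (algebraMap (𝓞 k') k').toMonoidHom : (𝓞 k')ˣ →* k'ˣ) :=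
    Units.map_injective (FaithfulSMul.algebraMap_injective (𝓞 k') k')
  have hcomm : ∀ a : (𝓞 k')ˣ, (Units.map (algebraMap (𝓞 k') k').toMonoidHom : (𝓞 k')ˣ →* k'ˣ)
      (sU σ a) = sK σ ((Units.map (algebraMap (𝓞 k') k').toMonoidHom : (𝓞 k')ˣ →* k'ˣ) a) := by
    intro a; apply Units.ext; rfl
  rw [← range_units_ker, transport_nu _ hinj (sU σ) (sK σ) hcomm,
    transport_de _ hinj (sU σ) (sK σ) hcomm] at hformula
  obtain ⟨hb, hn0⟩ := herbrand_units hk h2 hσ hfix
  rw [← hb] at hformula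
  -- the index `a ∣ 2`
  have ha : ((fixS (sK σ)).map d ⊔ (nu (sJ σ)).range).relIndex (fixS (sJ σ)) ∣ 2 := by
    set e : (FractionalIdeal (𝓞 k)⁰ k)ˣ →* (FractionalIdeal (𝓞 k')⁰ k')ˣ :=
      Units.map (exI k k').toMonoidHom with he
    have heval : ∀ z, ((e z : (FractionalIdeal (𝓞 k')⁰ k')ˣ) : FractionalIdeal (𝓞 k')⁰ k') =
      exI k k' z := fun z => rfl
    have herange : e.range = fixS (sJ σ) := by
      ext x
      constructor
      · rintro ⟨z, rfl⟩
        rw [mem_fixS]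
        apply Units.ext
        rw [sJ_coe, heval, sI_exI]
      · intro hx
        rw [mem_fixS] at hx
        have hx' : sI σ (x : FractionalIdeal (𝓞 k')⁰ k') = x := congrArg Units.val hx
        obtain ⟨z, hz0, hz⟩ := invariant_frac hunr h2 σ hg hσ hfix _ x.ne_zero hx'
        exact ⟨Units.mk0 z hz0, Units.ext hz⟩
    rw [← herange, ← Subgroup.index_comap]
    set H0 := ((fixS (sK σ)).map d ⊔ (nu (sJ σ)).range).comap e with hH0
    set π : (FractionalIdeal (𝓞 k)⁰ k)ˣ →* ClassGroup (𝓞 k) := ClassGroup.mk k with hπ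
    have hπsurj : Function.Surjective π := by
      intro c
      obtain ⟨I, rfl⟩ := ClassGroup.mk0_surjective c
      exact ⟨FractionalIdeal.mk0 k I, ClassGroup.mk_mk0 k I⟩
    have hker : π.ker ≤ H0 := by
      intro I hI
      rw [MonoidHom.mem_ker, hπ, ClassGroup.mk_eq_one_iff] at hI
      obtain ⟨x, hx⟩ := (FractionalIdeal.isPrincipal_iff _).1 hI
      have hx0 : x ≠ 0 := by
        rintro rfl
        rw [FractionalIdeal.spanSingleton_zero] at hx
        exact I.ne_zero hx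
      have hx0' : algebraMap k k' x ≠ 0 := by rw [Ne, map_eq_zero]; exact hx0
      apply Subgroup.mem_sup_left
      refine ⟨Units.mk0 _ hx0', ?_, ?_⟩
      · apply Units.ext
        exact σ.commutes x
      · apply Units.ext
        rw [hdval, heval, hx, exI_spanSingleton, Units.val_mk0]
    rw [← Subgroup.index_map_eq _ hπsurj hker]
    apply index_dvd_two
    · intro c
      obtain ⟨I, rfl⟩ := hπsurj c
      refine ⟨I ^ 2, ?_, map_pow _ _ _⟩
      apply Subgroup.mem_sup_right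
      refine ⟨e I, ?_⟩
      have h3 : sJ σ (e I) = e I := by
        have : e I ∈ fixS (sJ σ) := by rw [← herange]; exact ⟨I, rfl⟩
        exact this
      rw [nu_apply, h3, map_pow, pow_two]
    · intro ψ₁ ψ₂ n1 n2 t1 t2
      have hmem : ∀ 𝔮 : (Ideal (𝓞 k))⁰, (𝔮 : Ideal (𝓞 k)).IsPrime →
        (∃ P P' : Ideal (𝓞 k'), P ≠ P' ∧ P.IsPrime ∧ P'.IsPrime ∧
          P.LiesOver (𝔮 : Ideal (𝓞 k)) ∧ P'.LiesOver (𝔮 : Ideal (𝓞 k))) →
          ClassGroup.mk0 𝔮 ∈ H0.map π := by
        rintro 𝔮 hq ⟨P, P', hne, hP, hP', hPo, hPo'⟩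
        have hq0 : (𝔮 : Ideal (𝓞 k)) ≠ ⊥ := nonZeroDivisors.ne_zero 𝔮.2
        rcases prime_dichotomy hunr h2 σ hg hσ (𝔮 : Ideal (𝓞 k)) hq0 with
          h | ⟨P1, hP1p, hP10, -, -, -, hprod⟩
        · exfalso
          have hq0' : (𝔮 : Ideal (𝓞 k)).map (algebraMap (𝓞 k) (𝓞 k')) ≠ ⊥ := by
            intro h
            exact hq0 ((Ideal.map_eq_bot_iff_of_injective
              (FaithfulSMul.algebraMap_injective (𝓞 k) (𝓞 k'))).1 h)
          have hm : ((𝔮 : Ideal (𝓞 k)).map (algebraMap (𝓞 k) (𝓞 k'))).IsMaximal :=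
            h.isMaximal hq0'
          have e1 := hm.eq_of_le hP.ne_top (Ideal.map_le_iff_le_comap.2 (hPo.over).le)
          have e2 := hm.eq_of_le hP'.ne_top (Ideal.map_le_iff_le_comap.2 (hPo'.over).le)
          exact hne (e1.symm.trans e2)
        · refine ⟨FractionalIdeal.mk0 k 𝔮, ?_, ClassGroup.mk_mk0 k 𝔮⟩
          apply Subgroup.mem_sup_right
          have hP1 : (P1 : FractionalIdeal (𝓞 k')⁰ k') ≠ 0 := by
            rw [Ne, FractionalIdeal.coeIdeal_eq_zero]; exact hP10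
          refine ⟨Units.mk0 _ hP1, ?_⟩
          apply Units.ext
          rw [nu_apply, Units.val_mul, sJ_coe, Units.val_mk0, heval, sI_coeIdeal,
            FractionalIdeal.coe_mk0, exI_coeIdeal, hprod, FractionalIdeal.coeIdeal_mul]
      exact second_ineq k k' h2 hk hunr ψ₁ ψ₂ n1 n2
        (fun 𝔮 hq hs => ⟨t1 _ (hmem 𝔮 hq hs), t2 _ (hmem 𝔮 hq hs)⟩)
  -- conclusion
  set N1 := (nu (sK σ)).range.relIndex (fixS (sK σ) ⊓ (nu (sJ σ)).range.comap d) with hN1
  set a := ((fixS (sK σ)).map d ⊔ (nu (sJ σ)).range).relIndex (fixS (sJ σ)) with hadef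
  set n := (nu (sU σ)).range.relIndex (fixS (sU σ)) with hndef
  have h5 : 2 * N1 = a := by
    apply Nat.eq_of_mul_eq_mul_right (Nat.pos_of_ne_zero hn0)
    rw [← hformula]; ring
  have h6 : N1 = 1 := by
    rw [← h5] at ha
    have h7 : N1 ∣ 1 := by
      have : 2 * N1 ∣ 2 * 1 := by simpa using ha
      exact Nat.dvd_of_mul_dvd_mul_left two_pos this
    exact Nat.dvd_one.1 h7
  rw [hN1, Subgroup.relIndex_eq_one] at h6
  have hy' : algebraMap k k' y ≠ 0 := by rw [Ne, map_eq_zero]; exact hy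
  obtain ⟨A, hA0, hA⟩ := even_norm hunr h2 σ hg hσ y hy hev
  have hmem : Units.mk0 _ hy' ∈ fixS (sK σ) ⊓ (nu (sJ σ)).range.comap d := by
    refine ⟨?_, ?_⟩
    · apply Units.ext
      exact σ.commutes y
    · refine ⟨Units.mk0 A hA0, ?_⟩
      apply Units.ext
      rw [nu_apply, Units.val_mul, sJ_coe, Units.val_mk0, hdval, Units.val_mk0, hA]
  obtain ⟨z, hz⟩ := h6 hmem
  refine ⟨(z : k'), ?_⟩
  apply (algebraMap k k').injective
  rw [hnorm]
  exact congrArg Units.val hz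

end Crest.Agent.HB
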