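import Crest.Agent.HB.LBound_E

/-! Row 32 (S0042), chunk T1, part F: class sums. -/
set_option autoImplicit false

open NumberField NumberField.mixedEmbedding NumberField.Units
  NumberField.Units.dirichletUnitTheorem NumberField.InfinitePlace Module
open scoped nonZeroDivisors

namespace Crest.Agent.HB.LB

variable {K : Type} [Field K] [NumberField K]

lemma nm_eq_absNorm (x : 𝓞 K) : nm (x : K) = (Ideal.absNorm (Ideal.span {x}) : ℝ) := by
  unfold nm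
  rw [norm_eq_norm, Ideal.absNorm_span_singleton]
  have h2 : (Algebra.norm ℚ (x : K) : ℚ) = (Algebra.norm ℤ x : ℤ) :=
    (Algebra.coe_norm_int x).symm
  rw [h2, Nat.cast_natAbs]
  push_cast
  rfl

lemma wt_unit_mul_nm (u : (𝓞 K)ˣ) (x : K) : nm ((u : K) * x) = nm x := by
  unfold nm
  rw [map_mul, map_mul, norm_unit, one_mul]

lemma exists_gen {J I : (Ideal (𝓞 K))⁰} (h : ClassGroup.mk0 I = (ClassGroup.mk0 J)⁻¹) :
    ∃ g : 𝓞 K, (I : Ideal (𝓞 K)) * J = Ideal.span {g} := by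
  have h1 : ClassGroup.mk0 (I * J) = 1 := by
    rw [map_mul, h, inv_mul_cancel]
  have h2 := (ClassGroup.mk0_eq_one_iff (I * J).2).mp h1
  obtain ⟨g, hg⟩ := h2.principal
  exact ⟨g, by simpa using hg⟩

/-- generator of `I J`. -/
noncomputable def gen (J : (Ideal (𝓞 K))⁰)
    (I : {I : (Ideal (𝓞 K))⁰ // ClassGroup.mk0 I = (ClassGroup.mk0 J)⁻¹}) : 𝓞 K :=
  (exists_gen I.2).choose

lemma gen_spec (J : (Ideal (𝓞 K))⁰)
    (I : {I : (Ideal (𝓞 K))⁰ // ClassGroup.mk0 I = (ClassGroup.mk0 J)⁻¹}) :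
    (I.1 : Ideal (𝓞 K)) * J = Ideal.span {gen J I} := (exists_gen I.2).choose_spec

omit [NumberField K] in
lemma coe_ne_bot (I : (Ideal (𝓞 K))⁰) : (I : Ideal (𝓞 K)) ≠ ⊥ := nonZeroDivisors.coe_ne_zero I

lemma gen_ne_zero (J : (Ideal (𝓞 K))⁰)
    (I : {I : (Ideal (𝓞 K))⁰ // ClassGroup.mk0 I = (ClassGroup.mk0 J)⁻¹}) : gen J I ≠ 0 := by
  intro h
  have h1 := gen_spec J I
  rw [h, Ideal.span_singleton_eq_bot.mpr rfl] at h1
  rcases mul_eq_zero.mp (h1 : (I.1 : Ideal (𝓞 K)) * J = 0) with h2 | h2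
  · exact coe_ne_bot I.1 h2
  · exact coe_ne_bot J h2

lemma gen_mem (J : (Ideal (𝓞 K))⁰)
    (I : {I : (Ideal (𝓞 K))⁰ // ClassGroup.mk0 I = (ClassGroup.mk0 J)⁻¹}) (u : (𝓞 K)ˣ) :
    (u : 𝓞 K) * gen J I ∈ (J : Ideal (𝓞 K)) := by
  have h1 : gen J I ∈ Ideal.span {gen J I} := Ideal.mem_span_singleton_self _
  rw [← gen_spec J I] at h1
  have h2 : gen J I ∈ (J : Ideal (𝓞 K)) :=
    (Ideal.mul_le_right : (I.1 : Ideal (𝓞 K)) * (J : Ideal (𝓞 K)) ≤ J) h1
  exact (J : Ideal (𝓞 K)).mul_mem_left (u : 𝓞 K) h2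

/-- unit multiples of the generators as nonzero elements of `J`. -/
noncomputable def genMap (J : (Ideal (𝓞 K))⁰)
    (p : {I : (Ideal (𝓞 K))⁰ // ClassGroup.mk0 I = (ClassGroup.mk0 J)⁻¹} × (𝓞 K)ˣ) :
    {x : (J : Ideal (𝓞 K)) // x ≠ 0} :=
  ⟨⟨(p.2 : 𝓞 K) * gen J p.1, gen_mem J p.1 p.2⟩, by
    intro h
    have h1 : (p.2 : 𝓞 K) * gen J p.1 = 0 := congrArg Subtype.val h
    rw [mul_eq_zero] at h1
    rcases h1 with h1 | h1
    · exact p.2.ne_zero h1
    · exact gen_ne_zero J p.1 h1⟩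

lemma genMap_apply (J : (Ideal (𝓞 K))⁰)
    (p : {I : (Ideal (𝓞 K))⁰ // ClassGroup.mk0 I = (ClassGroup.mk0 J)⁻¹} × (𝓞 K)ˣ) :
    (((genMap J p).1 : (J : Ideal (𝓞 K))) : 𝓞 K) = (p.2 : 𝓞 K) * gen J p.1 := rfl

lemma genMap_injective (J : (Ideal (𝓞 K))⁰) : Function.Injective (genMap J) := by
  rintro ⟨I, u⟩ ⟨I', u'⟩ h
  have h0 : (u : 𝓞 K) * gen J I = (u' : 𝓞 K) * gen J I' := by
    have h00 := genMap_apply J (I, u)
    rw [h, genMap_apply] at h00
    exact h00.symm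
  have h1 : Ideal.span {gen J I} = Ideal.span {gen J I'} := by
    rw [← Ideal.span_singleton_mul_left_unit u.isUnit (gen J I), h0,
      Ideal.span_singleton_mul_left_unit u'.isUnit]
  rw [← gen_spec, ← gen_spec] at h1
  have h2 : (I.1 : Ideal (𝓞 K)) = I'.1 := mul_right_cancel₀ (coe_ne_bot J) h1
  have h3 : I = I' := Subtype.ext (Subtype.ext h2)
  subst h3
  have h4 : (u : 𝓞 K) = u' := mul_right_cancel₀ (gen_ne_zero J I) h0
  rw [Units.ext h4]

lemma genMap_surjective (J : (Ideal (𝓞 K))⁰) : Function.Surjective (genMap J) := by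
  rintro ⟨⟨x, hxJ⟩, hx⟩
  have hx0 : x ≠ 0 := by
    intro h
    apply hx
    exact Subtype.ext h
  have hdvd : (J : Ideal (𝓞 K)) ∣ Ideal.span {x} :=
    Ideal.dvd_iff_le.mpr ((Ideal.span_singleton_le_iff_mem _).mpr hxJ)
  obtain ⟨I, hI⟩ := hdvd
  have hI0 : I ≠ 0 := by
    rintro rfl
    rw [mul_zero] at hI
    exact hx0 (Ideal.span_singleton_eq_bot.mp hI)
  let I' : (Ideal (𝓞 K))⁰ := ⟨I, mem_nonZeroDivisors_of_ne_zero hI0⟩
  have hcl : ClassGroup.mk0 I' = (ClassGroup.mk0 J)⁻¹ := by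
    rw [eq_inv_iff_mul_eq_one, ← map_mul]
    have hp : ((I' * J : (Ideal (𝓞 K))⁰) : Ideal (𝓞 K)).IsPrincipal := by
      refine ⟨x, ?_⟩
      change I * (J : Ideal (𝓞 K)) = _
      rw [mul_comm, ← hI]
    exact (ClassGroup.mk0_eq_one_iff (I' * J).2).mpr hp
  have hgen := gen_spec J ⟨I', hcl⟩
  have h1 : Ideal.span {x} = Ideal.span {gen J ⟨I', hcl⟩} := by
    rw [← hgen, hI, mul_comm]
  obtain ⟨u, hu⟩ := (Ideal.span_singleton_eq_span_singleton.mp h1)
  refine ⟨(⟨I', hcl⟩, u⁻¹), ?_⟩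
  apply Subtype.ext
  apply Subtype.ext
  rw [genMap_apply]
  change ((u⁻¹ : (𝓞 K)ˣ) : 𝓞 K) * gen J ⟨I', hcl⟩ = x
  rw [← hu, mul_comm x, Units.inv_mul_cancel_left]

/-- nonzero elements of `J` as unit multiples of the generators. -/
noncomputable def genEquiv (J : (Ideal (𝓞 K))⁰) :
    ({I : (Ideal (𝓞 K))⁰ // ClassGroup.mk0 I = (ClassGroup.mk0 J)⁻¹} × (𝓞 K)ˣ) ≃
      {x : (J : Ideal (𝓞 K)) // x ≠ 0} :=
  Equiv.ofBijective (genMap J) ⟨genMap_injective J, genMap_surjective J⟩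

lemma genEquiv_apply (J : (Ideal (𝓞 K))⁰)
    (p : {I : (Ideal (𝓞 K))⁰ // ClassGroup.mk0 I = (ClassGroup.mk0 J)⁻¹} × (𝓞 K)ˣ) :
    (((genEquiv J p).1 : (J : Ideal (𝓞 K))) : 𝓞 K) = (p.2 : 𝓞 K) * gen J p.1 := rfl

/-- norm term of an ideal -/
noncomputable def term (s : ℝ) (I : (Ideal (𝓞 K))⁰) : ℝ :=
  (Ideal.absNorm (I : Ideal (𝓞 K)) : ℝ) ^ (-s)

lemma term_nonneg (s : ℝ) (I : (Ideal (𝓞 K))⁰) : 0 ≤ term s I :=
  Real.rpow_nonneg (Nat.cast_nonneg _) _

lemma ennreal_identity (J : (Ideal (𝓞 K))⁰) (s : ℝ) :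
    ∑' x : (J : Ideal (𝓞 K)), ENNReal.ofReal (hh s ((x : 𝓞 K) : K))
      = torsionOrder K * (ENNReal.ofReal (term s J) *
        ∑' I : {I : (Ideal (𝓞 K))⁰ // ClassGroup.mk0 I = (ClassGroup.mk0 J)⁻¹},
          ENNReal.ofReal (term s I.1)) := by
  have e1 : ∑' x : (J : Ideal (𝓞 K)), ENNReal.ofReal (hh s ((x : 𝓞 K) : K))
      = ∑' x : {x : (J : Ideal (𝓞 K)) // x ≠ 0}, ENNReal.ofReal (hh s ((x.1 : 𝓞 K) : K)) := by
    symm
    apply tsum_subtype_eq_of_support_subset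
      (f := fun x : (J : Ideal (𝓞 K)) => ENNReal.ofReal (hh s ((x : 𝓞 K) : K)))
      (s := {x | x ≠ 0})
    intro x hx
    simp only [Set.mem_ofPred_eq]
    rintro rfl
    apply hx
    simp [hh_zero]
  rw [e1, ← Equiv.tsum_eq (genEquiv J)]
  have e2 := ENNReal.tsum_prod
    (f := fun (I : {I : (Ideal (𝓞 K))⁰ // ClassGroup.mk0 I = (ClassGroup.mk0 J)⁻¹}) (u : (𝓞 K)ˣ) =>
      ENNReal.ofReal (hh s (((genEquiv J (I, u)).1 : 𝓞 K) : K)))
  rw [e2, ← ENNReal.tsum_mul_left, ← ENNReal.tsum_mul_left]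
  refine tsum_congr fun I => ?_
  have hg : ((gen J I : 𝓞 K) : K) ≠ 0 := by simpa using gen_ne_zero J I
  have e3 : ∀ u : (𝓞 K)ˣ, ENNReal.ofReal (hh s (((genEquiv J (I, u)).1 : 𝓞 K) : K))
      = ENNReal.ofReal (wt ((u : K) * (gen J I : K))) *
        (ENNReal.ofReal (term s J) * ENNReal.ofReal (term s I.1)) := by
    intro u
    rw [genEquiv_apply]
    have : (((u : 𝓞 K) * gen J I : 𝓞 K) : K) = (u : K) * (gen J I : K) := by push_cast; rfl
    simp only [this]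
    unfold hh
    rw [ENNReal.ofReal_mul (wt_nonneg _), wt_unit_mul_nm, nm_eq_absNorm, ← gen_spec, map_mul]
    push_cast
    rw [Real.mul_rpow (Nat.cast_nonneg _) (Nat.cast_nonneg _), mul_comm (_ ^ _),
      ENNReal.ofReal_mul (p := (Ideal.absNorm (J : Ideal (𝓞 K)) : ℝ) ^ (-s)) (term_nonneg s J)]
    rfl
  simp_rw [e3]
  rw [ENNReal.tsum_mul_right, tsum_wt_units hg]

lemma real_identity (J : (Ideal (𝓞 K))⁰) {s : ℝ} (hs : 1 < s) :
    (Summable fun I : {I : (Ideal (𝓞 K))⁰ // ClassGroup.mk0 I = (ClassGroup.mk0 J)⁻¹} =>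
      term s I.1) ∧
    ∑' x : (J : Ideal (𝓞 K)), hh s ((x : 𝓞 K) : K)
      = torsionOrder K * (term s J *
        ∑' I : {I : (Ideal (𝓞 K))⁰ // ClassGroup.mk0 I = (ClassGroup.mk0 J)⁻¹}, term s I.1) := by
  have hsum : Summable fun x : (J : Ideal (𝓞 K)) => hh s ((x : 𝓞 K) : K) :=
    (summable_hh (K := K) hs).comp_injective Subtype.val_injective
  have h1 := ennreal_identity J s
  rw [← ENNReal.ofReal_tsum_of_nonneg (fun x => hh_nonneg _ _) hsum] at h1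
  have htj : 0 < term s J := by
    unfold term
    apply Real.rpow_pos_of_pos
    exact_mod_cast Ideal.absNorm_pos_of_nonZeroDivisors J
  have hto : (torsionOrder K : ENNReal) ≠ 0 := by
    exact_mod_cast (torsionOrder_pos K).ne'
  have hfin : ∑' I : {I : (Ideal (𝓞 K))⁰ // ClassGroup.mk0 I = (ClassGroup.mk0 J)⁻¹},
          ENNReal.ofReal (term s I.1) ≠ ⊤ := by
    intro htop
    rw [htop, ENNReal.mul_top (by simpa using htj), ENNReal.mul_top hto] at h1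
    exact ENNReal.ofReal_ne_top h1
  have hsumI : Summable fun I : {I : (Ideal (𝓞 K))⁰ //
      ClassGroup.mk0 I = (ClassGroup.mk0 J)⁻¹} => term s I.1 := by
    have := ENNReal.summable_toReal hfin
    refine this.congr fun I => ?_
    rw [ENNReal.toReal_ofReal (term_nonneg s _)]
  refine ⟨hsumI, ?_⟩
  rw [← ENNReal.ofReal_tsum_of_nonneg (fun I => term_nonneg s _) hsumI,
    ← ENNReal.ofReal_mul (term_nonneg s J), ← ENNReal.ofReal_natCast,
    ← ENNReal.ofReal_mul (Nat.cast_nonneg _)] at h1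
  have h2 := congrArg ENNReal.toReal h1
  rw [ENNReal.toReal_ofReal (tsum_nonneg fun x => hh_nonneg _ _), ENNReal.toReal_ofReal] at h2
  · exact h2
  · exact mul_nonneg (Nat.cast_nonneg _) (mul_nonneg (term_nonneg _ _)
      (tsum_nonneg fun I => term_nonneg _ _))

/-- partial zeta function of the class `C`. -/
noncomputable def ZC (C : ClassGroup (𝓞 K)) (s : ℝ) : ℝ :=
  ∑' I : {I : (Ideal (𝓞 K))⁰ // ClassGroup.mk0 I = C}, term s I.1

lemma class_identity (C : ClassGroup (𝓞 K)) : ∃ J : (Ideal (𝓞 K))⁰,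
    ∀ s : ℝ, 1 < s → (Summable fun I : {I : (Ideal (𝓞 K))⁰ // ClassGroup.mk0 I = C} =>
      term s I.1) ∧
    ∑' x : (J : Ideal (𝓞 K)), hh s ((x : 𝓞 K) : K) = torsionOrder K * (term s J * ZC C s) := by
  obtain ⟨J, hJ⟩ := ClassGroup.mk0_surjective C⁻¹
  have hC : (ClassGroup.mk0 J)⁻¹ = C := by rw [hJ, inv_inv]
  refine ⟨J, fun s hs => ?_⟩
  have := real_identity J hs
  rw [hC] at this
  exact this

lemma tsum_top {s : ℝ} (hs : 1 < s) :
    ∑' x : 𝓞 K, hh s (x : K) = torsionOrder K * ZC (K := K) 1 s := by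
  have h := (real_identity (1 : (Ideal (𝓞 K))⁰) hs).2
  rw [map_one, inv_one] at h
  have h1 : term s (1 : (Ideal (𝓞 K))⁰) = 1 := by
    unfold term
    simp
  rw [h1, one_mul] at h
  unfold ZC
  rw [← h]
  have e : (((1 : (Ideal (𝓞 K))⁰) : Ideal (𝓞 K)) : Set (𝓞 K)) = Set.univ := by
    simp
  symm
  let f : ((1 : (Ideal (𝓞 K))⁰) : Ideal (𝓞 K)) ≃ 𝓞 K :=
    Equiv.ofBijective Subtype.val ⟨Subtype.val_injective, fun x => ⟨⟨x, by simp⟩, rfl⟩⟩
  exact Equiv.tsum_eq f (fun x : 𝓞 K => hh s (x : K))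

/-- key bound: partial zeta functions differ by a bounded amount. -/
lemma ZC_diff (C : ClassGroup (𝓞 K)) :
    ∃ B : ℝ, 0 ≤ B ∧ ∀ s : ℝ, 1 < s → s ≤ 2 → |ZC C s - ZC (K := K) 1 s| ≤ B := by
  obtain ⟨J, hJ⟩ := class_identity C
  obtain ⟨c, hc0, hc⟩ := coset_compare (J : Ideal (𝓞 K)) (coe_ne_bot J)
  obtain ⟨c', hc'0, hc'⟩ := tsum_hh_le K
  set N : ℝ := (Ideal.absNorm (J : Ideal (𝓞 K)) : ℝ) with hN
  have hN1 : 1 ≤ N := by
    rw [hN]
    exact_mod_cast Ideal.absNorm_pos_of_nonZeroDivisors J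
  have hto : (1 : ℝ) ≤ torsionOrder K := by
    exact_mod_cast (torsionOrder_pos K)
  refine ⟨c * N + N ^ 2 * c', by positivity, fun s h1 h2 => ?_⟩
  have e1 := hc s h1 h2
  rw [(hJ s h1).2, tsum_top h1] at e1
  have e2 := hc' s h1 h2
  rw [tsum_top h1] at e2
  set w : ℝ := (torsionOrder K : ℝ) with hw
  set Z1 : ℝ := ZC (K := K) 1 s with hZ1
  set Z : ℝ := ZC C s with hZ
  have hZ10 : 0 ≤ Z1 := tsum_nonneg fun I => term_nonneg _ _
  -- `q = N^{s-1}`
  set q : ℝ := N ^ (s - 1) with hq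
  have hq1 : 1 ≤ q := Real.one_le_rpow hN1 (by linarith)
  have hqN : q ≤ N := by
    calc q ≤ N ^ (1 : ℝ) := Real.rpow_le_rpow_of_exponent_le hN1 (by linarith)
      _ = N := Real.rpow_one N
  have ht : N * term s J = q⁻¹ := by
    unfold term
    rw [← hN, hq, ← Real.rpow_neg (by linarith), neg_sub]
    rw [show (1 - s) = 1 + -s by ring, Real.rpow_add (by linarith), Real.rpow_one]
  have e3 : w * Z1 - N * (w * (term s J * Z)) = w * (Z1 - q⁻¹ * Z) := by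
    rw [← ht]
    ring
  rw [e3, abs_mul, abs_of_nonneg (by linarith : (0:ℝ) ≤ w)] at e1
  have e4 : |Z1 - q⁻¹ * Z| ≤ c := by
    have := mul_le_mul_of_nonneg_right hto (abs_nonneg (Z1 - q⁻¹ * Z))
    linarith
  have hq0 : q ≠ 0 := by linarith
  have e5 : |Z - q * Z1| ≤ c * N := by
    have : Z - q * Z1 = -(q * (Z1 - q⁻¹ * Z)) := by
      field_simp
      ring
    rw [this, abs_neg, abs_mul, abs_of_nonneg (by linarith : (0:ℝ) ≤ q), mul_comm c]
    exact mul_le_mul hqN e4 (abs_nonneg _) (by linarith)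
  -- `q - 1 ≤ (s-1) N^2`
  have e6 : q - 1 ≤ (s - 1) * N ^ 2 := by
    have hlog : Real.log N ≤ N := (Real.log_le_sub_one_of_pos (by linarith)).trans (by linarith)
    have hlog0 : 0 ≤ Real.log N := Real.log_nonneg hN1
    have hqe : q = Real.exp ((s - 1) * Real.log N) := by
      rw [hq, Real.rpow_def_of_pos (by linarith), mul_comm]
    have h3 : 1 - (s - 1) * Real.log N ≤ q⁻¹ := by
      rw [hqe, ← Real.exp_neg]
      have := Real.add_one_le_exp (-((s - 1) * Real.log N))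
      linarith
    have h4 : q - 1 ≤ q * ((s - 1) * Real.log N) := by
      have := mul_le_mul_of_nonneg_left h3 (by linarith : (0:ℝ) ≤ q)
      rw [mul_inv_cancel₀ hq0] at this
      linarith
    refine h4.trans ?_
    have h5 : (s - 1) * Real.log N ≤ (s - 1) * N :=
      mul_le_mul_of_nonneg_left hlog (by linarith)
    calc q * ((s - 1) * Real.log N) ≤ N * ((s - 1) * N) :=
          mul_le_mul hqN h5 (mul_nonneg (by linarith) hlog0) (by linarith)
      _ = (s - 1) * N ^ 2 := by ring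
  have e7 : |q * Z1 - Z1| ≤ N ^ 2 * c' := by
    have : q * Z1 - Z1 = (q - 1) * Z1 := by ring
    rw [this, abs_of_nonneg (mul_nonneg (by linarith) hZ10)]
    have h3 : (s - 1) * Z1 ≤ c' := by
      have h4 : (s - 1) * Z1 ≤ (s - 1) * (w * Z1) := by
        refine mul_le_mul_of_nonneg_left ?_ (by linarith)
        nlinarith
      linarith
    calc (q - 1) * Z1 ≤ (s - 1) * N ^ 2 * Z1 := mul_le_mul_of_nonneg_right e6 hZ10
      _ = N ^ 2 * ((s - 1) * Z1) := by ring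
      _ ≤ N ^ 2 * c' := mul_le_mul_of_nonneg_left h3 (by positivity)
  have e8 : Z - Z1 = (Z - q * Z1) + (q * Z1 - Z1) := by ring
  rw [e8]
  exact (abs_add_le _ _).trans (add_le_add e5 e7)

lemma summable_term (K : Type) [Field K] [NumberField K] {s : ℝ} (hs : 1 < s) :
    Summable fun I : (Ideal (𝓞 K))⁰ => term (K := K) s I := by
  rw [← Equiv.summable_iff (Equiv.sigmaFiberEquiv
    (ClassGroup.mk0 : (Ideal (𝓞 K))⁰ → ClassGroup (𝓞 K)))]
  refine (summable_sigma_of_nonneg (fun x => term_nonneg _ _)).mpr ⟨fun C => ?_, ?_⟩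
  · obtain ⟨J, hJ⟩ := class_identity C
    exact (hJ s hs).1
  · exact Summable.of_finite

/-- the character sum as combination of partial zeta functions -/
lemma tsum_char (f : ClassGroup (𝓞 K) → ℝ) {s : ℝ} (hs : 1 < s) :
    (Summable fun I : (Ideal (𝓞 K))⁰ => f (ClassGroup.mk0 I) * term s I) ∧
    ∑' I : (Ideal (𝓞 K))⁰, f (ClassGroup.mk0 I) * term s I
      = ∑ C : ClassGroup (𝓞 K), f C * ZC C s := by
  classical
  have hsum : Summable fun I : (Ideal (𝓞 K))⁰ => f (ClassGroup.mk0 I) * term s I := by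
    refine Summable.of_norm_bounded ((summable_term K hs).mul_left (∑ C, |f C|)) fun I => ?_
    rw [norm_mul, Real.norm_eq_abs, Real.norm_eq_abs, abs_of_nonneg (term_nonneg s I)]
    refine mul_le_mul_of_nonneg_right ?_ (term_nonneg s I)
    exact Finset.single_le_sum (f := fun C => |f C|) (fun C _ => abs_nonneg _) (Finset.mem_univ _)
  refine ⟨hsum, ?_⟩
  have hsum' := (Equiv.summable_iff (Equiv.sigmaFiberEquiv
    (ClassGroup.mk0 : (Ideal (𝓞 K))⁰ → ClassGroup (𝓞 K)))).mpr hsum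
  rw [← Equiv.tsum_eq (Equiv.sigmaFiberEquiv
    (ClassGroup.mk0 : (Ideal (𝓞 K))⁰ → ClassGroup (𝓞 K)))]
  have h1 := hsum'.tsum_sigma
  refine (h1.trans ?_)
  rw [tsum_fintype]
  refine Finset.sum_congr rfl fun C _ => ?_
  unfold ZC
  rw [← tsum_mul_left]
  refine tsum_congr fun I => ?_
  simp only [Function.comp_apply, Equiv.sigmaFiberEquiv_apply, I.2]

end Crest.Agent.HB.LB
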