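import Crest.Agent.HB.NFDefs
import Crest.Agent.HB.LBound_F

/-! Row 32 (S0042), chunk T1: `L(s, ψ)` is bounded near `s = 1` for a nontrivial class group
character. -/
set_option autoImplicit false

open NumberField IsDedekindDomain
open scoped nonZeroDivisors

namespace Crest.Agent.HB

/-- For a nontrivial quadratic character `ψ` of the ideal class group of a (totally complex) number
field, `∑_I ψ(I) N(I)^{-s}` stays bounded for `1 < s ≤ 2`.

Proof (`LBound_A` ... `LBound_F`): for an ideal `J` of class `C⁻¹`,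
`torsionOrder · N(J)^{-s} · Z_C(s) = ∑_{x ∈ J} h_s(x)`, `h_s(x) = w(x)|N x|^{-s}` with `w` a
partition of unity (tents in log coordinates) for the units. Lipschitz estimate of `h_s` gives
`∑_{𝓞} h_s = N(J) ∑_J h_s + O(1)`, hence `Z_C(s) - Z_1(s) = O(1)`. -/
theorem L_bounded (k : Type) [Field k] [NumberField k] (hk : TotComplex k)
    (ψ : ClassGroup (𝓞 k) →* ℤˣ) (hψ : ψ ≠ 1) :
    ∃ B : ℝ, ∀ s : ℝ, 1 < s → s ≤ 2 →
      |∑' I : (Ideal (𝓞 k))⁰, (((ψ (ClassGroup.mk0 I) : ℤˣ) : ℤ) : ℝ) *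
        (Ideal.absNorm (I : Ideal (𝓞 k)) : ℝ) ^ (-s)| ≤ B := by
  classical
  choose B hB0 hB using fun C : ClassGroup (𝓞 k) => LB.ZC_diff C
  let χ : ClassGroup (𝓞 k) →* ℝ :=
    ((Int.castRingHom ℝ : ℤ →+* ℝ) : ℤ →* ℝ).comp ((Units.coeHom ℤ).comp ψ)
  have hχ : ∀ C, χ C = (((ψ C : ℤˣ) : ℤ) : ℝ) := fun C => rfl
  have hχ1 : χ ≠ 1 := by
    intro h
    apply hψ
    ext C
    have h1 : χ C = 1 := by rw [h]; rfl
    rw [hχ] at h1
    simpa using (Int.cast_eq_one.mp h1)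
  have hsum0 : ∑ C, χ C = 0 := sum_hom_units_eq_zero χ hχ1
  have habs : ∀ C, |χ C| = 1 := by
    intro C
    rw [hχ]
    rcases Int.units_eq_one_or (ψ C) with h | h <;> simp [h]
  refine ⟨∑ C, B C, fun s h1 h2 => ?_⟩
  have e1 := (LB.tsum_char (K := k) (fun C => χ C) h1).2
  have e2 : ∑ C : ClassGroup (𝓞 k), χ C * LB.ZC C s
      = ∑ C : ClassGroup (𝓞 k), χ C * (LB.ZC C s - LB.ZC (K := k) 1 s) := by
    simp_rw [mul_sub]
    rw [Finset.sum_sub_distrib, ← Finset.sum_mul, hsum0, zero_mul, sub_zero]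
  have e3 : ∑' I : (Ideal (𝓞 k))⁰, (((ψ (ClassGroup.mk0 I) : ℤˣ) : ℤ) : ℝ) *
        (Ideal.absNorm (I : Ideal (𝓞 k)) : ℝ) ^ (-s)
      = ∑ C : ClassGroup (𝓞 k), χ C * (LB.ZC C s - LB.ZC (K := k) 1 s) := by
    rw [← e2, ← e1]
    rfl
  rw [e3]
  refine (Finset.abs_sum_le_sum_abs _ _).trans (Finset.sum_le_sum fun C _ => ?_)
  rw [abs_mul, habs, one_mul]
  exact hB C s h1 h2

end Crest.Agent.HB
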