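import Mathlib

/-! Row 32 (S0042), chunk T1, part A: the weight function on a number field. -/
set_option autoImplicit false

open NumberField NumberField.mixedEmbedding NumberField.Units
  NumberField.Units.dirichletUnitTheorem
open scoped nonZeroDivisors

namespace Crest.Agent.HB.LB

/-! ### The tent function -/

/-- tent function -/
noncomputable def tri (t : ℝ) : ℝ := max 0 (1 - |t|)

lemma tri_nonneg (t : ℝ) : 0 ≤ tri t := le_max_left _ _

lemma tri_le_one (t : ℝ) : tri t ≤ 1 := by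
  unfold tri
  exact max_le zero_le_one (by linarith [abs_nonneg t])

lemma tri_lip (s t : ℝ) : |tri s - tri t| ≤ |s - t| := by
  unfold tri
  have h := abs_max_sub_max_le_abs 0 0 (1 - |s|)
  have h1 : |max 0 (1 - |s|) - max 0 (1 - |t|)| ≤ |(1 - |s|) - (1 - |t|)| := by
    have := abs_max_sub_max_le_max 0 (1 - |s|) 0 (1 - |t|)
    simpa using this
  refine h1.trans ?_
  have : (1 - |s|) - (1 - |t|) = -(|s| - |t|) := by ring
  rw [this, abs_neg]
  exact abs_abs_sub_abs_le s t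

lemma tri_ne_zero {t : ℝ} (h : tri t ≠ 0) : |t| < 1 := by
  by_contra hcon
  apply h
  unfold tri
  exact max_eq_left (by linarith)

lemma tri_sum (t : ℝ) : ∑ e ∈ ({⌊-t⌋, ⌊-t⌋ + 1} : Finset ℤ), tri (t + e) = 1 := by
  rw [Finset.sum_pair (by simp)]
  have h1 : (⌊-t⌋ : ℝ) ≤ -t := Int.floor_le _
  have h2 : -t < ⌊-t⌋ + 1 := Int.lt_floor_add_one _
  unfold tri
  push_cast
  rw [abs_of_nonpos (by linarith : t + (⌊-t⌋ : ℝ) ≤ 0),
    abs_of_nonneg (by linarith : 0 ≤ t + ((⌊-t⌋ : ℝ) + 1)), max_eq_right (by linarith),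
    max_eq_right (by linarith)]
  ring

lemma tri_eq_zero_of_notMem {t : ℝ} {e : ℤ} (h : e ∉ ({⌊-t⌋, ⌊-t⌋ + 1} : Finset ℤ)) :
    tri (t + e) = 0 := by
  by_contra hcon
  have := tri_ne_zero hcon
  rw [abs_lt] at this
  apply h
  have h1 : (⌊-t⌋ : ℝ) ≤ -t := Int.floor_le _
  have h2 : -t < ⌊-t⌋ + 1 := Int.lt_floor_add_one _
  have h3 : (e : ℝ) < (⌊-t⌋ + 2 : ℤ) := by push_cast; linarith
  have h4 : ((⌊-t⌋ - 1 : ℤ) : ℝ) < e := by push_cast; linarith
  have h5 := Int.cast_lt.mp h3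
  have h6 := Int.cast_lt.mp h4
  simp only [Finset.mem_insert, Finset.mem_singleton]
  omega

/-- product of tents -/
noncomputable def tent {r : ℕ} (c : Fin r → ℝ) : ℝ := ∏ i, tri (c i)

lemma tent_nonneg {r : ℕ} (c : Fin r → ℝ) : 0 ≤ tent c :=
  Finset.prod_nonneg fun i _ => tri_nonneg _

lemma tent_le_one {r : ℕ} (c : Fin r → ℝ) : tent c ≤ 1 :=
  Finset.prod_le_one (fun i _ => tri_nonneg _) fun i _ => tri_le_one _

lemma tent_ne_zero {r : ℕ} {c : Fin r → ℝ} (h : tent c ≠ 0) : ‖c‖ ≤ 1 := by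
  rw [pi_norm_le_iff_of_nonneg zero_le_one]
  intro i
  rw [Real.norm_eq_abs]
  exact (tri_ne_zero (Finset.prod_ne_zero_iff.mp h i (Finset.mem_univ i))).le

lemma tent_lip {r : ℕ} (c d : Fin r → ℝ) : |tent c - tent d| ≤ r * ‖c - d‖ := by
  have key : ∀ s : Finset (Fin r), |∏ i ∈ s, tri (c i) - ∏ i ∈ s, tri (d i)| ≤ s.card * ‖c - d‖ := by
    intro s
    classical
    induction s using Finset.induction_on with
    | empty => simp
    | insert a s ha ih =>
      rw [Finset.prod_insert ha, Finset.prod_insert ha, Finset.card_insert_of_notMem ha]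
      have e : tri (c a) * ∏ i ∈ s, tri (c i) - tri (d a) * ∏ i ∈ s, tri (d i)
          = tri (c a) * (∏ i ∈ s, tri (c i) - ∏ i ∈ s, tri (d i))
            + (tri (c a) - tri (d a)) * ∏ i ∈ s, tri (d i) := by ring
      rw [e]
      refine (abs_add_le _ _).trans ?_
      rw [abs_mul, abs_mul, abs_of_nonneg (tri_nonneg (c a)),
        abs_of_nonneg (Finset.prod_nonneg fun i _ => tri_nonneg (d i))]
      have h1 : tri (c a) * |∏ i ∈ s, tri (c i) - ∏ i ∈ s, tri (d i)| ≤ 1 * (s.card * ‖c - d‖) :=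
        mul_le_mul (tri_le_one _) ih (abs_nonneg _) zero_le_one
      have h2 : |tri (c a) - tri (d a)| ≤ ‖c - d‖ := by
        refine (tri_lip _ _).trans ?_
        rw [← Real.norm_eq_abs]
        exact norm_le_pi_norm (c - d) a
      have h3 : |tri (c a) - tri (d a)| * ∏ i ∈ s, tri (d i) ≤ ‖c - d‖ * 1 :=
        mul_le_mul h2 (Finset.prod_le_one (fun i _ => tri_nonneg _) fun i _ => tri_le_one _)
          (Finset.prod_nonneg fun i _ => tri_nonneg _) (norm_nonneg _)
      push_cast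
      linarith
  have := key Finset.univ
  simpa [tent] using this

lemma tsum_tent {r : ℕ} (c : Fin r → ℝ) :
    ∑' e : Fin r → ℤ, ENNReal.ofReal (tent (fun i => c i + e i)) = 1 := by
  classical
  rw [tsum_eq_sum (s := Fintype.piFinset fun i => ({⌊-c i⌋, ⌊-c i⌋ + 1} : Finset ℤ))]
  · rw [← ENNReal.ofReal_sum_of_nonneg (fun e _ => tent_nonneg _)]
    unfold tent
    rw [← Finset.prod_univ_sum (fun i => ({⌊-c i⌋, ⌊-c i⌋ + 1} : Finset ℤ))
      (fun i e => tri (c i + e))]
    rw [Finset.prod_congr rfl (fun i _ => tri_sum (c i))]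
    simp
  · intro e he
    rw [Fintype.mem_piFinset] at he
    push Not at he
    obtain ⟨i, hi⟩ := he
    have : tent (fun i => c i + e i) = 0 :=
      Finset.prod_eq_zero (Finset.mem_univ i) (tri_eq_zero_of_notMem hi)
    rw [this, ENNReal.ofReal_zero]

end Crest.Agent.HB.LB
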