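import Crest.Agent.HB.LBound_A

/-! Row 32 (S0042), chunk T1, part B: log coordinates and the weight on `𝓞 K`. -/
set_option autoImplicit false

open NumberField NumberField.mixedEmbedding NumberField.Units
  NumberField.Units.dirichletUnitTheorem
open scoped nonZeroDivisors

namespace Crest.Agent.HB.LB

variable (K : Type) [Field K] [NumberField K]

/-- the coordinate map of the log space with respect to the unit lattice -/
noncomputable def crdL : logSpace K →L[ℝ] (Fin (rank K) → ℝ) := by
  classical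
  exact LinearMap.toContinuousLinearMap
    (((basisUnitLattice K).ofZLatticeBasis ℝ (unitLattice K)).equivFun).toLinearMap

/-- its inverse -/
noncomputable def crdI : (Fin (rank K) → ℝ) →L[ℝ] logSpace K := by
  classical
  exact LinearMap.toContinuousLinearMap
    (((basisUnitLattice K).ofZLatticeBasis ℝ (unitLattice K)).equivFun.symm).toLinearMap

lemma crdI_crdL (x : logSpace K) : crdI K (crdL K x) = x := by
  classical
  exact LinearEquiv.symm_apply_apply
    (((basisUnitLattice K).ofZLatticeBasis ℝ (unitLattice K)).equivFun) x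

/-- log coordinates of `x`. -/
noncomputable def crd (x : K) : Fin (rank K) → ℝ := crdL K (logMap (mixedEmbedding K x))

variable {K}

lemma norm_ne_zero' {x : K} (hx : x ≠ 0) : mixedEmbedding.norm (mixedEmbedding K x) ≠ 0 := by
  rw [norm_eq_norm]
  simpa [Algebra.norm_eq_zero_iff] using hx

lemma crd_mul {x y : K} (hx : x ≠ 0) (hy : y ≠ 0) : crd K (x * y) = crd K x + crd K y := by
  unfold crd
  rw [map_mul, logMap_mul (norm_ne_zero' hx) (norm_ne_zero' hy), map_add]

lemma crd_torsion {ζ : (𝓞 K)ˣ} (hζ : ζ ∈ torsion K) : crd K ζ = 0 := by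
  unfold crd
  rw [logMap_eq_logEmbedding, (logEmbedding_eq_zero_iff).mpr hζ, map_zero]

lemma crd_fund (i : Fin (rank K)) : crd K (fundSystem K i) = Pi.single i 1 := by
  classical
  unfold crd
  rw [logMap_eq_logEmbedding, logEmbedding_fundSystem]
  have : ((basisUnitLattice K i : unitLattice K) : logSpace K)
      = (basisUnitLattice K).ofZLatticeBasis ℝ (unitLattice K) i := by
    rw [Module.Basis.ofZLatticeBasis_apply]
  rw [this]
  unfold crdL
  ext j
  simp [Pi.single_apply, Finsupp.single_apply, eq_comm]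

lemma crd_one : crd K 1 = 0 := by
  unfold crd
  rw [map_one, logMap_one, map_zero]

lemma crd_unit_mul (u v : (𝓞 K)ˣ) : crd K ((u * v : (𝓞 K)ˣ) : K) = crd K u + crd K v := by
  rw [← crd_mul (by simp) (by simp)]
  congr 1

/-- log coordinates as a hom from units -/
noncomputable def crdHom : Additive (𝓞 K)ˣ →+ (Fin (rank K) → ℝ) where
  toFun u := crd K ((Additive.toMul u : (𝓞 K)ˣ) : K)
  map_zero' := by simpa using crd_one (K := K)
  map_add' u v := by simpa using crd_unit_mul (Additive.toMul u) (Additive.toMul v)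

lemma crdHom_apply (u : (𝓞 K)ˣ) : crdHom (Additive.ofMul u) = crd K (u : K) := rfl

lemma crd_unit {ζ : (𝓞 K)ˣ} (hζ : ζ ∈ torsion K) (e : Fin (rank K) → ℤ) :
    crd K ((ζ * ∏ i, (fundSystem K i) ^ (e i) : (𝓞 K)ˣ) : K) = fun i => (e i : ℝ) := by
  rw [crd_unit_mul, crd_torsion hζ, zero_add]
  have h : crdHom (K := K) (Additive.ofMul (∏ i, (fundSystem K i) ^ (e i)))
      = ∑ i, (e i) • crdHom (K := K) (Additive.ofMul (fundSystem K i)) := by
    rw [ofMul_prod, map_sum]
    refine Finset.sum_congr rfl fun i _ => ?_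
    rw [ofMul_zpow, map_zsmul]
  rw [← crdHom_apply, h]
  ext j
  have h3 : ∀ i, crdHom (K := K) (Additive.ofMul (fundSystem K i)) = Pi.single i 1 :=
    fun i => crd_fund i
  rw [Finset.sum_apply, Finset.sum_eq_single j]
  · simp [h3]
  · intro i _ hij
    simp [h3, Pi.single_apply, hij.symm]
  · simp

/-- Dirichlet: units are `torsion × ℤ^r`. -/
noncomputable def unitsEquiv : (torsion K × (Fin (rank K) → ℤ)) ≃ (𝓞 K)ˣ :=
  Equiv.ofBijective (fun p => p.1 * ∏ i, (fundSystem K i) ^ (p.2 i)) (by
    constructor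
    · intro p q h
      obtain ⟨z, hz, hz'⟩ := exist_unique_eq_mul_prod K
        ((p.1 : (𝓞 K)ˣ) * ∏ i, (fundSystem K i) ^ (p.2 i))
      rw [hz' p rfl, hz' q h]
    · intro x
      obtain ⟨z, hz, -⟩ := exist_unique_eq_mul_prod K x
      exact ⟨z, hz.symm⟩)

lemma crd_unitsEquiv (p : torsion K × (Fin (rank K) → ℤ)) :
    crd K ((unitsEquiv p : (𝓞 K)ˣ) : K) = fun i => (p.2 i : ℝ) := by
  unfold unitsEquiv
  exact crd_unit p.1.2 p.2

open scoped Classical in
/-- the weight of `x`. -/
noncomputable def wt (x : K) : ℝ := if x = 0 then 0 else tent (crd K x)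

lemma wt_zero : wt (0 : K) = 0 := by simp [wt]

lemma wt_of_ne {x : K} (hx : x ≠ 0) : wt x = tent (crd K x) := by simp [wt, hx]

lemma wt_nonneg (x : K) : 0 ≤ wt x := by
  unfold wt
  split_ifs
  · exact le_rfl
  · exact tent_nonneg _

lemma wt_le_one (x : K) : wt x ≤ 1 := by
  unfold wt
  split_ifs
  · exact zero_le_one
  · exact tent_le_one _

/-- The sum of the weights over associates is the number of roots of unity. -/
lemma tsum_wt_units {x : K} (hx : x ≠ 0) :
    ∑' u : (𝓞 K)ˣ, ENNReal.ofReal (wt ((u : K) * x)) = torsionOrder K := by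
  classical
  have h : ∀ (a : torsion K) (b : Fin (rank K) → ℤ),
      ENNReal.ofReal (wt (((unitsEquiv (a, b) : (𝓞 K)ˣ) : K) * x))
        = ENNReal.ofReal (tent (fun i => crd K x i + b i)) := by
    intro a b
    rw [wt_of_ne (mul_ne_zero (by simp) hx), crd_mul (by simp) hx, crd_unitsEquiv]
    congr 2
    ext i
    simp [add_comm]
  rw [← Equiv.tsum_eq (unitsEquiv (K := K))]
  have h2 := ENNReal.tsum_prod (f := fun (a : torsion K) (b : Fin (rank K) → ℤ) =>
    ENNReal.ofReal (wt (((unitsEquiv (a, b) : (𝓞 K)ˣ) : K) * x)))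
  rw [h2]
  simp_rw [h, tsum_tent]
  have : Fintype (torsion K) := Fintype.ofFinite _
  rw [tsum_fintype]
  simp [torsionOrder, Nat.card_eq_fintype_card]

end Crest.Agent.HB.LB
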