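import Crest.Agent.HB.LBound_B

/-! Row 32 (S0042), chunk T1, part C: metric estimates. -/
set_option autoImplicit false

open NumberField NumberField.mixedEmbedding NumberField.Units
  NumberField.Units.dirichletUnitTheorem NumberField.InfinitePlace Module
open scoped nonZeroDivisors

namespace Crest.Agent.HB.LB

variable {K : Type} [Field K] [NumberField K]

/-- sup norm of `x`. -/
noncomputable def mx (x : K) : ℝ :=
  Finset.univ.sup' Finset.univ_nonempty fun w : InfinitePlace K => w x

open scoped Classical in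
lemma mx_eq (x : K) : mx x = ‖mixedEmbedding K x‖ := by
  rw [norm_eq_sup'_normAtPlace]
  unfold mx
  simp_rw [normAtPlace_apply]

/-- absolute norm of `x`. -/
noncomputable def nm (x : K) : ℝ := mixedEmbedding.norm (mixedEmbedding K x)

lemma nm_eq_prod (x : K) : nm x = ∏ w : InfinitePlace K, w x ^ mult w := by
  unfold nm
  rw [mixedEmbedding.norm_apply]
  simp_rw [normAtPlace_apply]

lemma nm_nonneg (x : K) : 0 ≤ nm x := mixedEmbedding.norm_nonneg _

lemma nm_pos {x : K} (hx : x ≠ 0) : 0 < nm x := lt_of_le_of_ne (nm_nonneg x) (norm_ne_zero' hx).symm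

lemma le_mx (w : InfinitePlace K) (x : K) : w x ≤ mx x := by
  exact Finset.le_sup' (fun w : InfinitePlace K => w x) (Finset.mem_univ w)

lemma exists_mx_eq (x : K) : ∃ w : InfinitePlace K, mx x = w x := by
  obtain ⟨w, -, hw⟩ := Finset.exists_mem_eq_sup' Finset.univ_nonempty
    (fun w : InfinitePlace K => w x)
  exact ⟨w, hw⟩

lemma mx_nonneg (x : K) : 0 ≤ mx x := by
  classical
  rw [mx_eq]
  exact norm_nonneg _

lemma mx_zero : mx (0 : K) = 0 := by
  classical
  rw [mx_eq, map_zero, norm_zero]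

lemma mx_pos {x : K} (hx : x ≠ 0) : 0 < mx x := by
  classical
  rw [mx_eq, norm_pos_iff]
  simpa using hx

lemma mx_add_le (x y : K) : mx (x + y) ≤ mx x + mx y := by
  classical
  rw [mx_eq, mx_eq, mx_eq, map_add]
  exact norm_add_le _ _

lemma log_nm {x : K} (hx : x ≠ 0) :
    Real.log (nm x) = ∑ w : InfinitePlace K, mult w * Real.log (w x) := by
  rw [nm_eq_prod, Real.log_prod]
  · refine Finset.sum_congr rfl fun w _ => ?_
    rw [Real.log_pow]
  · intro w _
    exact pow_ne_zero _ (by simpa using hx)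

lemma logMap_eq {x : K} (w : {w : InfinitePlace K // w ≠ w₀}) :
    logMap (mixedEmbedding K x) w =
      mult w.1 * (Real.log (w.1 x) - Real.log (nm x) * (finrank ℚ K : ℝ)⁻¹) := by
  rw [logMap_apply, normAtPlace_apply]
  rfl

lemma finrank_pos' : (0 : ℝ) < finrank ℚ K := by exact_mod_cast (finrank_pos : 0 < finrank ℚ K)

lemma sum_mult_real : ∑ w : InfinitePlace K, (mult w : ℝ) = finrank ℚ K := by
  rw [← sum_mult_eq]
  push_cast
  rfl

omit [NumberField K] in
lemma mult_le_two (w : InfinitePlace K) : (mult w : ℝ) ≤ 2 := by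
  unfold mult
  split_ifs <;> norm_num

/-- on the support of the weight all places are comparable -/
lemma support_bound (K : Type) [Field K] [NumberField K] :
    ∃ κ : ℝ, 0 < κ ∧ κ ≤ 1 ∧ ∀ x : K, wt x ≠ 0 → ∀ w : InfinitePlace K, κ * mx x ≤ w x := by
  classical
  set B : ℝ := ‖crdI K‖ with hB
  have hB0 : 0 ≤ B := norm_nonneg _
  set M : ℝ := (Fintype.card {w : InfinitePlace K // w ≠ w₀} + 1) * B with hM
  have hM0 : 0 ≤ M := by positivity
  have hBM : B ≤ M := by
    rw [hM]
    nlinarith [(Nat.cast_nonneg (Fintype.card {w : InfinitePlace K // w ≠ w₀}) :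
      (0:ℝ) ≤ Fintype.card {w : InfinitePlace K // w ≠ w₀})]
  refine ⟨Real.exp (-(2 * M)), Real.exp_pos _, Real.exp_le_one_iff.mpr (by linarith), ?_⟩
  intro x hx
  have hx0 : x ≠ 0 := by
    rintro rfl
    exact hx wt_zero
  have h1 : ‖crd K x‖ ≤ 1 := by
    rw [wt_of_ne hx0] at hx
    exact tent_ne_zero hx
  have h2 : ‖logMap (mixedEmbedding K x)‖ ≤ B := by
    rw [← crdI_crdL K (logMap (mixedEmbedding K x))]
    refine ((crdI K).le_opNorm _).trans ?_
    calc ‖crdI K‖ * ‖crdL K (logMap (mixedEmbedding K x))‖ ≤ B * 1 :=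
          mul_le_mul_of_nonneg_left h1 hB0
      _ = B := mul_one _
  set L : ℝ := Real.log (nm x) * (finrank ℚ K : ℝ)⁻¹ with hL
  have hsum : ∑ w : InfinitePlace K, (mult w : ℝ) * (Real.log (w x) - L) = 0 := by
    simp_rw [mul_sub]
    rw [Finset.sum_sub_distrib, ← log_nm hx0, ← Finset.sum_mul, sum_mult_real, hL]
    field_simp [(finrank_pos' (K := K)).ne']
    ring
  have h3 : ∀ w : {w : InfinitePlace K // w ≠ w₀}, |(mult w.1 : ℝ) * (Real.log (w.1 x) - L)| ≤ B := by
    intro w
    have := (norm_le_pi_norm (logMap (mixedEmbedding K x)) w).trans h2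
    rwa [logMap_eq, Real.norm_eq_abs] at this
  have h4 : ∀ w : InfinitePlace K, |(mult w : ℝ) * (Real.log (w x) - L)| ≤ M := by
    intro w
    by_cases hw : w = w₀
    · subst hw
      rw [← Finset.add_sum_erase _ _ (Finset.mem_univ w₀)] at hsum
      have e : (mult (w₀ : InfinitePlace K) : ℝ) * (Real.log (w₀ x) - L)
          = -∑ w ∈ Finset.univ.erase w₀, (mult w : ℝ) * (Real.log (w x) - L) := by linarith
      rw [e, abs_neg]
      refine (Finset.abs_sum_le_sum_abs _ _).trans ?_
      refine (Finset.sum_le_card_nsmul _ _ B ?_).trans ?_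
      · intro w hw
        exact h3 ⟨w, Finset.ne_of_mem_erase hw⟩
      · rw [Finset.card_erase_of_mem (Finset.mem_univ _), nsmul_eq_mul, hM]
        refine mul_le_mul_of_nonneg_right ?_ hB0
        rw [Fintype.card_subtype_compl]
        simp only [Finset.card_univ]
        have : Fintype.card { w : InfinitePlace K // w = w₀ } = 1 := Fintype.card_unique
        rw [this]
        linarith
    · exact (h3 ⟨w, hw⟩).trans hBM
  have h5 : ∀ w : InfinitePlace K, |Real.log (w x) - L| ≤ M := by
    intro w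
    have := h4 w
    rw [abs_mul, abs_of_nonneg (by positivity : (0:ℝ) ≤ mult w)] at this
    have h6 : 1 * |Real.log (w x) - L| ≤ (mult w : ℝ) * |Real.log (w x) - L| :=
      mul_le_mul_of_nonneg_right one_le_mult (abs_nonneg _)
    linarith
  intro w
  obtain ⟨w', hw'⟩ := exists_mx_eq x
  rw [hw']
  have h6 := abs_le.mp (h5 w)
  have h7 := abs_le.mp (h5 w')
  have hp : 0 < w x := by
    have : w x ≠ 0 := by simpa using hx0
    exact lt_of_le_of_ne (AbsoluteValue.nonneg w.1 x) this.symm
  have hp' : 0 < w' x := by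
    have : w' x ≠ 0 := by simpa using hx0
    exact lt_of_le_of_ne (AbsoluteValue.nonneg w'.1 x) this.symm
  calc Real.exp (-(2 * M)) * w' x = Real.exp (-(2 * M)) * Real.exp (Real.log (w' x)) := by
        rw [Real.exp_log hp']
    _ = Real.exp (-(2 * M) + Real.log (w' x)) := by rw [← Real.exp_add]
    _ ≤ Real.exp (Real.log (w x)) := Real.exp_le_exp.mpr (by linarith)
    _ = w x := Real.exp_log hp

end Crest.Agent.HB.LB
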