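import Crest.Agent.HB.LBound_C

/-! Row 32 (S0042), chunk T1, part D: Lipschitz estimate for the summand. -/
set_option autoImplicit false

open NumberField NumberField.mixedEmbedding NumberField.Units
  NumberField.Units.dirichletUnitTheorem NumberField.InfinitePlace Module
open scoped nonZeroDivisors

namespace Crest.Agent.HB.LB

variable {K : Type} [Field K] [NumberField K]

/-- the summand. -/
noncomputable def hh (s : ℝ) (x : K) : ℝ := wt x * nm x ^ (-s)

lemma hh_nonneg (s : ℝ) (x : K) : 0 ≤ hh s x :=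
  mul_nonneg (wt_nonneg x) (Real.rpow_nonneg (nm_nonneg x) _)

lemma hh_zero (s : ℝ) : hh s (0 : K) = 0 := by simp [hh, wt_zero]

omit [NumberField K] in
lemma place_pos (w : InfinitePlace K) {x : K} (hx : x ≠ 0) : 0 < w x := by
  have : w x ≠ 0 := by simpa using hx
  exact lt_of_le_of_ne (AbsoluteValue.nonneg w.1 x) this.symm

lemma nm_lip {x y : K} (hx : x ≠ 0) (hy : y ≠ 0) {δ : ℝ}
    (h : ∀ w : InfinitePlace K, |Real.log (w x) - Real.log (w y)| ≤ δ) :
    |Real.log (nm x) - Real.log (nm y)| ≤ finrank ℚ K * δ := by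
  rw [log_nm hx, log_nm hy, ← Finset.sum_sub_distrib, ← sum_mult_real, Finset.sum_mul]
  refine (Finset.abs_sum_le_sum_abs _ _).trans (Finset.sum_le_sum fun w _ => ?_)
  rw [← mul_sub, abs_mul, abs_of_nonneg (by positivity : (0:ℝ) ≤ mult w)]
  exact mul_le_mul_of_nonneg_left (h w) (by positivity)

lemma exists_crdC (K : Type) [Field K] [NumberField K] : ∃ C : ℝ, 0 ≤ C ∧
    ∀ z : logSpace K, ∀ t : ℝ, 0 ≤ t → (∀ w, |z w| ≤ t) → ‖crdL K z‖ ≤ C * t := by
  classical
  refine ⟨‖crdL K‖, norm_nonneg _, fun z t ht hz => ?_⟩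
  refine ((crdL K).le_opNorm _).trans (mul_le_mul_of_nonneg_left ?_ (norm_nonneg _))
  rw [pi_norm_le_iff_of_nonneg ht]
  exact hz

/-- operator norm of `crdL`. -/
noncomputable def crdC (K : Type) [Field K] [NumberField K] : ℝ := (exists_crdC K).choose

lemma crdC_nonneg (K : Type) [Field K] [NumberField K] : 0 ≤ crdC K :=
  (exists_crdC K).choose_spec.1

lemma crdL_le (z : logSpace K) (t : ℝ) (ht : 0 ≤ t) (hz : ∀ w, |z w| ≤ t) :
    ‖crdL K z‖ ≤ crdC K * t := (exists_crdC K).choose_spec.2 z t ht hz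

lemma crd_lip {x y : K} (hx : x ≠ 0) (hy : y ≠ 0) {δ : ℝ} (hδ : 0 ≤ δ)
    (h : ∀ w : InfinitePlace K, |Real.log (w x) - Real.log (w y)| ≤ δ) :
    ‖crd K x - crd K y‖ ≤ crdC K * (4 * δ) := by
  unfold crd
  rw [← map_sub]
  refine crdL_le _ _ (by positivity) ?_
  intro w
  rw [Pi.sub_apply, logMap_eq, logMap_eq, ← mul_sub, abs_mul,
    abs_of_nonneg (by positivity : (0:ℝ) ≤ mult w.1)]
  have h1 : |Real.log (w.1 x) - Real.log (nm x) * (finrank ℚ K : ℝ)⁻¹ -
      (Real.log (w.1 y) - Real.log (nm y) * (finrank ℚ K : ℝ)⁻¹)| ≤ 2 * δ := by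
    have e : Real.log (w.1 x) - Real.log (nm x) * (finrank ℚ K : ℝ)⁻¹ -
      (Real.log (w.1 y) - Real.log (nm y) * (finrank ℚ K : ℝ)⁻¹)
      = (Real.log (w.1 x) - Real.log (w.1 y))
        - (Real.log (nm x) - Real.log (nm y)) * (finrank ℚ K : ℝ)⁻¹ := by ring
    rw [e]
    refine (abs_sub _ _).trans ?_
    rw [abs_mul, abs_of_nonneg (by positivity : (0:ℝ) ≤ (finrank ℚ K : ℝ)⁻¹)]
    have h2 := mul_le_mul_of_nonneg_right (nm_lip hx hy h)
      (by positivity : (0:ℝ) ≤ (finrank ℚ K : ℝ)⁻¹)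
    have h3 : (finrank ℚ K : ℝ) * δ * (finrank ℚ K : ℝ)⁻¹ = δ := by
      field_simp [(finrank_pos' (K := K)).ne']
    have := h w.1
    linarith
  calc (mult w.1 : ℝ) * _ ≤ 2 * (2 * δ) :=
        mul_le_mul (mult_le_two w.1) h1 (abs_nonneg _) zero_le_two
    _ = 4 * δ := by ring

lemma rpow_neg_lip {a b s : ℝ} (ha : 0 < a) (hb : 0 < b) (hs : 0 ≤ s) {c : ℝ}
    (hac : a ^ (-s) ≤ c) (hbc : b ^ (-s) ≤ c) :
    |a ^ (-s) - b ^ (-s)| ≤ s * |Real.log a - Real.log b| * c := by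
  wlog hab : a ≤ b generalizing a b with H
  · have := H hb ha hbc hac (le_of_not_ge hab)
    rwa [abs_sub_comm, abs_sub_comm (Real.log a)]
  have h1 : b ^ (-s) = a ^ (-s) * Real.exp (-(s * (Real.log b - Real.log a))) := by
    rw [Real.rpow_def_of_pos ha, Real.rpow_def_of_pos hb, ← Real.exp_add]
    congr 1
    ring
  have hlog : 0 ≤ Real.log b - Real.log a := sub_nonneg.mpr (Real.log_le_log ha hab)
  have h2 : 1 - s * (Real.log b - Real.log a) ≤ Real.exp (-(s * (Real.log b - Real.log a))) := by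
    have := Real.add_one_le_exp (-(s * (Real.log b - Real.log a)))
    linarith
  have h3 : Real.exp (-(s * (Real.log b - Real.log a))) ≤ 1 :=
    Real.exp_le_one_iff.mpr (by nlinarith)
  have h0 : 0 ≤ a ^ (-s) := Real.rpow_nonneg ha.le _
  rw [h1]
  have e : a ^ (-s) - a ^ (-s) * Real.exp (-(s * (Real.log b - Real.log a)))
      = a ^ (-s) * (1 - Real.exp (-(s * (Real.log b - Real.log a)))) := by ring
  rw [e, abs_of_nonneg (mul_nonneg h0 (by linarith)), abs_sub_comm, abs_of_nonneg hlog, mul_comm]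
  exact mul_le_mul (by linarith) hac h0 (by nlinarith)

lemma nm_ge {x : K} {t : ℝ} (ht : 0 ≤ t) (h : ∀ w : InfinitePlace K, t ≤ w x) :
    t ^ (finrank ℚ K) ≤ nm x := by
  rw [nm_eq_prod, ← sum_mult_eq, ← Finset.prod_pow_eq_pow_sum]
  exact Finset.prod_le_prod (fun w _ => by positivity) fun w _ =>
    pow_le_pow_left₀ ht (h w) _

lemma one_le_nm {x : 𝓞 K} (hx : x ≠ 0) : 1 ≤ nm (x : K) := by
  unfold nm
  rw [norm_eq_norm]
  have h1 : (Algebra.norm ℤ x : ℤ) ≠ 0 := Algebra.norm_ne_zero_iff.mpr hx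
  have h2 : (Algebra.norm ℚ (x : K) : ℚ) = (Algebra.norm ℤ x : ℤ) :=
    (Algebra.coe_norm_int x).symm
  rw [h2]
  have h3 : 1 ≤ |Algebra.norm ℤ x| := Int.one_le_abs h1
  exact_mod_cast h3

lemma nm_rpow_le_one {x : 𝓞 K} (hx : x ≠ 0) {s : ℝ} (hs : 0 ≤ s) : nm (x : K) ^ (-s) ≤ 1 :=
  Real.rpow_le_one_of_one_le_of_nonpos (one_le_nm hx) (by linarith)

lemma hh_le_one (x : 𝓞 K) {s : ℝ} (hs : 0 ≤ s) : hh s (x : K) ≤ 1 := by
  by_cases hx : x = 0
  · subst hx
    simp [hh_zero]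
  · exact mul_le_one₀ (wt_le_one _) (Real.rpow_nonneg (nm_nonneg _) _) (nm_rpow_le_one hx hs)

lemma abs_hh_sub_le_one (x y : 𝓞 K) {s : ℝ} (hs : 0 ≤ s) : |hh s (x : K) - hh s (y : K)| ≤ 1 := by
  rw [abs_le]
  have h1 := hh_le_one x hs
  have h2 := hh_le_one y hs
  have h3 := hh_nonneg s (x : K)
  have h4 := hh_nonneg s (y : K)
  constructor <;> linarith

set_option maxHeartbeats 2000000 in
/-- key Lipschitz estimate. -/
theorem hh_lip (K : Type) [Field K] [NumberField K] (a : 𝓞 K) :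
    ∃ A : ℝ, 0 ≤ A ∧ ∀ s : ℝ, 1 ≤ s → s ≤ 2 → ∀ x : 𝓞 K, x ≠ 0 →
      |hh s (x : K) - hh s ((a + x : 𝓞 K) : K)| ≤ A * (mx (x : K) ^ (finrank ℚ K + 1))⁻¹ := by
  obtain ⟨κ, hκ0, hκ1, hκ⟩ := support_bound K
  have hC0 := crdC_nonneg K
  set D : ℝ := mx (a : K) with hD
  have hD0 : 0 ≤ D := mx_nonneg _
  set n : ℕ := finrank ℚ K with hn
  set R : ℝ := 4 * D / κ with hR
  have hR0 : 0 ≤ R := by positivity
  set A1 : ℝ := (rank K * (crdC K * (4 * (2 * D / κ))) + 2 * (n * (2 * D / κ))) * (2 / κ) ^ n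
    with hA1
  have hA10 : 0 ≤ A1 := by positivity
  refine ⟨max (R ^ (n + 1)) A1, le_max_of_le_right hA10, ?_⟩
  intro s hs1 hs2 x hx
  have hxK : (x : K) ≠ 0 := by simpa using hx
  have hm : 0 < mx (x : K) := mx_pos hxK
  have hmn : 0 < (mx (x : K)) ^ (n + 1) := pow_pos hm _
  by_cases hle : mx (x : K) ≤ R
  · refine (abs_hh_sub_le_one x (a + x) (by linarith)).trans ?_
    rw [← div_eq_mul_inv, le_div_iff₀ hmn, one_mul]
    exact (pow_le_pow_left₀ hm.le hle _).trans (le_max_left _ _)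
  push Not at hle
  refine le_trans ?_ (mul_le_mul_of_nonneg_right (le_max_right _ _) (by positivity))
  by_cases hboth : wt (x : K) = 0 ∧ wt ((a + x : 𝓞 K) : K) = 0
  · have : hh s (x : K) - hh s ((a + x : 𝓞 K) : K) = 0 := by
      unfold hh
      rw [hboth.1, hboth.2]
      ring
    rw [this, abs_zero]
    positivity
  -- `D ≤ κ m / 4`
  have hDm : D ≤ κ * mx (x : K) / 4 := by
    rw [hR, div_lt_iff₀ hκ0] at hle
    linarith
  have hDw : ∀ w : InfinitePlace K, w (a : K) ≤ D := fun w => le_mx w _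
  set y : 𝓞 K := a + x with hy
  have hyx : (y : K) = a + x := by rw [hy]; push_cast; rfl
  have hwxy : ∀ w : InfinitePlace K, |w (x : K) - w (y : K)| ≤ D := by
    intro w
    have h1 : w (y : K) ≤ w (a : K) + w (x : K) := by
      rw [hyx]; exact AbsoluteValue.add_le w.1 _ _
    have h2 : w (x : K) ≤ w (a : K) + w (y : K) := by
      have e : (x : K) = -(a : K) + y := by rw [hyx]; ring
      calc w (x : K) = w (-(a : K) + y) := by rw [← e]
        _ ≤ w (-(a : K)) + w (y : K) := AbsoluteValue.add_le w.1 _ _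
        _ = w (a : K) + w (y : K) := by
            congr 1
            exact AbsoluteValue.map_neg w.1 _
    have h3 := hDw w
    rw [abs_le]
    constructor <;> linarith
  have hmy : mx (x : K) ≤ D + mx (y : K) := by
    obtain ⟨w, hw⟩ := exists_mx_eq (x : K)
    rw [hw]
    have h1 := (abs_le.mp (hwxy w)).2
    have h2 := le_mx w (y : K)
    linarith
  have hmy' : 3 / 4 * mx (x : K) ≤ mx (y : K) := by
    have : κ * mx (x : K) ≤ 1 * mx (x : K) := mul_le_mul_of_nonneg_right hκ1 hm.le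
    linarith
  -- lower bounds
  have hlow : ∀ w : InfinitePlace K, κ / 2 * mx (x : K) ≤ w (x : K) ∧
      κ / 2 * mx (x : K) ≤ w (y : K) := by
    intro w
    have h0 : 0 < κ * mx (x : K) := mul_pos hκ0 hm
    have hd := abs_le.mp (hwxy w)
    by_cases hx1 : wt (x : K) = 0
    · have hy1 : wt (y : K) ≠ 0 := fun h => hboth ⟨hx1, h⟩
      have h1 := hκ _ hy1 w
      have h2 : κ * (3 / 4 * mx (x : K)) ≤ κ * mx (y : K) :=
        mul_le_mul_of_nonneg_left hmy' hκ0.le
      constructor <;> nlinarith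
    · have h1 := hκ _ hx1 w
      constructor <;> nlinarith
  have hy0 : (y : K) ≠ 0 := by
    intro h0
    obtain ⟨w, -⟩ := exists_mx_eq (x : K)
    have := (hlow w).2
    rw [h0, map_zero] at this
    have h0' : 0 < κ / 2 * mx (x : K) := by positivity
    linarith
  have hy0' : y ≠ 0 := by
    intro h
    apply hy0
    rw [h]
    simp
  set δ : ℝ := 2 * D / κ * (mx (x : K))⁻¹ with hδ
  have hδ0 : 0 ≤ δ := by positivity
  have hδlog : ∀ w : InfinitePlace K, |Real.log (w (x : K)) - Real.log (w (y : K))| ≤ δ := by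
    intro w
    have hxp := place_pos w hxK
    have hyp := place_pos w hy0
    have hl := hlow w
    have h0 : 0 < κ / 2 * mx (x : K) := by positivity
    have hd := abs_le.mp (hwxy w)
    have hδ' : δ = D / (κ / 2 * mx (x : K)) := by
      rw [hδ]
      field_simp
    have aux : ∀ u v : ℝ, 0 < u → 0 < v → κ / 2 * mx (x : K) ≤ v → u - v ≤ D →
        Real.log u - Real.log v ≤ D / (κ / 2 * mx (x : K)) := by
      intro u v hu hv hv2 huv
      rw [← Real.log_div hu.ne' hv.ne']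
      refine (Real.log_le_sub_one_of_pos (by positivity)).trans ?_
      have : u / v - 1 = (u - v) / v := by field_simp
      rw [this]
      calc (u - v) / v ≤ D / v := by gcongr
        _ ≤ D / (κ / 2 * mx (x : K)) := by gcongr
    rw [hδ', abs_le]
    constructor
    · have := aux (w (y : K)) (w (x : K)) hyp hxp hl.1 (by linarith)
      linarith
    · exact aux (w (x : K)) (w (y : K)) hxp hyp hl.2 (by linarith)
  -- norm bounds
  have hP : ∀ z : 𝓞 K, z ≠ 0 → (∀ w : InfinitePlace K, κ / 2 * mx (x : K) ≤ w (z : K)) →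
      nm (z : K) ^ (-s) ≤ ((κ / 2 * mx (x : K)) ^ n)⁻¹ := by
    intro z hz hzw
    have h1 : (κ / 2 * mx (x : K)) ^ n ≤ nm (z : K) := nm_ge (by positivity) hzw
    have h2 : nm (z : K) ^ (-s) ≤ nm (z : K) ^ (-1 : ℝ) :=
      Real.rpow_le_rpow_of_exponent_le (one_le_nm hz) (by linarith)
    rw [Real.rpow_neg_one] at h2
    refine h2.trans ?_
    exact inv_anti₀ (by positivity) h1
  have hPx := hP x hx (fun w => (hlow w).1)
  have hPy := hP y hy0' (fun w => (hlow w).2)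
  have e : hh s (x : K) - hh s (y : K)
      = (wt (x : K) - wt (y : K)) * nm (x : K) ^ (-s)
        + wt (y : K) * (nm (x : K) ^ (-s) - nm (y : K) ^ (-s)) := by
    unfold hh
    ring
  have hw1 : |wt (x : K) - wt (y : K)| ≤ rank K * (crdC K * (4 * δ)) := by
    rw [wt_of_ne hxK, wt_of_ne hy0]
    refine (tent_lip _ _).trans ?_
    exact mul_le_mul_of_nonneg_left (crd_lip hxK hy0 hδ0 hδlog) (Nat.cast_nonneg _)
  have hw2 : |nm (x : K) ^ (-s) - nm (y : K) ^ (-s)|
      ≤ 2 * (n * δ) * ((κ / 2 * mx (x : K)) ^ n)⁻¹ := by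
    refine (rpow_neg_lip (nm_pos hxK) (nm_pos hy0) (by linarith) hPx hPy).trans ?_
    refine mul_le_mul_of_nonneg_right ?_ (by positivity)
    exact mul_le_mul hs2 (nm_lip hxK hy0 hδlog) (abs_nonneg _) zero_le_two
  rw [e]
  refine (abs_add_le _ _).trans ?_
  rw [abs_mul, abs_mul, abs_of_nonneg (wt_nonneg (y : K)),
    abs_of_nonneg (Real.rpow_nonneg (nm_nonneg (x : K)) _)]
  have t1 : |wt (x : K) - wt (y : K)| * nm (x : K) ^ (-s)
      ≤ rank K * (crdC K * (4 * δ)) * ((κ / 2 * mx (x : K)) ^ n)⁻¹ :=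
    mul_le_mul hw1 hPx (Real.rpow_nonneg (nm_nonneg _) _) (by positivity)
  have t2 : wt (y : K) * |nm (x : K) ^ (-s) - nm (y : K) ^ (-s)|
      ≤ 1 * (2 * (n * δ) * ((κ / 2 * mx (x : K)) ^ n)⁻¹) :=
    mul_le_mul (wt_le_one _) hw2 (abs_nonneg _) zero_le_one
  refine (add_le_add t1 t2).trans (le_of_eq ?_)
  rw [hA1, hδ]
  have hmne : mx (x : K) ≠ 0 := hm.ne'
  rw [mul_pow, div_pow, div_pow, pow_succ]
  field_simp

end Crest.Agent.HB.LB
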