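import Crest.Agent.HB.LBound_D

/-! Row 32 (S0042), chunk T1, part E: summability and comparison of lattice sums. -/
set_option autoImplicit false

open NumberField NumberField.mixedEmbedding NumberField.Units
  NumberField.Units.dirichletUnitTheorem NumberField.InfinitePlace Module
open scoped nonZeroDivisors

namespace Crest.Agent.HB.LB

variable {K : Type} [Field K] [NumberField K]

lemma int_finrank (K : Type) [Field K] [NumberField K] :
    finrank ℤ (mixedEmbedding.integerLattice K) = finrank ℚ K := by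
  classical
  rw [ZLattice.rank ℝ, mixedEmbedding.finrank]

/-- embedding of the integers in the lattice -/
noncomputable def toL (x : 𝓞 K) : mixedEmbedding.integerLattice K :=
  ⟨mixedEmbedding K (x : K), ⟨x, rfl⟩⟩

lemma toL_injective : Function.Injective (toL (K := K)) := by
  intro x y h
  have h1 : mixedEmbedding K (x : K) = mixedEmbedding K (y : K) := congrArg Subtype.val h
  have h2 := (mixedEmbedding_injective K) h1
  exact RingOfIntegers.coe_injective h2

open scoped Classical in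
lemma norm_toL (x : 𝓞 K) : ‖toL x‖ = mx (x : K) := by
  rw [mx_eq]
  rfl

lemma summable_mx_inv : Summable fun x : 𝓞 K => (mx (x : K) ^ (finrank ℚ K + 1))⁻¹ := by
  classical
  have h := ZLattice.summable_norm_pow_inv (mixedEmbedding.integerLattice K)
    (finrank ℚ K + 1) (by rw [int_finrank]; omega)
  have h2 := h.comp_injective (toL_injective (K := K))
  refine h2.congr fun x => ?_
  simp only [Function.comp_apply, norm_toL, inv_pow]

lemma hh_le (K : Type) [Field K] [NumberField K] :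
    ∃ κ : ℝ, 0 < κ ∧ κ ≤ 1 ∧ ∀ x : 𝓞 K, ∀ s : ℝ, 0 < s →
      hh s (x : K) ≤ κ ^ (-(finrank ℚ K * s)) * mx (x : K) ^ (-(finrank ℚ K * s)) := by
  obtain ⟨κ, hκ0, hκ1, hκ⟩ := support_bound K
  refine ⟨κ, hκ0, hκ1, fun x s hs => ?_⟩
  rw [← Real.mul_rpow hκ0.le (mx_nonneg _)]
  by_cases hx : wt (x : K) = 0
  · unfold hh
    rw [hx, zero_mul]
    exact Real.rpow_nonneg (mul_nonneg hκ0.le (mx_nonneg _)) _
  · have hx0 : (x : K) ≠ 0 := by
      intro h
      rw [h] at hx
      exact hx wt_zero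
    have hm := mx_pos hx0
    have h1 : (κ * mx (x : K)) ^ (finrank ℚ K) ≤ nm (x : K) := nm_ge (by positivity) (hκ _ hx)
    have h2 : nm (x : K) ^ (-s) ≤ ((κ * mx (x : K)) ^ (finrank ℚ K)) ^ (-s) :=
      Real.rpow_le_rpow_of_nonpos (by positivity) h1 (by linarith)
    have h3 : ((κ * mx (x : K)) ^ (finrank ℚ K)) ^ (-s) = (κ * mx (x : K)) ^ (-(finrank ℚ K * s)) := by
      rw [← Real.rpow_natCast, ← Real.rpow_mul (by positivity)]
      congr 1
      ring
    unfold hh
    calc wt (x : K) * nm (x : K) ^ (-s) ≤ 1 * nm (x : K) ^ (-s) :=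
          mul_le_mul_of_nonneg_right (wt_le_one _) (Real.rpow_nonneg (nm_nonneg _) _)
      _ ≤ _ := by rw [one_mul, ← h3]; exact h2

lemma one_le_finrank : (1 : ℝ) ≤ finrank ℚ K := by
  exact_mod_cast (finrank_pos : 0 < finrank ℚ K)

lemma summable_mx_rpow {s : ℝ} (hs : 1 < s) :
    Summable fun x : 𝓞 K => mx (x : K) ^ (-(finrank ℚ K * s)) := by
  classical
  have hlt : -((finrank ℚ K : ℝ) * s) < -(finrank ℤ (mixedEmbedding.integerLattice K) : ℝ) := by
    rw [int_finrank]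
    have := one_le_finrank (K := K)
    nlinarith
  have h := ZLattice.summable_norm_rpow (mixedEmbedding.integerLattice K)
    (-(finrank ℚ K * s)) hlt
  have h2 := h.comp_injective (toL_injective (K := K))
  refine h2.congr fun x => ?_
  simp only [Function.comp_apply, norm_toL]

lemma summable_hh {s : ℝ} (hs : 1 < s) : Summable fun x : 𝓞 K => hh s (x : K) := by
  obtain ⟨κ, hκ0, -, hκ⟩ := hh_le K
  exact Summable.of_nonneg_of_le (fun x => hh_nonneg _ _) (fun x => hκ x s (by linarith))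
    ((summable_mx_rpow hs).mul_left _)

lemma tsum_nat_rpow_le {ε : ℝ} (hε : 0 < ε) : ∑' k : ℕ, (k : ℝ) ^ (-1 - ε) ≤ 1 + 1 / ε := by
  have key : ∀ N : ℕ, ∑ k ∈ Finset.range (N + 2), (k : ℝ) ^ (-1 - ε)
      ≤ 1 + 1 / ε * (1 - ((N + 1 : ℕ) : ℝ) ^ (-ε)) := by
    intro N
    induction N with
    | zero =>
      rw [Finset.sum_range_succ, Finset.sum_range_succ, Finset.sum_range_zero]
      simp [Real.zero_rpow (by linarith : -1 - ε ≠ 0)]
    | succ N ih =>
      rw [Finset.sum_range_succ]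
      set a : ℝ := ((N + 1 : ℕ) : ℝ) with ha
      have ha0 : 0 < a := by rw [ha]; positivity
      have hb : ((N + 2 : ℕ) : ℝ) = a + 1 := by rw [ha]; push_cast; ring
      have hb' : ((N + 1 + 1 : ℕ) : ℝ) = a + 1 := by rw [ha]; push_cast; ring
      rw [hb'] 
      have h1 : (a + 1) ^ (-1 - ε) ≤ 1 / ε * (a ^ (-ε) - (a + 1) ^ (-ε)) := by
        have e1 : (a + 1) ^ (-1 - ε) = (a + 1) ^ (-ε) * (a + 1)⁻¹ := by
          rw [show (-1 - ε) = -ε + -1 by ring, Real.rpow_add (by positivity), Real.rpow_neg_one]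
        have e2 : a ^ (-ε) = (a + 1) ^ (-ε) * Real.exp (ε * (Real.log (a + 1) - Real.log a)) := by
          rw [Real.rpow_def_of_pos ha0, Real.rpow_def_of_pos (by positivity : 0 < a + 1),
            ← Real.exp_add]
          congr 1
          ring
        have e3 : (a + 1)⁻¹ ≤ Real.log (a + 1) - Real.log a := by
          rw [← neg_le_neg_iff, neg_sub, ← Real.log_div ha0.ne' (by positivity)]
          refine (Real.log_le_sub_one_of_pos (by positivity)).trans (le_of_eq ?_)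
          field_simp
          ring
        have e4 : 1 + ε * (a + 1)⁻¹ ≤ Real.exp (ε * (Real.log (a + 1) - Real.log a)) := by
          have := Real.add_one_le_exp (ε * (Real.log (a + 1) - Real.log a))
          nlinarith [mul_le_mul_of_nonneg_left e3 hε.le]
        have e5 : 0 ≤ (a + 1) ^ (-ε) := Real.rpow_nonneg (by positivity) _
        rw [e1, e2]
        have e6 : (a + 1) ^ (-ε) * (1 + ε * (a + 1)⁻¹) ≤
            (a + 1) ^ (-ε) * Real.exp (ε * (Real.log (a + 1) - Real.log a)) :=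
          mul_le_mul_of_nonneg_left e4 e5
        rw [one_div, inv_mul_eq_div, le_div_iff₀ hε]
        nlinarith
      have := ih
      calc _ ≤ (1 + 1 / ε * (1 - a ^ (-ε))) + 1 / ε * (a ^ (-ε) - (a + 1) ^ (-ε)) :=
            add_le_add ih h1
        _ = _ := by ring
  refine Real.tsum_le_of_sum_range_le (fun k => by positivity) ?_
  intro n
  refine (Finset.sum_le_sum_of_subset_of_nonneg (Finset.range_mono (by omega : n ≤ n + 2))
    (fun k _ _ => by positivity)).trans ((key n).trans ?_)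
  have h1 : 0 ≤ ((n + 1 : ℕ) : ℝ) ^ (-ε) := by positivity
  have h2 : 0 ≤ 1 / ε := by positivity
  nlinarith

/-- `(s-1) ∑ hh` is bounded. -/
lemma tsum_hh_le (K : Type) [Field K] [NumberField K] :
    ∃ C : ℝ, 0 ≤ C ∧ ∀ s : ℝ, 1 < s → s ≤ 2 → (s - 1) * ∑' x : 𝓞 K, hh s (x : K) ≤ C := by
  classical
  obtain ⟨κ, hκ0, hκ1, hκ⟩ := hh_le K
  set n : ℝ := (finrank ℚ K : ℝ) with hn
  have hn1 : 1 ≤ n := one_le_finrank
  set T : ℝ := ZLattice.tsumNormRPowBound (mixedEmbedding.integerLattice K) with hT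
  have hT0 : 0 < T := ZLattice.tsumNormRPowBound_pos _
  set T' : ℝ := min T 1 with hT'
  have hT'0 : 0 < T' := lt_min hT0 one_pos
  have hT'1 : T' ≤ 1 := min_le_right _ _
  refine ⟨κ ^ (-(n * 2)) * (T' ^ (-(n * 2)) * 2), by positivity, fun s hs1 hs2 => ?_⟩
  have hlt : -(n * s) < -(finrank ℤ (mixedEmbedding.integerLattice K) : ℝ) := by
    rw [int_finrank]
    nlinarith
  have h1 : ∑' x : 𝓞 K, hh s (x : K) ≤ κ ^ (-(n * s)) * ∑' x : 𝓞 K, mx (x : K) ^ (-(n * s)) := by
    rw [← tsum_mul_left]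
    exact (summable_hh hs1).tsum_le_tsum (fun x => hκ x s (by linarith))
      ((summable_mx_rpow hs1).mul_left _)
  have h2 : ∑' x : 𝓞 K, mx (x : K) ^ (-(n * s)) ≤
      ∑' z : mixedEmbedding.integerLattice K, ‖z‖ ^ (-(n * s)) := by
    refine (summable_mx_rpow hs1).tsum_le_tsum_of_inj toL toL_injective
      (fun z _ => by positivity) (fun x => ?_)
      (ZLattice.summable_norm_rpow (mixedEmbedding.integerLattice K) _ hlt)
    rw [norm_toL]
  have h3 := ZLattice.tsum_norm_rpow_le (mixedEmbedding.integerLattice K) (-(n * s)) hlt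
  rw [int_finrank] at h3
  have h4 : (finrank ℚ K : ℝ) - 1 + -(n * s) = -1 - n * (s - 1) := by rw [← hn]; ring
  rw [h4] at h3
  have hε : 0 < n * (s - 1) := by nlinarith
  have h5 := tsum_nat_rpow_le hε
  have h6 : κ ^ (-(n * s)) ≤ κ ^ (-(n * 2)) :=
    Real.rpow_le_rpow_of_exponent_ge hκ0 hκ1 (by nlinarith)
  have h7 : T ^ (-(n * s)) ≤ T' ^ (-(n * 2)) := by
    calc T ^ (-(n * s)) ≤ T' ^ (-(n * s)) :=
          Real.rpow_le_rpow_of_nonpos hT'0 (min_le_left _ _) (by nlinarith)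
      _ ≤ T' ^ (-(n * 2)) := Real.rpow_le_rpow_of_exponent_ge hT'0 hT'1 (by nlinarith)
  have h8 : (s - 1) * (∑' k : ℕ, (k : ℝ) ^ (-1 - n * (s - 1))) ≤ 2 := by
    calc (s - 1) * (∑' k : ℕ, (k : ℝ) ^ (-1 - n * (s - 1)))
        ≤ (s - 1) * (1 + 1 / (n * (s - 1))) := mul_le_mul_of_nonneg_left h5 (by linarith)
      _ = (s - 1) + 1 / n := by
          have : s - 1 ≠ 0 := by linarith
          have : n ≠ 0 := by linarith
          field_simp
      _ ≤ 1 + 1 := by
          refine add_le_add (by linarith) ?_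
          rw [div_le_one (by linarith)]
          exact hn1
      _ = 2 := by norm_num
  set S : ℝ := ∑' k : ℕ, (k : ℝ) ^ (-1 - n * (s - 1)) with hS
  have hS0 : 0 ≤ S := tsum_nonneg fun k => by positivity
  have hs0 : 0 ≤ s - 1 := by linarith
  calc (s - 1) * ∑' x : 𝓞 K, hh s (x : K)
      ≤ (s - 1) * (κ ^ (-(n * s)) * (T ^ (-(n * s)) * S)) := by
        refine mul_le_mul_of_nonneg_left (h1.trans ?_) hs0
        exact mul_le_mul_of_nonneg_left (h2.trans h3) (by positivity)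
    _ = κ ^ (-(n * s)) * (T ^ (-(n * s)) * ((s - 1) * S)) := by ring
    _ ≤ κ ^ (-(n * 2)) * (T' ^ (-(n * 2)) * 2) := by
        refine mul_le_mul h6 (mul_le_mul h7 h8 (by positivity) (by positivity))
          (by positivity) (by positivity)

/-! ### comparison of `𝓞 K` and `J` -/

/-- `𝓞 K` as union of cosets of `J`. -/
noncomputable def cosetEquiv (J : Ideal (𝓞 K)) : ((𝓞 K ⧸ J) × J) ≃ 𝓞 K :=
  Equiv.ofBijective (fun p => Quotient.out p.1 + (p.2 : 𝓞 K)) (by
    have hout : ∀ q : 𝓞 K ⧸ J, Ideal.Quotient.mk J (Quotient.out q) = q := fun q =>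
      Quotient.out_eq' q
    constructor
    · rintro ⟨q, x⟩ ⟨q', x'⟩ h
      simp only at h
      have h1 : q = q' := by
        have := congrArg (Ideal.Quotient.mk J) h
        rw [map_add, map_add, hout, hout, Ideal.Quotient.eq_zero_iff_mem.mpr x.2,
          Ideal.Quotient.eq_zero_iff_mem.mpr x'.2, add_zero, add_zero] at this
        exact this
      subst h1
      have h2 : (x : 𝓞 K) = x' := add_left_cancel h
      rw [Subtype.ext h2]
    · intro y
      refine ⟨(Ideal.Quotient.mk J y, ⟨y - Quotient.out (Ideal.Quotient.mk J y), ?_⟩), ?_⟩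
      · rw [← Ideal.Quotient.eq_zero_iff_mem, map_sub, hout, sub_self]
      · simp)

omit [NumberField K] in
lemma cosetEquiv_apply (J : Ideal (𝓞 K)) (p : (𝓞 K ⧸ J) × J) :
    cosetEquiv J p = Quotient.out p.1 + (p.2 : 𝓞 K) := rfl

lemma coset_diff (J : Ideal (𝓞 K)) (a : 𝓞 K) :
    ∃ C : ℝ, 0 ≤ C ∧ ∀ s : ℝ, 1 < s → s ≤ 2 →
      |∑' x : J, hh s ((a + (x : 𝓞 K) : 𝓞 K) : K) - ∑' x : J, hh s ((x : 𝓞 K) : K)| ≤ C := by
  classical
  obtain ⟨A, hA0, hA⟩ := hh_lip K a
  have hs1 : Summable fun x : J => A * (mx ((x : 𝓞 K) : K) ^ (finrank ℚ K + 1))⁻¹ :=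
    ((summable_mx_inv (K := K)).comp_injective Subtype.val_injective).mul_left A
  have hs2 : Summable fun x : J => if x = 0 then (1 : ℝ) else 0 :=
    summable_of_ne_finset_zero (s := {0}) (fun x hx => by
      simp only [Finset.mem_singleton] at hx
      simp [hx])
  have hs := hs1.add hs2
  refine ⟨∑' x : J, (A * (mx ((x : 𝓞 K) : K) ^ (finrank ℚ K + 1))⁻¹ + if x = 0 then (1 : ℝ) else 0),
    tsum_nonneg fun x => ?_, fun s h1 h2 => ?_⟩
  · have : 0 ≤ (mx ((x : 𝓞 K) : K) ^ (finrank ℚ K + 1))⁻¹ :=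
      inv_nonneg.mpr (pow_nonneg (mx_nonneg _) _)
    split_ifs <;> nlinarith [mul_nonneg hA0 this]
  · have ha : Summable fun x : J => hh s ((a + (x : 𝓞 K) : 𝓞 K) : K) :=
      (summable_hh (K := K) h1).comp_injective (i := fun x : J => a + (x : 𝓞 K))
        (fun x y h => Subtype.ext (add_left_cancel h))
    have hb : Summable fun x : J => hh s ((x : 𝓞 K) : K) :=
      (summable_hh (K := K) h1).comp_injective Subtype.val_injective
    rw [← ha.tsum_sub hb]
    have hab := (ha.sub hb).norm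
    rw [← Real.norm_eq_abs]
    refine (norm_tsum_le_tsum_norm hab).trans ?_
    · refine hab.tsum_le_tsum (fun x => ?_) hs
      rw [Real.norm_eq_abs, abs_sub_comm]
      by_cases hx : x = 0
      · rw [if_pos hx]
        have := abs_hh_sub_le_one (x : 𝓞 K) (a + (x : 𝓞 K)) (by linarith : 0 ≤ s)
        have h3 : 0 ≤ A * (mx ((x : 𝓞 K) : K) ^ (finrank ℚ K + 1))⁻¹ :=
          mul_nonneg hA0 (inv_nonneg.mpr (pow_nonneg (mx_nonneg _) _))
        linarith
      · rw [if_neg hx, add_zero]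
        exact hA s h1.le h2 (x : 𝓞 K) (by simpa using hx)

set_option maxHeartbeats 1000000 in
lemma coset_compare (J : Ideal (𝓞 K)) (hJ : J ≠ ⊥) :
    ∃ C : ℝ, 0 ≤ C ∧ ∀ s : ℝ, 1 < s → s ≤ 2 →
      |∑' x : 𝓞 K, hh s (x : K) - (Ideal.absNorm J : ℝ) * ∑' x : J, hh s ((x : 𝓞 K) : K)| ≤ C := by
  classical
  have hfin : Finite (𝓞 K ⧸ J) := Ideal.finiteQuotientOfFreeOfNeBot J hJ
  have : Fintype (𝓞 K ⧸ J) := Fintype.ofFinite _
  choose C hC0 hC using fun q : 𝓞 K ⧸ J => coset_diff J (Quotient.out q)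
  refine ⟨∑ q, C q, Finset.sum_nonneg fun q _ => hC0 q, fun s h1 h2 => ?_⟩
  have hsum : Summable fun p : (𝓞 K ⧸ J) × J => hh s ((cosetEquiv J p : 𝓞 K) : K) :=
    (Equiv.summable_iff (cosetEquiv J)).mpr (summable_hh h1)
  have e1 : ∑' x : 𝓞 K, hh s (x : K)
      = ∑ q : 𝓞 K ⧸ J, ∑' x : J, hh s ((Quotient.out q + (x : 𝓞 K) : 𝓞 K) : K) := by
    rw [← Equiv.tsum_eq (cosetEquiv J), hsum.tsum_prod, tsum_fintype]
    rfl
  have e2 : (Ideal.absNorm J : ℝ) = ∑ q : 𝓞 K ⧸ J, (1 : ℝ) := by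
    rw [Ideal.absNorm_apply, Submodule.cardQuot_apply, Nat.card_eq_fintype_card]
    simp
  rw [e1, e2, Finset.sum_mul, ← Finset.sum_sub_distrib]
  refine (Finset.abs_sum_le_sum_abs _ _).trans (Finset.sum_le_sum fun q _ => ?_)
  rw [one_mul]
  exact hC q s h1 h2

end Crest.Agent.HB.LB
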