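import Mathlib

/-! Row 32 (S0042), STEP 2, part A: counting random affine Lagrangian graphs. -/
set_option autoImplicit false
set_option linter.unusedSectionVars false
set_option linter.unusedSimpArgs false

namespace Crest.Agent.HB.Pl

open Finset

section Alg
variable {ι F : Type} [Fintype ι] [DecidableEq ι] [Field F] [Fintype F] [DecidableEq F]

/-- The affine map with symmetric matrix `T + Tᵀ` and translation `s`. -/
def pv (T : ι → ι → F) (s v : ι → F) : ι → F := fun i => ∑ k, (T i k + T k i) * v k + s i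

theorem count_of_inj (R : Finset (ι × ι)) (Sol : Finset ((ι → ι → F) × (ι → F)))
    (h : ∀ θ ∈ Sol, ∀ θ' ∈ Sol, (∀ p : ι × ι, p ∉ R → θ.1 p.1 p.2 = θ'.1 p.1 p.2) → θ = θ') :
    Sol.card * Fintype.card F ^ R.card ≤ Fintype.card F ^ (Fintype.card ι ^ 2) := by
  classical
  have h1 : (Sol ×ˢ (univ : Finset (R → F))).card ≤ (univ : Finset (ι × ι → F)).card := by
    apply Finset.card_le_card_of_injOn
      (fun x => fun p => if hp : p ∈ R then x.2 ⟨p, hp⟩ else x.1.1 p.1 p.2)
    · intro x _
      exact Finset.mem_coe.2 (Finset.mem_univ _)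
    · rintro ⟨θ, g⟩ hx ⟨θ', g'⟩ hy hxy
      simp only [Finset.coe_product, Set.mem_prod, Finset.mem_coe] at hx hy
      have h2 : θ = θ' := by
        apply h θ hx.1 θ' hy.1
        intro p hp
        have := congrFun hxy p
        simpa [hp] using this
      have h3 : g = g' := by
        funext p
        have := congrFun hxy p.1
        simpa [p.2] using this
      rw [h2, h3]
  rw [Finset.card_product, Finset.card_univ, Finset.card_univ] at h1
  simpa [pow_two, Fintype.card_fun, Fintype.card_prod] using h1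

theorem pv_sub (T : ι → ι → F) (s v v' : ι → F) (i : ι) :
    pv T s v' i - pv T s v i = ∑ k, (T i k + T k i) * (v' k - v k) := by
  unfold pv
  simp only [mul_sub, Finset.sum_sub_distrib]
  ring

theorem count_one (v w : ι → F) :
    ((univ : Finset ((ι → ι → F) × (ι → F))).filter (fun θ => pv θ.1 θ.2 v = w)).card
      = Fintype.card F ^ (Fintype.card ι ^ 2) := by
  classical
  have : ((univ : Finset ((ι → ι → F) × (ι → F))).filter (fun θ => pv θ.1 θ.2 v = w)).card
      = (univ : Finset (ι → ι → F)).card := by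
    apply Finset.card_bij' (fun θ _ => θ.1) (fun T _ => (T, fun i => w i - pv T 0 v i))
    · intro θ _
      exact Finset.mem_univ _
    · intro T _
      simp only [Finset.mem_filter, Finset.mem_univ, true_and]
      funext i
      simp [pv]
    · intro θ hθ
      simp only [Finset.mem_filter, Finset.mem_univ, true_and] at hθ
      refine Prod.ext rfl ?_
      funext i
      rw [← hθ]
      simp [pv]
    · intro T _
      rfl
  rw [this, Finset.card_univ]
  simp [pow_two, Fintype.card_fun, pow_mul]

/-- The translation is determined by the matrix. -/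
theorem s_eq {T : ι → ι → F} {s s' v w : ι → F} (h : pv T s v = w) (h' : pv T s' v = w) :
    s = s' := by
  funext i
  have h1 := congrFun h i
  have h2 := congrFun h' i
  unfold pv at h1 h2
  have : (∑ k, (T i k + T k i) * v k) + s i = (∑ k, (T i k + T k i) * v k) + s' i := by
    rw [h1, h2]
  exact add_left_cancel this

/-- Two-point count. -/
theorem count_two (h2 : (2 : F) ≠ 0) (v v' w w' : ι → F) (i0 : ι) (hi : v' i0 - v i0 ≠ 0) :
    ((univ : Finset ((ι → ι → F) × (ι → F))).filter
      (fun θ => pv θ.1 θ.2 v = w ∧ pv θ.1 θ.2 v' = w')).card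
      * Fintype.card F ^ (Fintype.card ι) ≤ Fintype.card F ^ (Fintype.card ι ^ 2) := by
  classical
  set R : Finset (ι × ι) := (univ : Finset ι).image (fun j => (i0, j)) with hR
  have hRc : R.card = Fintype.card ι := by
    rw [hR, Finset.card_image_of_injective, Finset.card_univ]
    intro a b hab
    simpa using hab
  suffices hmain : ((univ : Finset ((ι → ι → F) × (ι → F))).filter
      (fun θ => pv θ.1 θ.2 v = w ∧ pv θ.1 θ.2 v' = w')).card
      * Fintype.card F ^ R.card ≤ Fintype.card F ^ (Fintype.card ι ^ 2) by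
    rwa [hRc] at hmain
  apply count_of_inj
  rintro ⟨T, s⟩ hθ ⟨T', s'⟩ hθ' hoff
  simp only [Finset.mem_filter, Finset.mem_univ, true_and] at hθ hθ' hoff
  -- difference matrix
  set Q : ι → F := fun k => v' k - v k with hQ
  have key : ∀ i, ∑ k, ((T i k - T' i k) + (T k i - T' k i)) * Q k = 0 := by
    intro i
    have e1 := pv_sub T s v v' i
    have e2 := pv_sub T' s' v v' i
    rw [hθ.1, hθ.2] at e1
    rw [hθ'.1, hθ'.2] at e2
    have : ∑ k, ((T i k - T' i k) + (T k i - T' k i)) * Q k
        = ∑ k, (T i k + T k i) * (v' k - v k) - ∑ k, (T' i k + T' k i) * (v' k - v k) := by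
      rw [← Finset.sum_sub_distrib]
      apply Finset.sum_congr rfl
      intro k _
      rw [hQ]; ring
    rw [this, ← e1, ← e2, sub_self]
  have hoff' : ∀ i j, i ≠ i0 → T i j - T' i j = 0 := by
    intro i j hij
    have := hoff (i, j) (by
      rw [hR]; simp only [Finset.mem_image, Finset.mem_univ, true_and, not_exists, Prod.mk.injEq,
        not_and]
      intro x hx; exact absurd hx.symm hij)
    exact sub_eq_zero.2 this
  have h1 : ∀ j, j ≠ i0 → T i0 j - T' i0 j = 0 := by
    intro j hj
    have e := key j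
    rw [Finset.sum_eq_single i0] at e
    · rw [hoff' j i0 hj, zero_add] at e
      exact (mul_eq_zero.1 e).resolve_right hi
    · intro k _ hk
      rw [hoff' j k hj, hoff' k j hk]; ring
    · intro h; exact absurd (Finset.mem_univ _) h
  have h3 : T i0 i0 - T' i0 i0 = 0 := by
    have e := key i0
    rw [Finset.sum_eq_single i0] at e
    · have e' := (mul_eq_zero.1 e).resolve_right hi
      have : (2 : F) * (T i0 i0 - T' i0 i0) = 0 := by rw [← e']; ring
      exact (mul_eq_zero.1 this).resolve_left h2
    · intro k _ hk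
      rw [h1 k hk, hoff' k i0 hk]; ring
    · intro h; exact absurd (Finset.mem_univ _) h
  have hT : T = T' := by
    funext i j
    by_cases hi' : i = i0
    · subst hi'
      by_cases hj : j = i
      · subst hj; exact sub_eq_zero.1 h3
      · exact sub_eq_zero.1 (h1 j hj)
    · exact sub_eq_zero.1 (hoff' i j hi')
  subst hT
  rw [s_eq hθ.1 hθ'.1]

/-- Three-point count. -/
theorem count_three (h2 : (2 : F) ≠ 0) (v v' v'' w w' w'' : ι → F) (i0 i1 : ι) (hne : i0 ≠ i1)
    (hmin : (v' i0 - v i0) * (v'' i1 - v i1) - (v'' i0 - v i0) * (v' i1 - v i1) ≠ 0) :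
    ((univ : Finset ((ι → ι → F) × (ι → F))).filter
      (fun θ => pv θ.1 θ.2 v = w ∧ pv θ.1 θ.2 v' = w' ∧ pv θ.1 θ.2 v'' = w'')).card
      * Fintype.card F ^ (2 * Fintype.card ι - 1) ≤ Fintype.card F ^ (Fintype.card ι ^ 2) := by
  classical
  set R1 : Finset (ι × ι) := (univ : Finset ι).image (fun j => (i0, j)) with hR1
  set R2 : Finset (ι × ι) := ((univ : Finset ι).erase i0).image (fun j => (i1, j)) with hR2
  have hR1c : R1.card = Fintype.card ι := by
    rw [hR1, Finset.card_image_of_injective, Finset.card_univ]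
    intro a b hab
    simpa using hab
  have hR2c : R2.card = Fintype.card ι - 1 := by
    rw [hR2, Finset.card_image_of_injective, Finset.card_erase_of_mem (Finset.mem_univ _),
      Finset.card_univ]
    intro a b hab
    simpa using hab
  have hdis : Disjoint R1 R2 := by
    rw [Finset.disjoint_left]
    intro x hx1 hx2
    rw [hR1, Finset.mem_image] at hx1
    rw [hR2, Finset.mem_image] at hx2
    obtain ⟨a, _, rfl⟩ := hx1
    obtain ⟨b, _, hb⟩ := hx2
    exact hne (Prod.ext_iff.1 hb).1.symm
  have hcpos : 0 < Fintype.card ι := Fintype.card_pos_iff.2 ⟨i0⟩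
  have hRc : (R1 ∪ R2).card = 2 * Fintype.card ι - 1 := by
    rw [Finset.card_union_of_disjoint hdis, hR1c, hR2c]; omega
  rw [← hRc]
  apply count_of_inj
  rintro ⟨T, s⟩ hθ ⟨T', s'⟩ hθ' hoff
  simp only [Finset.mem_filter, Finset.mem_univ, true_and] at hθ hθ' hoff
  have key : ∀ u u' : ι → F, ∀ z z' : ι → F, pv T s u = z → pv T s u' = z' → pv T' s' u = z →
      pv T' s' u' = z' → ∀ i, ∑ k, ((T i k - T' i k) + (T k i - T' k i)) * (u' k - u k) = 0 := by
    intro u u' z z' a1 a2 a3 a4 i
    have e1 := pv_sub T s u u' i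
    have e2 := pv_sub T' s' u u' i
    rw [a1, a2] at e1
    rw [a3, a4] at e2
    have : ∑ k, ((T i k - T' i k) + (T k i - T' k i)) * (u' k - u k)
        = ∑ k, (T i k + T k i) * (u' k - u k) - ∑ k, (T' i k + T' k i) * (u' k - u k) := by
      rw [← Finset.sum_sub_distrib]
      apply Finset.sum_congr rfl
      intro k _
      ring
    rw [this, ← e1, ← e2, sub_self]
  have k1 := key v v' w w' hθ.1 hθ.2.1 hθ'.1 hθ'.2.1
  have k2 := key v v'' w w'' hθ.1 hθ.2.2 hθ'.1 hθ'.2.2
  have hoff1 : ∀ i j, i ≠ i0 → i ≠ i1 → T i j - T' i j = 0 := by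
    intro i j ha hb
    have := hoff (i, j) (by
      rw [hR1, hR2]
      simp only [Finset.mem_union, Finset.mem_image, Finset.mem_univ, true_and, Prod.mk.injEq,
        not_or, not_exists, not_and]
      exact ⟨fun x hx => absurd hx.symm ha, fun x _ hx => absurd hx.symm hb⟩)
    exact sub_eq_zero.2 this
  have hoff2 : T i1 i0 - T' i1 i0 = 0 := by
    have := hoff (i1, i0) (by
      rw [hR1, hR2]
      simp only [Finset.mem_union, Finset.mem_image, Finset.mem_univ, true_and, Prod.mk.injEq,
        not_or, not_exists, not_and, Finset.mem_erase, and_true]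
      exact ⟨fun x hx => absurd hx hne, fun x hx h => absurd h hx⟩)
    exact sub_eq_zero.2 this
  -- rows outside
  have solve : ∀ a b : F, a * (v' i0 - v i0) + b * (v' i1 - v i1) = 0 →
      a * (v'' i0 - v i0) + b * (v'' i1 - v i1) = 0 → a = 0 ∧ b = 0 := by
    intro a b e1 e2
    constructor
    · have : a * ((v' i0 - v i0) * (v'' i1 - v i1) - (v'' i0 - v i0) * (v' i1 - v i1)) = 0 := by
        linear_combination (v'' i1 - v i1) * e1 - (v' i1 - v i1) * e2
      exact (mul_eq_zero.1 this).resolve_right hmin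
    · have : b * ((v' i0 - v i0) * (v'' i1 - v i1) - (v'' i0 - v i0) * (v' i1 - v i1)) = 0 := by
        linear_combination (v' i0 - v i0) * e2 - (v'' i0 - v i0) * e1
      exact (mul_eq_zero.1 this).resolve_right hmin
  have split : ∀ g : ι → F, (∀ k, k ≠ i0 → k ≠ i1 → g k = 0) → ∑ k, g k = g i0 + g i1 := by
    intro g hg
    rw [← Finset.sum_subset (Finset.subset_univ ({i0, i1} : Finset ι)), Finset.sum_pair hne]
    intro x _ hx
    simp only [Finset.mem_insert, Finset.mem_singleton, not_or] at hx
    exact hg x hx.1 hx.2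
  have r1 : ∀ j, j ≠ i0 → j ≠ i1 → T i0 j - T' i0 j = 0 ∧ T i1 j - T' i1 j = 0 := by
    intro j hj0 hj1
    have e1 := k1 j
    have e2 := k2 j
    rw [split _ (by intro k h0 h1; rw [hoff1 j k hj0 hj1, hoff1 k j h0 h1]; ring)] at e1 e2
    rw [hoff1 j i0 hj0 hj1, hoff1 j i1 hj0 hj1, zero_add, zero_add] at e1 e2
    exact solve _ _ e1 e2
  have r0 : T i0 i0 - T' i0 i0 = 0 ∧ T i0 i1 - T' i0 i1 = 0 := by
    have e1 := k1 i0
    have e2 := k2 i0
    rw [split _ (by intro k h0 h1; rw [(r1 k h0 h1).1, hoff1 k i0 h0 h1]; ring)] at e1 e2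
    rw [hoff2, add_zero] at e1 e2
    obtain ⟨a, b⟩ := solve _ _ e1 e2
    refine ⟨?_, b⟩
    have : (2 : F) * (T i0 i0 - T' i0 i0) = 0 := by rw [← a]; ring
    exact (mul_eq_zero.1 this).resolve_left h2
  have r11 : T i1 i1 - T' i1 i1 = 0 := by
    have e1 := k1 i1
    have e2 := k2 i1
    rw [split _ (by intro k h0 h1; rw [(r1 k h0 h1).2, hoff1 k i1 h0 h1]; ring)] at e1 e2
    rw [hoff2, r0.2, add_zero, zero_mul, zero_add] at e1 e2
    obtain ⟨_, b⟩ := solve 0 _ (by rw [zero_mul, zero_add]; exact e1)
      (by rw [zero_mul, zero_add]; exact e2)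
    have : (2 : F) * (T i1 i1 - T' i1 i1) = 0 := by rw [← b]; ring
    exact (mul_eq_zero.1 this).resolve_left h2
  have hT : T = T' := by
    funext i j
    by_cases hi0 : i = i0
    · subst hi0
      by_cases hj : j = i
      · subst hj; exact sub_eq_zero.1 r0.1
      · by_cases hj1 : j = i1
        · subst hj1; exact sub_eq_zero.1 r0.2
        · exact sub_eq_zero.1 (r1 j hj hj1).1
    · by_cases hi1 : i = i1
      · subst hi1
        by_cases hj : j = i
        · subst hj; exact sub_eq_zero.1 r11
        · by_cases hj0 : j = i0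
          · subst hj0; exact sub_eq_zero.1 hoff2
          · exact sub_eq_zero.1 (r1 j hj0 hj).2
      · exact sub_eq_zero.1 (hoff1 i j hi0 hi1)
  subst hT
  rw [s_eq hθ.1 hθ'.1]

/-- The symplectic form vanishes on differences of points of a Lagrangian graph. -/
theorem pv_symp (T : ι → ι → F) (s v v' v'' : ι → F) :
    ∑ i, ((v' i - v i) * (pv T s v'' i - pv T s v i)
      - (pv T s v' i - pv T s v i) * (v'' i - v i)) = 0 := by
  simp only [pv_sub]
  rw [Finset.sum_sub_distrib, sub_eq_zero]
  simp only [Finset.mul_sum, Finset.sum_mul]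
  rw [Finset.sum_comm]
  apply Finset.sum_congr rfl
  intro i _
  apply Finset.sum_congr rfl
  intro k _
  ring

end Alg

end Crest.Agent.HB.Pl
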