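import Mathlib

/-! Row 32 (S0042), STEP 2, part D: averaging over random functions. -/
set_option autoImplicit false

namespace Crest.Agent.HB.Pl

open Finset

variable {A L : Type} [Fintype A] [DecidableEq A] [Fintype L] [DecidableEq L]

theorem card_fix (s : Finset A) (g : A → L) :
    ((univ : Finset (A → L)).filter (fun f => ∀ x ∈ s, f x = g x)).card * Fintype.card L ^ s.card
      = Fintype.card L ^ Fintype.card A := by
  classical
  have h1 : (univ : Finset (A → L)).filter (fun f => ∀ x ∈ s, f x = g x)
      = Fintype.piFinset (fun x => if x ∈ s then {g x} else univ) := by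
    ext f
    simp only [Finset.mem_filter, Finset.mem_univ, true_and, Fintype.mem_piFinset]
    constructor
    · intro h x
      by_cases hx : x ∈ s
      · simp [hx, h x hx]
      · simp [hx]
    · intro h x hx
      have := h x
      simpa [hx] using this
  rw [h1, Fintype.card_piFinset]
  have h2 : Fintype.card L ^ s.card = ∏ x : A, (if x ∈ s then Fintype.card L else 1) := by
    rw [Finset.prod_ite_mem]; simp
  rw [h2, ← Finset.prod_mul_distrib]
  have h3 : ∀ x ∈ (univ : Finset A), (if x ∈ s then ({g x} : Finset L) else univ).card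
      * (if x ∈ s then Fintype.card L else 1) = Fintype.card L := by
    intro x _
    by_cases hx : x ∈ s <;> simp [hx]
  rw [Finset.prod_congr rfl h3, Finset.prod_const, Finset.card_univ]

theorem avg_one (a : A) (G : L → ℝ) :
    (∑ f : A → L, G (f a)) * (Fintype.card L : ℝ)
      = (Fintype.card L : ℝ) ^ Fintype.card A * ∑ l, G l := by
  classical
  have h1 : ∑ f : A → L, G (f a) = ∑ l, ∑ f ∈ (univ : Finset (A → L)).filter (fun f => f a = l),
      G l := by
    rw [← Finset.sum_fiberwise (s := univ) (g := fun f : A → L => f a) (f := fun f => G (f a))]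
    apply Finset.sum_congr rfl
    intro l _
    apply Finset.sum_congr rfl
    intro f hf
    rw [(Finset.mem_filter.1 hf).2]
  rw [h1, Finset.sum_mul, Finset.mul_sum]
  apply Finset.sum_congr rfl
  intro l _
  rw [Finset.sum_const, nsmul_eq_mul]
  have h2 := card_fix (L := L) ({a} : Finset A) (fun _ => l)
  have h3 : (univ : Finset (A → L)).filter (fun f => ∀ x ∈ ({a} : Finset A), f x = l)
      = (univ : Finset (A → L)).filter (fun f => f a = l) := by
    ext f; simp
  rw [h3, Finset.card_singleton, pow_one] at h2
  have h4 : (((univ : Finset (A → L)).filter (fun f => f a = l)).card : ℝ) * (Fintype.card L : ℝ)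
      = (Fintype.card L : ℝ) ^ Fintype.card A := by exact_mod_cast h2
  rw [← h4]; ring

theorem avg_three (a b c : A) (hab : a ≠ b) (hac : a ≠ c) (hbc : b ≠ c) (G : L → L → L → ℝ) :
    (∑ f : A → L, G (f a) (f b) (f c)) * (Fintype.card L : ℝ) ^ 3
      = (Fintype.card L : ℝ) ^ Fintype.card A * ∑ l, ∑ l', ∑ l'', G l l' l'' := by
  classical
  have h1 : ∑ f : A → L, G (f a) (f b) (f c) = ∑ t : L × L × L,
      ∑ f ∈ (univ : Finset (A → L)).filter (fun f => (f a, f b, f c) = t), G t.1 t.2.1 t.2.2 := by
    rw [← Finset.sum_fiberwise (s := univ) (g := fun f : A → L => (f a, f b, f c))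
      (f := fun f => G (f a) (f b) (f c))]
    apply Finset.sum_congr rfl
    intro t _
    apply Finset.sum_congr rfl
    intro f hf
    rw [← (Finset.mem_filter.1 hf).2]
  have h5 : ∑ l, ∑ l', ∑ l'', G l l' l'' = ∑ t : L × L × L, G t.1 t.2.1 t.2.2 := by
    rw [Fintype.sum_prod_type]
    apply Finset.sum_congr rfl
    intro l _
    rw [Fintype.sum_prod_type]
  rw [h1, h5, Finset.sum_mul, Finset.mul_sum]
  apply Finset.sum_congr rfl
  rintro ⟨l, l', l''⟩ _
  rw [Finset.sum_const, nsmul_eq_mul]
  have h2 := card_fix (L := L) ({a, b, c} : Finset A)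
    (fun x => if x = a then l else if x = b then l' else l'')
  have h3 : (univ : Finset (A → L)).filter (fun f => ∀ x ∈ ({a, b, c} : Finset A), f x =
      (fun x => if x = a then l else if x = b then l' else l'') x)
      = (univ : Finset (A → L)).filter (fun f => (f a, f b, f c) = (l, l', l'')) := by
    ext f
    simp [hab.symm, hac.symm, hbc.symm]
  have hcard : ({a, b, c} : Finset A).card = 3 := by
    rw [Finset.card_eq_three]; exact ⟨a, b, c, hab, hac, hbc, rfl⟩
  rw [h3, hcard] at h2
  have h4 : (((univ : Finset (A → L)).filter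
      (fun f => (f a, f b, f c) = (l, l', l''))).card : ℝ) * (Fintype.card L : ℝ) ^ 3
      = (Fintype.card L : ℝ) ^ Fintype.card A := by exact_mod_cast h2
  rw [← h4]; ring

end Crest.Agent.HB.Pl
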