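import Crest.Agent.HB.PlInst

/-! Row 32 (S0042), STEP 2, part H: parameters. -/
set_option autoImplicit false
set_option linter.unusedSectionVars false

namespace Crest.Agent.HB.Pl

open Finset

/-- The acceptance probability. -/
noncomputable def kap (D m N M : ℕ) : ℝ :=
  (∏ j, ((wI D m N M j : ℕ) : ℝ)) / (M : ℝ) ^ Fintype.card (Fin D ⊕ Fin 4)

theorem inst (D m N a T M : ℕ) (hMp : M.Prime) (hm : 4 * D + 24 ≤ m) (hN : 0 < N)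
    (hM : 6 * m ^ 2 * (a + 1) * N ^ 2 < M)
    (S : Finset (Fin D → ZMod m × ZMod m)) (hS : S.Nonempty) (ε : ℝ)
    (hε : (((S ×ˢ S ×ˢ S).filter (fun t => KK t.1 t.2.1 t.2.2 = 0)).card : ℝ)
      ≤ (S.card : ℝ) ^ 3 * ε) :
    ∃ (X : Finset (Fin a)) (p : Fin a → ℕ), (∀ α ∈ X, p α < M) ∧
      ((a : ℝ) * kap D m N M / ((T : ℝ) + 1)
        - 8 * (a : ℝ) ^ 2 * (1 + Real.log a) ^ 2 / ((T : ℝ) + 1) ^ 3
          * (kap D m N M ^ 3 * ε + kap D m N M ^ 2 * (1 / (N : ℝ) ^ 6)) ≤ (X.card : ℝ)) ∧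
      ∀ α ∈ X, ∀ α' ∈ X, ∀ α'' ∈ X, α ≠ α' → α ≠ α'' → α' ≠ α'' →
        (M : ℤ) ≤ 2 * |(m : ℤ) * ((((α' : ℕ) : ℤ) - (α : ℕ)) * ((p α'' : ℤ) - p α)
          - (((α'' : ℕ) : ℤ) - (α : ℕ)) * ((p α' : ℤ) - p α))| := by
  classical
  have : Fact M.Prime := ⟨hMp⟩
  have : NeZero M := ⟨hMp.ne_zero⟩
  have hm0 : 0 < m := by omega
  have hb : m * (a + 1) ≤ 6 * m ^ 2 * (a + 1) * N ^ 2 := by
    have h1 : 1 ≤ N ^ 2 := Nat.one_le_pow _ _ hN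
    have h2 : m ≤ m ^ 2 := by nlinarith
    calc m * (a + 1) = 1 * m * (a + 1) * 1 := by ring
      _ ≤ 6 * m ^ 2 * (a + 1) * N ^ 2 := by gcongr; norm_num
  have hmM : m < M := by nlinarith
  have haM : a ≤ M := by nlinarith
  have hM2 : 2 < M := by omega
  obtain ⟨s0, hs0⟩ := hS
  have : Nonempty (Lam S N) := ⟨(⟨s0, hs0⟩, (⟨0, hN⟩, ⟨0, hN⟩, ⟨0, hN⟩))⟩
  unfold kap
  apply lift (J := Fin D ⊕ Fin 4) (Λ := Lam S N) (M := M) hM2 m a T hm0 hmM haM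
    (qI S) (WI M S) (wI D m N M) (WI_card M hm0 S)
    (fun l l' l'' => KK l.1.1 l'.1.1 l''.1.1 = 0)
    (fun l l' l'' => l.2 = l'.2 ∧ l.2 = l''.2)
  · intro l l' l'' r r' r'' hr hr' hr'' h
    exact hZ_I M hm0 S l l' l'' r r' r'' hr hr' hr'' h
  · intro l l' l'' x y hx hy hxy h
    exact hE_I hm0 S l l' l'' x y hx hy hxy h
  · intro l l' l'' r r' r'' hr hr' hr''
    exact hK_I M hm S l l' l'' r r' r'' hr hr' hr''
  · intro l l' l'' j x y hx hy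
    refine hsm_I M hm0 hN a (lt_of_le_of_lt ?_ hM) S l l' l'' j x y hx hy
    gcongr
    omega
  · convert cardZ_I (N := N) S ε hε
  · convert cardE_I hN S

theorem kap_eq (D m N M : ℕ) (hM : 0 < M) : kap D m N M
    = (((M / m ^ 3 : ℕ) : ℝ) / M) ^ D * (((M / (m ^ 2 * N) : ℕ) : ℝ) / M) ^ 3
      * (((M / (m ^ 2 * N ^ 2) : ℕ) : ℝ) / M) := by
  unfold kap
  rw [Fintype.prod_sum_type, Fintype.card_sum, Fintype.card_fin, Fintype.card_fin]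
  simp only [wI, Fin.prod_univ_four, Finset.prod_const, Finset.card_univ, Fintype.card_fin]
  simp only [Matrix.cons_val_zero, Matrix.cons_val_one, Matrix.cons_val]
  have : (M : ℝ) ≠ 0 := by positivity
  rw [div_pow, div_pow, pow_add]
  field_simp

theorem floor_ratio (M k m : ℕ) (hk : 0 < k) (hm : 2 ≤ m) (hM : k * m ≤ M) :
    1 / ((k : ℝ) * m) ≤ ((M / k : ℕ) : ℝ) / M := by
  have hM0 : 0 < M := lt_of_lt_of_le (by positivity) hM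
  have hMR : (0 : ℝ) < M := by exact_mod_cast hM0
  have hkR : (0 : ℝ) < k := by exact_mod_cast hk
  have hmR : (2 : ℝ) ≤ m := by exact_mod_cast hm
  -- M < k * (M/k + 1), and M / k ≥ m ≥ 1
  have h1 : M < k * (M / k + 1) := Nat.lt_mul_div_succ M hk
  have h2 : m ≤ M / k := (Nat.le_div_iff_mul_le hk).2 (by rw [mul_comm]; exact hM)
  have h1R : (M : ℝ) < k * (((M / k : ℕ) : ℝ) + 1) := by exact_mod_cast h1
  have h2R : (m : ℝ) ≤ ((M / k : ℕ) : ℝ) := by exact_mod_cast h2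
  rw [div_le_div_iff₀ (by positivity) hMR]
  have h3 : ((M / k : ℕ) : ℝ) + 1 ≤ ((M / k : ℕ) : ℝ) * m := by nlinarith
  calc 1 * (M : ℝ) ≤ k * (((M / k : ℕ) : ℝ) + 1) := by linarith
    _ ≤ k * (((M / k : ℕ) : ℝ) * m) := mul_le_mul_of_nonneg_left h3 hkR.le
    _ = ((M / k : ℕ) : ℝ) * (k * m) := by ring

theorem kap_lb (D m N M : ℕ) (hm : 2 ≤ m) (hN : 0 < N) (hM : m ^ 4 * N ^ 2 ≤ M) :
    1 / ((m : ℝ) ^ (4 * D + 12) * (N : ℝ) ^ 5) ≤ kap D m N M := by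
  have hm0 : 0 < m := by omega
  have hM0 : 0 < M := lt_of_lt_of_le (by positivity) hM
  have hN1 : 1 ≤ N ^ 2 := Nat.one_le_pow _ _ hN
  have hN2 : N ≤ N ^ 2 := by nlinarith
  have hmR : (0 : ℝ) < m := by exact_mod_cast hm0
  have hNR : (0 : ℝ) < N := by exact_mod_cast hN
  have hm34 : m ^ 3 ≤ m ^ 4 := Nat.pow_le_pow_right hm0 (by norm_num)
  rw [kap_eq D m N M hM0]
  have e1 : 1 / (((m ^ 3 : ℕ) : ℝ) * m) ≤ ((M / m ^ 3 : ℕ) : ℝ) / M :=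
    floor_ratio M (m ^ 3) m (by positivity) hm (by nlinarith)
  have e2 : 1 / (((m ^ 2 * N : ℕ) : ℝ) * m) ≤ ((M / (m ^ 2 * N) : ℕ) : ℝ) / M :=
    floor_ratio M (m ^ 2 * N) m (by positivity) hm (by
      calc m ^ 2 * N * m = m ^ 3 * N := by ring
        _ ≤ m ^ 4 * N ^ 2 := Nat.mul_le_mul hm34 hN2
        _ ≤ M := hM)
  have e3 : 1 / (((m ^ 2 * N ^ 2 : ℕ) : ℝ) * m) ≤ ((M / (m ^ 2 * N ^ 2) : ℕ) : ℝ) / M :=
    floor_ratio M (m ^ 2 * N ^ 2) m (by positivity) hm (by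
      calc m ^ 2 * N ^ 2 * m = m ^ 3 * N ^ 2 := by ring
        _ ≤ m ^ 4 * N ^ 2 := Nat.mul_le_mul_right _ hm34
        _ ≤ M := hM)
  have e4 : 1 / ((m : ℝ) ^ (4 * D + 12) * (N : ℝ) ^ 5)
      ≤ (1 / (((m ^ 3 : ℕ) : ℝ) * m)) ^ D * (1 / (((m ^ 2 * N : ℕ) : ℝ) * m)) ^ 3
        * (1 / (((m ^ 2 * N ^ 2 : ℕ) : ℝ) * m)) := by
    apply le_of_eq
    push_cast
    rw [one_div_pow, one_div_pow, one_div_mul_one_div, one_div_mul_one_div]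
    congr 1
    have : ((m : ℝ) ^ 3 * m) ^ D = (m : ℝ) ^ (4 * D) := by
      rw [← pow_succ, ← pow_mul]
    rw [this, pow_add]
    ring
  refine le_trans e4 ?_
  have p1 : (0 : ℝ) ≤ 1 / (((m ^ 3 : ℕ) : ℝ) * m) := by positivity
  have p2 : (0 : ℝ) ≤ 1 / (((m ^ 2 * N : ℕ) : ℝ) * m) := by positivity
  have p3 : (0 : ℝ) ≤ 1 / (((m ^ 2 * N ^ 2 : ℕ) : ℝ) * m) := by positivity
  exact mul_le_mul (mul_le_mul (pow_le_pow_left₀ p1 e1 D) (pow_le_pow_left₀ p2 e2 3)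
    (by positivity) (by positivity)) e3 p3 (by positivity)

end Crest.Agent.HB.Pl
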