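import Mathlib

/-! Row 32 (S0042), STEP 2, part B: counting solutions of `x P'' - y P' = c`, gcd sums. -/
set_option autoImplicit false

namespace Crest.Agent.HB.Pl

open Finset

theorem residue_count (M k : ℕ) (hk : 0 < k) (s : Finset ℕ) (hs : ∀ v ∈ s, v < M)
    (h : ∀ v ∈ s, ∀ v' ∈ s, (k : ℤ) ∣ (v : ℤ) - v') : s.card ≤ M / k + 1 := by
  classical
  rcases s.eq_empty_or_nonempty with rfl | ⟨v0, hv0⟩
  · simp
  have h1 : s ⊆ (range M).filter (fun v => v ≡ v0 [MOD k]) := by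
    intro v hv
    rw [Finset.mem_filter, Finset.mem_range]
    refine ⟨hs v hv, ?_⟩
    exact (Nat.modEq_iff_dvd).2 (h v0 hv0 v hv)
  calc s.card ≤ ((range M).filter (fun v => v ≡ v0 [MOD k])).card := Finset.card_le_card h1
    _ = M.count (fun v => v ≡ v0 [MOD k]) := by rw [Nat.count_eq_card_filter_range]
    _ ≤ M / k + 1 := by
        rw [Nat.count_modEq_card M hk v0]
        split_ifs <;> omega

theorem N0_count (M : ℕ) (x y c : ℤ) (hx : x ≠ 0) :
    (((range M) ×ˢ (range M) ×ˢ (range M)).filter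
      (fun t => x * ((t.2.2 : ℤ) - t.1) - y * ((t.2.1 : ℤ) - t.1) = c)).card
      ≤ (M / (x.natAbs / Int.gcd x y) + 1) * M := by
  classical
  set g := Int.gcd x y with hg
  have hgpos : 0 < g := Int.gcd_pos_of_ne_zero_left y hx
  set k := x.natAbs / g with hk
  have hgx : g ∣ x.natAbs := by
    rw [hg]; exact Int.natCast_dvd.1 (Int.gcd_dvd_left x y)
  have hkpos : 0 < k := Nat.div_pos (Nat.le_of_dvd (Int.natAbs_pos.2 hx) hgx) hgpos
  have hkg : k * g = x.natAbs := Nat.div_mul_cancel hgx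
  suffices hmain : (((range M) ×ˢ (range M) ×ˢ (range M)).filter
      (fun t => x * ((t.2.2 : ℤ) - t.1) - y * ((t.2.1 : ℤ) - t.1) = c)).card
      ≤ (M / k + 1) * (range M).card by
    rwa [Finset.card_range] at hmain
  apply Finset.card_le_mul_card_image_of_maps_to (f := fun t : ℕ × ℕ × ℕ => t.1)
  · intro t ht
    simp only [Finset.mem_filter, Finset.mem_product] at ht
    exact ht.1.1
  · intro p _
    -- the fibre
    have hinj : Set.InjOn (fun t : ℕ × ℕ × ℕ => t.2.1) (((((range M) ×ˢ (range M) ×ˢ (range M)).filter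
      (fun t => x * ((t.2.2 : ℤ) - t.1) - y * ((t.2.1 : ℤ) - t.1) = c)).filter
        (fun t => t.1 = p) : Finset (ℕ × ℕ × ℕ)) : Set (ℕ × ℕ × ℕ)) := by
      rintro ⟨a1, a2, a3⟩ ha ⟨b1, b2, b3⟩ hb hab
      simp only [Finset.coe_filter, Finset.mem_filter, Set.mem_ofPred_eq] at ha hb
      simp only at hab
      obtain ⟨⟨_, ha1⟩, ha2⟩ := ha
      obtain ⟨⟨_, hb1⟩, hb2⟩ := hb
      subst ha2; subst hb2; subst hab
      have : x * ((a3 : ℤ) - b3) = 0 := by linear_combination ha1 - hb1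
      have h3 := (mul_eq_zero.1 this).resolve_left hx
      have : a3 = b3 := by omega
      rw [this]
    rw [← Finset.card_image_of_injOn hinj]
    apply residue_count M k hkpos
    · intro v hv
      rw [Finset.mem_image] at hv
      obtain ⟨t, ht, rfl⟩ := hv
      simp only [Finset.mem_filter, Finset.mem_product, Finset.mem_range] at ht
      exact ht.1.1.2.1
    · intro v hv v' hv'
      rw [Finset.mem_image] at hv hv'
      obtain ⟨⟨a1, a2, a3⟩, ht, rfl⟩ := hv
      obtain ⟨⟨b1, b2, b3⟩, ht', rfl⟩ := hv'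
      simp only [Finset.mem_filter, Finset.mem_product, Finset.mem_range] at ht ht'
      obtain ⟨⟨_, ha1⟩, ha2⟩ := ht
      obtain ⟨⟨_, hb1⟩, hb2⟩ := ht'
      subst ha2; subst hb2
      simp only
      -- x ∣ y * (a2 - b2)
      have hdvd : x ∣ y * ((a2 : ℤ) - b2) := ⟨(a3 : ℤ) - b3, by linear_combination hb1 - ha1⟩
      have hxg : (g : ℤ) ∣ x := Int.gcd_dvd_left x y
      have hyg : (g : ℤ) ∣ y := Int.gcd_dvd_right x y
      obtain ⟨x', hx'⟩ := hxg
      obtain ⟨y', hy'⟩ := hyg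
      have hcop : IsCoprime x' y' := by
        have h1 : Int.gcd x' y' = 1 := by
          have h2 : Int.gcd x y = g * Int.gcd x' y' := by
            conv_lhs => rw [hx', hy']
            rw [Int.gcd_mul_left]
            simp
          rw [← hg] at h2
          have h3 : g * 1 = g * Int.gcd x' y' := by rw [mul_one]; exact h2
          exact (Nat.eq_of_mul_eq_mul_left hgpos h3).symm
        exact Int.isCoprime_iff_gcd_eq_one.2 h1
      have hg0 : (g : ℤ) ≠ 0 := by exact_mod_cast hgpos.ne'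
      have hdvd2 : x' ∣ y' * ((a2 : ℤ) - b2) := by
        obtain ⟨z, hz⟩ := hdvd
        refine ⟨z, ?_⟩
        have : (g : ℤ) * (y' * ((a2 : ℤ) - b2)) = g * (x' * z) := by
          have e1 : y * ((a2 : ℤ) - b2) = (g * y') * ((a2 : ℤ) - b2) := by rw [← hy']
          have e2 : x * z = (g * x') * z := by rw [← hx']
          linear_combination hz - e1 + e2
        exact mul_left_cancel₀ hg0 this
      have hdvd3 : x' ∣ (a2 : ℤ) - b2 := hcop.dvd_of_dvd_mul_left hdvd2
      have hkx : k = x'.natAbs := by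
        have : x.natAbs = g * x'.natAbs := by
          conv_lhs => rw [hx']
          rw [Int.natAbs_mul]; simp
        have h4 : k * g = x'.natAbs * g := by rw [hkg, this]; ring
        exact Nat.eq_of_mul_eq_mul_right hgpos h4
      rw [hkx]
      exact Int.natAbs_dvd.2 hdvd3

/-- The weight `gcd(x,y)/|x|`. -/
noncomputable def gw (x y : ℤ) : ℝ := (Int.gcd x y : ℝ) / (x.natAbs : ℝ)

theorem gw_nonneg (x y : ℤ) : 0 ≤ gw x y := by unfold gw; positivity

theorem N0_real (M : ℕ) (x y : ℤ) (hx : x ≠ 0) (hxM : x.natAbs ≤ M) :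
    (((M / (x.natAbs / Int.gcd x y) + 1) * M : ℕ) : ℝ) ≤ 2 * (M : ℝ) ^ 2 * gw x y := by
  set g := Int.gcd x y with hg
  have hgpos : 0 < g := Int.gcd_pos_of_ne_zero_left y hx
  have hgx : g ∣ x.natAbs := by
    rw [hg]; exact Int.natCast_dvd.1 (Int.gcd_dvd_left x y)
  have hxpos : 0 < x.natAbs := Int.natAbs_pos.2 hx
  have hkpos : 0 < x.natAbs / g := Nat.div_pos (Nat.le_of_dvd hxpos hgx) hgpos
  have hk1 : ((x.natAbs / g : ℕ) : ℝ) = (x.natAbs : ℝ) / g := Nat.cast_div hgx (by positivity)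
  have hkM : x.natAbs / g ≤ M := le_trans (Nat.div_le_self _ _) hxM
  have h1 : ((M / (x.natAbs / g) + 1 : ℕ) : ℝ) ≤ 2 * M * gw x y := by
    push_cast
    have h2 : ((M / (x.natAbs / g) : ℕ) : ℝ) ≤ (M : ℝ) / ((x.natAbs / g : ℕ) : ℝ) := Nat.cast_div_le
    have h3 : (1 : ℝ) ≤ (M : ℝ) / ((x.natAbs / g : ℕ) : ℝ) := by
      rw [le_div_iff₀ (by exact_mod_cast hkpos), one_mul]
      exact_mod_cast hkM
    have h4 : (M : ℝ) / ((x.natAbs / g : ℕ) : ℝ) = M * gw x y := by
      rw [hk1]; unfold gw; rw [← hg]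
      have : (g : ℝ) ≠ 0 := by positivity
      have : (x.natAbs : ℝ) ≠ 0 := by positivity
      field_simp
    linarith
  calc (((M / (x.natAbs / g) + 1) * M : ℕ) : ℝ)
      = ((M / (x.natAbs / g) + 1 : ℕ) : ℝ) * M := by push_cast; ring
    _ ≤ (2 * M * gw x y) * M := mul_le_mul_of_nonneg_right h1 (Nat.cast_nonneg _)
    _ = 2 * (M : ℝ) ^ 2 * gw x y := by ring

/-- Harmonic sums. -/
theorem harm (a : ℕ) : ∑ d ∈ Ioc 0 a, (1 : ℝ) / d ≤ 1 + Real.log a := by
  have h := harmonic_le_one_add_log a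
  refine le_trans (le_of_eq ?_) h
  rw [harmonic]
  push_cast
  have : Ioc 0 a = (range a).image (fun i => i + 1) := by
    ext i
    simp only [Finset.mem_Ioc, Finset.mem_image, Finset.mem_range]
    constructor
    · rintro ⟨h1, h2⟩
      exact ⟨i - 1, by omega, by omega⟩
    · rintro ⟨j, hj, rfl⟩
      omega
  rw [this, Finset.sum_image (by intro x _ y _ hxy; simpa using hxy)]
  apply Finset.sum_congr rfl
  intro i _
  push_cast
  rw [one_div]

theorem harm_mul (a d : ℕ) (hd : 0 < d) :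
    ∑ x ∈ (Ioc 0 a).filter (fun x => d ∣ x), (1 : ℝ) / x ≤ (1 / d) * (1 + Real.log a) := by
  classical
  have h1 : (Ioc 0 a).filter (fun x => d ∣ x) ⊆ (Ioc 0 a).image (fun k => d * k) := by
    intro x hx
    simp only [Finset.mem_filter, Finset.mem_Ioc, Finset.mem_image] at hx ⊢
    obtain ⟨⟨h0, ha⟩, k, rfl⟩ := hx
    refine ⟨k, ⟨?_, ?_⟩, rfl⟩
    · exact Nat.pos_of_mul_pos_left h0 |> fun h => by
        rcases Nat.eq_zero_or_pos k with hk | hk
        · subst hk; simp at h0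
        · exact hk
    · exact le_trans (Nat.le_mul_of_pos_left k hd) ha
  calc ∑ x ∈ (Ioc 0 a).filter (fun x => d ∣ x), (1 : ℝ) / x
      ≤ ∑ x ∈ (Ioc 0 a).image (fun k => d * k), (1 : ℝ) / x :=
        Finset.sum_le_sum_of_subset_of_nonneg h1 (fun i _ _ => by positivity)
    _ = ∑ k ∈ Ioc 0 a, (1 : ℝ) / ((d * k : ℕ) : ℝ) := by
        rw [Finset.sum_image]
        intro x _ y _ hxy
        exact Nat.eq_of_mul_eq_mul_left hd hxy
    _ = (1 / d) * ∑ k ∈ Ioc 0 a, (1 : ℝ) / k := by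
        rw [Finset.mul_sum]
        apply Finset.sum_congr rfl
        intro k _
        push_cast
        rw [one_div_mul_one_div]
    _ ≤ (1 / d) * (1 + Real.log a) :=
        mul_le_mul_of_nonneg_left (harm a) (by positivity)

theorem gcd_sum (a : ℕ) :
    ∑ x ∈ Ioc 0 a, ∑ y ∈ Ioc 0 a, ((Nat.gcd x y : ℕ) : ℝ) / x ≤ a * (1 + Real.log a) ^ 2 := by
  classical
  -- gcd ≤ sum over common divisors
  have h1 : ∀ x ∈ Ioc 0 a, ∀ y ∈ Ioc 0 a, ((Nat.gcd x y : ℕ) : ℝ) / x ≤
      ∑ d ∈ Ioc 0 a, if d ∣ x then (if d ∣ y then (d : ℝ) / x else 0) else 0 := by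
    intro x hx y hy
    rw [Finset.mem_Ioc] at hx hy
    have hg : Nat.gcd x y ∈ Ioc 0 a := by
      rw [Finset.mem_Ioc]
      exact ⟨Nat.gcd_pos_of_pos_left _ hx.1, le_trans (Nat.gcd_le_left _ hx.1) hx.2⟩
    refine le_trans ?_ (Finset.single_le_sum (f := fun d : ℕ =>
      if d ∣ x then (if d ∣ y then (d : ℝ) / x else 0) else 0) ?_ hg)
    · simp [Nat.gcd_dvd_left, Nat.gcd_dvd_right]
    · intro d _
      positivity
  calc ∑ x ∈ Ioc 0 a, ∑ y ∈ Ioc 0 a, ((Nat.gcd x y : ℕ) : ℝ) / x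
      ≤ ∑ x ∈ Ioc 0 a, ∑ y ∈ Ioc 0 a,
        ∑ d ∈ Ioc 0 a, (if d ∣ x then (if d ∣ y then (d : ℝ) / x else 0) else 0) := by
        apply Finset.sum_le_sum; intro x hx
        apply Finset.sum_le_sum; intro y hy
        exact h1 x hx y hy
    _ = ∑ d ∈ Ioc 0 a, ∑ x ∈ Ioc 0 a, ∑ y ∈ Ioc 0 a,
        (if d ∣ x then (if d ∣ y then (d : ℝ) / x else 0) else 0) := by
        rw [Finset.sum_comm (s := Ioc 0 a) (t := Ioc 0 a)
          (f := fun d x => ∑ y ∈ Ioc 0 a,
            (if d ∣ x then (if d ∣ y then (d : ℝ) / x else 0) else 0))]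
        apply Finset.sum_congr rfl
        intro x _
        rw [Finset.sum_comm]
    _ ≤ ∑ d ∈ Ioc 0 a, (a : ℝ) * ((1 / d) * (1 + Real.log a)) := by
        apply Finset.sum_le_sum
        intro d hd
        rw [Finset.mem_Ioc] at hd
        have h2 : ∀ x ∈ Ioc 0 a, ∑ y ∈ Ioc 0 a,
            (if d ∣ x then (if d ∣ y then (d : ℝ) / x else 0) else 0)
            ≤ if d ∣ x then (a : ℝ) * (1 / x) else 0 := by
          intro x hx
          split_ifs with hdx
          · rw [← Finset.sum_filter, Finset.sum_const, Nat.Ioc_filter_dvd_card_eq_div, nsmul_eq_mul]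
            have h3 : ((a / d : ℕ) : ℝ) ≤ (a : ℝ) / d := Nat.cast_div_le
            have hdpos : (0 : ℝ) < d := by exact_mod_cast hd.1
            calc ((a / d : ℕ) : ℝ) * ((d : ℝ) / x) ≤ ((a : ℝ) / d) * ((d : ℝ) / x) :=
                  mul_le_mul_of_nonneg_right h3 (by positivity)
              _ = a * (1 / x) := by field_simp
          · simp
        calc ∑ x ∈ Ioc 0 a, ∑ y ∈ Ioc 0 a,
            (if d ∣ x then (if d ∣ y then (d : ℝ) / x else 0) else 0)
            ≤ ∑ x ∈ Ioc 0 a, (if d ∣ x then (a : ℝ) * (1 / x) else 0) :=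
              Finset.sum_le_sum h2
          _ = a * ∑ x ∈ (Ioc 0 a).filter (fun x => d ∣ x), (1 : ℝ) / x := by
              rw [← Finset.sum_filter, Finset.mul_sum]
          _ ≤ a * ((1 / d) * (1 + Real.log a)) :=
              mul_le_mul_of_nonneg_left (harm_mul a d hd.1) (Nat.cast_nonneg _)
    _ = a * (1 + Real.log a) * ∑ d ∈ Ioc 0 a, (1 : ℝ) / d := by
        rw [Finset.mul_sum]
        apply Finset.sum_congr rfl
        intro d _
        ring
    _ ≤ a * (1 + Real.log a) * (1 + Real.log a) := by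
        apply mul_le_mul_of_nonneg_left (harm a)
        rcases Nat.eq_zero_or_pos a with h | h
        · simp [h]
        · have : 0 ≤ Real.log a := Real.log_nonneg (by exact_mod_cast h)
          positivity
    _ = a * (1 + Real.log a) ^ 2 := by ring

theorem two_to_one (a c : ℕ) (f : ℕ → ℝ) (hf : ∀ x, 0 ≤ f x) (hc : c < a) :
    ∑ b ∈ (range a).filter (fun b => b ≠ c), f (((b : ℤ) - c).natAbs)
      ≤ 2 * ∑ x ∈ Ioc 0 a, f x := by
  classical
  rw [← Finset.sum_fiberwise_of_maps_to (s := (range a).filter (fun b => b ≠ c)) (t := Ioc 0 a)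
    (g := fun b : ℕ => ((b : ℤ) - c).natAbs), Finset.mul_sum]
  · apply Finset.sum_le_sum
    intro x _
    rw [Finset.sum_congr rfl (g := fun _ => f x)]
    · rw [Finset.sum_const, nsmul_eq_mul]
      apply mul_le_mul_of_nonneg_right _ (hf x)
      have : (((range a).filter (fun b => b ≠ c)).filter
          (fun b : ℕ => ((b : ℤ) - c).natAbs = x)).card ≤ 2 := by
        calc _ ≤ ({c + x, c - x} : Finset ℕ).card := by
              apply Finset.card_le_card
              intro b hb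
              simp only [Finset.mem_filter, Finset.mem_range] at hb
              simp only [Finset.mem_insert, Finset.mem_singleton]
              omega
          _ ≤ 2 := Finset.card_le_two
      exact_mod_cast this
    · intro b hb
      rw [Finset.mem_filter] at hb
      rw [hb.2]
  · intro b hb
    simp only [Finset.mem_filter, Finset.mem_range, Finset.mem_Ioc] at hb ⊢
    omega

/-- Sum of the weights over triples. -/
theorem gw_sum (a : ℕ) :
    ∑ α ∈ range a, ∑ α' ∈ (range a).filter (fun b => b ≠ α),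
      ∑ α'' ∈ (range a).filter (fun b => b ≠ α), gw ((α' : ℤ) - α) ((α'' : ℤ) - α)
      ≤ 4 * (a : ℝ) ^ 2 * (1 + Real.log a) ^ 2 := by
  have h1 : ∀ α ∈ range a, ∑ α' ∈ (range a).filter (fun b => b ≠ α),
      ∑ α'' ∈ (range a).filter (fun b => b ≠ α), gw ((α' : ℤ) - α) ((α'' : ℤ) - α)
      ≤ 4 * (a * (1 + Real.log a) ^ 2) := by
    intro α hα
    rw [Finset.mem_range] at hα
    have h2 : ∀ α' ∈ (range a).filter (fun b => b ≠ α),
        ∑ α'' ∈ (range a).filter (fun b => b ≠ α), gw ((α' : ℤ) - α) ((α'' : ℤ) - α)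
        ≤ 2 * ∑ y ∈ Ioc 0 a, ((Nat.gcd ((α' : ℤ) - α).natAbs y : ℕ) : ℝ)
          / (((α' : ℤ) - α).natAbs : ℝ) := by
      intro α' _
      exact two_to_one a α (fun y => ((Nat.gcd ((α' : ℤ) - α).natAbs y : ℕ) : ℝ)
          / (((α' : ℤ) - α).natAbs : ℝ)) (fun y => by positivity) hα
    calc _ ≤ ∑ α' ∈ (range a).filter (fun b => b ≠ α),
          2 * ∑ y ∈ Ioc 0 a, ((Nat.gcd ((α' : ℤ) - α).natAbs y : ℕ) : ℝ)
          / (((α' : ℤ) - α).natAbs : ℝ) := Finset.sum_le_sum h2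
      _ ≤ 2 * ∑ x ∈ Ioc 0 a, 2 * ∑ y ∈ Ioc 0 a, ((Nat.gcd x y : ℕ) : ℝ) / (x : ℝ) :=
          two_to_one a α (fun x => 2 * ∑ y ∈ Ioc 0 a, ((Nat.gcd x y : ℕ) : ℝ) / (x : ℝ))
            (fun y => by positivity) hα
      _ = 4 * ∑ x ∈ Ioc 0 a, ∑ y ∈ Ioc 0 a, ((Nat.gcd x y : ℕ) : ℝ) / (x : ℝ) := by
          rw [← Finset.mul_sum]; ring
      _ ≤ 4 * (a * (1 + Real.log a) ^ 2) :=
          mul_le_mul_of_nonneg_left (gcd_sum a) (by norm_num)
  calc _ ≤ ∑ α ∈ range a, 4 * (a * (1 + Real.log a) ^ 2) := Finset.sum_le_sum h1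
    _ = 4 * (a : ℝ) ^ 2 * (1 + Real.log a) ^ 2 := by
        rw [Finset.sum_const, Finset.card_range, nsmul_eq_mul]; ring

/-- The natural number bounding the physical count. -/
def N0nat (M : ℕ) (x y : ℤ) : ℕ := (M / (x.natAbs / Int.gcd x y) + 1) * M

end Crest.Agent.HB.Pl
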