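import Crest.Agent.HB.PlAlg
import Crest.Agent.HB.PlCount

/-! Row 32 (S0042), STEP 2, part E: the probability of a bad triple. -/
set_option autoImplicit false
set_option linter.unusedSectionVars false

namespace Crest.Agent.HB.Pl

open Finset

section Event
variable {J : Type} [Fintype J] [DecidableEq J] {M : ℕ} [hMp : Fact M.Prime]

/-- Random parameters. -/
abbrev Th (J : Type) (M : ℕ) := (Option J → Option J → ZMod M) × (Option J → ZMod M)

/-- The integer vector: physical coordinate `m α`, internal coordinates `q`. -/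
def qv (m : ℕ) (α : ℕ) (q : J → ℤ) : Option J → ℤ
  | none => (m : ℤ) * α
  | some j => q j

/-- Its reduction mod `M`. -/
def qF (M : ℕ) (m : ℕ) (α : ℕ) (q : J → ℤ) : Option J → ZMod M := fun i => (qv m α q i : ZMod M)

/-- General symplectic sum. -/
def Ksum {ι : Type} [Fintype ι] (u u' u'' : ι → ℤ) (w w' w'' : ι → ZMod M) : ℤ :=
  ∑ i, ((u' i - u i) * (((w'' i).val : ℤ) - (w i).val)
    - (((w' i).val : ℤ) - (w i).val) * (u'' i - u i))

/-- The momentum of the point with index `(α, q)`. -/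
def pp (θ : Th J M) (m α : ℕ) (q : J → ℤ) : Option J → ZMod M := pv θ.1 θ.2 (qF M m α q)

theorem Ksum_dvd (θ : Th J M) (m α α' α'' : ℕ) (q q' q'' : J → ℤ) :
    (M : ℤ) ∣ Ksum (qv m α q) (qv m α' q') (qv m α'' q'')
      (pp θ m α q) (pp θ m α' q') (pp θ m α'' q'') := by
  have : NeZero M := ⟨hMp.out.ne_zero⟩
  rw [← ZMod.intCast_zmod_eq_zero_iff_dvd]
  unfold Ksum
  push_cast
  simp only [ZMod.natCast_zmod_val]
  have h := pv_symp θ.1 θ.2 (qF M m α q) (qF M m α' q') (qF M m α'' q'')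
  unfold pp
  rw [← h]
  rfl

theorem Ksum_option (m α α' α'' : ℕ) (q q' q'' : J → ℤ) (w w' w'' : Option J → ZMod M) :
    Ksum (qv m α q) (qv m α' q') (qv m α'' q'') w w' w''
      = (m : ℤ) * ((((α' : ℤ) - α) * (((w'' none).val : ℤ) - (w none).val)
          - ((α'' : ℤ) - α) * (((w' none).val : ℤ) - (w none).val)))
        + Ksum q q' q'' (fun j => w (some j)) (fun j => w' (some j)) (fun j => w'' (some j)) := by
  unfold Ksum
  rw [Fintype.sum_option]
  simp only [qv]
  ring

/-- Fibres of the good set over the internal parts. -/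
theorem phys_fibre {X : Type} (m : ℕ) (hm : 0 < m) (x y K : ℤ) (hx : x ≠ 0) (S : Finset X)
    (f : X → ZMod M × ZMod M × ZMod M)
    (hinj : Set.InjOn f (S : Set X))
    (hS : ∀ s ∈ S, (m : ℤ) * (x * (((f s).2.2.val : ℤ) - (f s).1.val)
      - y * (((f s).2.1.val : ℤ) - (f s).1.val)) + K = 0) :
    S.card ≤ N0nat M x y := by
  classical
  have : NeZero M := ⟨hMp.out.ne_zero⟩
  refine le_trans ?_ (N0_count M x y ((-K) / m) hx)
  apply Finset.card_le_card_of_injOn
    (fun s => ((f s).1.val, (f s).2.1.val, (f s).2.2.val))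
  · intro s hs
    have hs' := hS s hs
    simp only [Finset.coe_filter, Finset.mem_product, Finset.mem_range, Set.mem_ofPred_eq]
    refine ⟨⟨ZMod.val_lt _, ZMod.val_lt _, ZMod.val_lt _⟩, ?_⟩
    apply Int.eq_ediv_of_mul_eq_right (by exact_mod_cast hm.ne')
    linarith
  · intro s hs s' hs' hss
    apply hinj hs hs'
    simp only [Prod.mk.injEq] at hss
    have h1 := ZMod.val_injective M hss.1
    have h2 := ZMod.val_injective M hss.2.1
    have h3 := ZMod.val_injective M hss.2.2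
    exact Prod.ext h1 (Prod.ext h2 h3)

variable (W : J → Finset (ZMod M))

/-- The bad event for a triple of indices. -/
def badEv (m : ℕ) (α α' α'' : ℕ) (q q' q'' : J → ℤ) (W W' W'' : J → Finset (ZMod M))
    (θ : Th J M) : Prop :=
  (∀ j, pp θ m α q (some j) ∈ W j) ∧ (∀ j, pp θ m α' q' (some j) ∈ W' j) ∧
  (∀ j, pp θ m α'' q'' (some j) ∈ W'' j) ∧
  Ksum (qv m α q) (qv m α' q') (qv m α'' q'') (pp θ m α q) (pp θ m α' q') (pp θ m α'' q'') = 0

open Classical in
/-- Number of good data in the independent case. -/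
theorem good3_card (m α α' α'' : ℕ) (hm : 0 < m) (hx : α ≠ α') (q q' q'' : J → ℤ)
    (W W' W'' : J → Finset (ZMod M)) (w : J → ℕ) (h1 : ∀ j, (W j).card = w j)
    (h2 : ∀ j, (W' j).card = w j) (h3 : ∀ j, (W'' j).card = w j) :
    ((univ : Finset ((Option J → ZMod M) × (Option J → ZMod M) × (Option J → ZMod M))).filter
      (fun t => (∀ j, t.1 (some j) ∈ W j) ∧ (∀ j, t.2.1 (some j) ∈ W' j) ∧
        (∀ j, t.2.2 (some j) ∈ W'' j) ∧
        Ksum (qv m α q) (qv m α' q') (qv m α'' q'') t.1 t.2.1 t.2.2 = 0)).card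
      ≤ N0nat M ((α' : ℤ) - α) ((α'' : ℤ) - α) * (∏ j, w j) ^ 3 := by
  have hbox : (Fintype.piFinset W ×ˢ Fintype.piFinset W' ×ˢ Fintype.piFinset W'').card
      = (∏ j, w j) ^ 3 := by
    rw [Finset.card_product, Finset.card_product, Fintype.card_piFinset, Fintype.card_piFinset,
      Fintype.card_piFinset, Finset.prod_congr rfl (fun j _ => h1 j),
      Finset.prod_congr rfl (fun j _ => h2 j), Finset.prod_congr rfl (fun j _ => h3 j)]
    ring
  rw [← hbox]
  apply Finset.card_le_mul_card_image_of_maps_to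
    (f := fun t : (Option J → ZMod M) × (Option J → ZMod M) × (Option J → ZMod M) =>
      ((fun j => t.1 (some j) : J → ZMod M), (fun j => t.2.1 (some j) : J → ZMod M),
        (fun j => t.2.2 (some j) : J → ZMod M)))
  · intro t ht
    simp only [Finset.mem_filter, Finset.mem_univ, true_and] at ht
    simp only [Finset.mem_product, Fintype.mem_piFinset]
    exact ⟨ht.1, ht.2.1, ht.2.2.1⟩
  · rintro ⟨r, r', r''⟩ _
    apply phys_fibre m hm ((α' : ℤ) - α) ((α'' : ℤ) - α) (Ksum q q' q'' r r' r'')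
      (by intro h; apply hx; omega) _ (fun t => (t.1 none, t.2.1 none, t.2.2 none))
    · rintro ⟨t, t', t''⟩ ht ⟨u, u', u''⟩ hu htu
      simp only [Finset.coe_filter, Finset.mem_filter, Finset.mem_univ, true_and,
        Set.mem_ofPred_eq, Prod.mk.injEq] at ht hu htu
      obtain ⟨_, ht1, ht2, ht3⟩ := ht
      obtain ⟨_, hu1, hu2, hu3⟩ := hu
      have e : ∀ a b : Option J → ZMod M, ∀ c : J → ZMod M, (fun j => a (some j)) = c →
          (fun j => b (some j)) = c → a none = b none → a = b := by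
        intro a b c ha hb hn
        funext i
        cases i with
        | none => exact hn
        | some j => exact (congrFun ha j).trans (congrFun hb j).symm
      rw [e t u r ht1 hu1 htu.1, e t' u' r' ht2 hu2 htu.2.1, e t'' u'' r'' ht3 hu3 htu.2.2]
    · rintro ⟨t, t', t''⟩ ht
      simp only [Finset.mem_filter, Finset.mem_univ, true_and, Prod.mk.injEq] at ht
      obtain ⟨⟨_, _, _, hK⟩, ht1, ht2, ht3⟩ := ht
      rw [Ksum_option, ht1, ht2, ht3] at hK
      exact hK

open Classical in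
/-- Number of good data in the collinear case. -/
theorem good2_card (m α α' α'' : ℕ) (hm : 0 < m) (hx : α ≠ α') (q q' q'' : J → ℤ)
    (W W' : J → Finset (ZMod M)) (w : J → ℕ) (h1 : ∀ j, (W j).card = w j)
    (h2 : ∀ j, (W' j).card = w j) (t : ZMod M) :
    ((univ : Finset ((Option J → ZMod M) × (Option J → ZMod M))).filter
      (fun u => (∀ j, u.1 (some j) ∈ W j) ∧ (∀ j, u.2 (some j) ∈ W' j) ∧
        Ksum (qv m α q) (qv m α' q') (qv m α'' q'') u.1 u.2
          (fun i => u.1 i + t * (u.2 i - u.1 i)) = 0)).card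
      ≤ N0nat M ((α' : ℤ) - α) ((α'' : ℤ) - α) * (∏ j, w j) ^ 2 := by
  have hbox : (Fintype.piFinset W ×ˢ Fintype.piFinset W').card
      = (∏ j, w j) ^ 2 := by
    rw [Finset.card_product, Fintype.card_piFinset, Fintype.card_piFinset,
      Finset.prod_congr rfl (fun j _ => h1 j), Finset.prod_congr rfl (fun j _ => h2 j)]
    ring
  rw [← hbox]
  apply Finset.card_le_mul_card_image_of_maps_to
    (f := fun u : (Option J → ZMod M) × (Option J → ZMod M) =>
      ((fun j => u.1 (some j) : J → ZMod M), (fun j => u.2 (some j) : J → ZMod M)))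
  · intro u hu
    simp only [Finset.mem_filter, Finset.mem_univ, true_and] at hu
    simp only [Finset.mem_product, Fintype.mem_piFinset]
    exact ⟨hu.1, hu.2.1⟩
  · rintro ⟨r, r'⟩ _
    apply phys_fibre m hm ((α' : ℤ) - α) ((α'' : ℤ) - α)
      (Ksum q q' q'' r r' (fun j => r j + t * (r' j - r j)))
      (by intro h; apply hx; omega) _
      (fun u => (u.1 none, u.2 none, u.1 none + t * (u.2 none - u.1 none)))
    · rintro ⟨a, a'⟩ ha ⟨u, u'⟩ hu hau
      simp only [Finset.coe_filter, Finset.mem_filter, Finset.mem_univ, true_and,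
        Set.mem_ofPred_eq, Prod.mk.injEq] at ha hu hau
      obtain ⟨_, ha1, ha2⟩ := ha
      obtain ⟨_, hu1, hu2⟩ := hu
      have e : ∀ a b : Option J → ZMod M, ∀ c : J → ZMod M, (fun j => a (some j)) = c →
          (fun j => b (some j)) = c → a none = b none → a = b := by
        intro a b c ha hb hn
        funext i
        cases i with
        | none => exact hn
        | some j => exact (congrFun ha j).trans (congrFun hb j).symm
      rw [e a u r ha1 hu1 hau.1, e a' u' r' ha2 hu2 hau.2.1]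
    · rintro ⟨a, a'⟩ ha
      simp only [Finset.mem_filter, Finset.mem_univ, true_and, Prod.mk.injEq] at ha
      obtain ⟨⟨_, _, hK⟩, ha1, ha2⟩ := ha
      rw [Ksum_option] at hK
      subst ha1; subst ha2
      exact hK

theorem card_Th : ((Fintype.card (Th J M) : ℕ) : ℝ)
    = (M : ℝ) ^ ((Fintype.card J + 1) ^ 2 + (Fintype.card J + 1)) := by
  have : NeZero M := ⟨hMp.out.ne_zero⟩
  have h : Fintype.card (Th J M) = M ^ ((Fintype.card J + 1) ^ 2 + (Fintype.card J + 1)) := by
    rw [Fintype.card_prod, Fintype.card_fun, Fintype.card_fun, Fintype.card_option, ZMod.card,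
      ← pow_mul, ← pow_add, pow_two]
  rw [h]; push_cast; rfl

theorem two_ne (hM2 : 2 < M) : (2 : ZMod M) ≠ 0 := by
  have h : ((2 : ℕ) : ZMod M) ≠ 0 := by
    rw [Ne, ZMod.natCast_eq_zero_iff]
    intro h
    exact absurd (Nat.le_of_dvd (by norm_num) h) (by omega)
  simpa using h

theorem intCast_ne (z : ℤ) (h0 : z ≠ 0) (h : |z| < M) : (z : ZMod M) ≠ 0 := by
  rw [Ne, ZMod.intCast_zmod_eq_zero_iff_dvd]
  intro hd
  exact h0 (Int.eq_zero_of_abs_lt_dvd hd h)

open Classical in
theorem bad_indep (hM2 : 2 < M) (m α α' α'' : ℕ) (hm : 0 < m) (hx : α ≠ α')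
    (hxM : ((α' : ℤ) - α).natAbs ≤ M)
    (q q' q'' : J → ℤ)
    (W W' W'' : J → Finset (ZMod M)) (w : J → ℕ) (h1 : ∀ j, (W j).card = w j)
    (h2 : ∀ j, (W' j).card = w j) (h3 : ∀ j, (W'' j).card = w j) (j : J)
    (hj : (m : ℤ) * (((α' : ℤ) - α) * (q'' j - q j) - ((α'' : ℤ) - α) * (q' j - q j)) ≠ 0)
    (hj2 : |(m : ℤ) * (((α' : ℤ) - α) * (q'' j - q j) - ((α'' : ℤ) - α) * (q' j - q j))| < M) :
    (((univ : Finset (Th J M)).filter (fun θ => badEv m α α' α'' q q' q'' W W' W'' θ)).card : ℝ)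
      ≤ (Fintype.card (Th J M) : ℝ) * (2 * gw ((α' : ℤ) - α) ((α'' : ℤ) - α))
        * ((∏ j, (w j : ℝ)) / (M : ℝ) ^ Fintype.card J) ^ 3 := by
  have : NeZero M := ⟨hMp.out.ne_zero⟩
  have hM0 : (0 : ℝ) < M := by exact_mod_cast hMp.out.pos
  set N := Fintype.card J with hN
  have hι : Fintype.card (Option J) = N + 1 := by rw [Fintype.card_option]
  have hx0 : ((α' : ℤ) - α) ≠ 0 := by intro h; apply hx; omega
  -- fibres
  have hfib : ∀ t : (Option J → ZMod M) × (Option J → ZMod M) × (Option J → ZMod M),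
      ((univ : Finset (Th J M)).filter (fun θ =>
        pv θ.1 θ.2 (qF M m α q) = t.1 ∧ pv θ.1 θ.2 (qF M m α' q') = t.2.1 ∧
        pv θ.1 θ.2 (qF M m α'' q'') = t.2.2)).card
        ≤ M ^ ((N + 1) ^ 2) / M ^ (2 * (N + 1) - 1) := by
    intro t
    have h := count_three (two_ne hM2) (qF M m α q) (qF M m α' q') (qF M m α'' q'')
      t.1 t.2.1 t.2.2 none (some j) (by simp) (by
        have e : (qF M m α' q' none - qF M m α q none) * (qF M m α'' q'' (some j)
            - qF M m α q (some j)) - (qF M m α'' q'' none - qF M m α q none)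
              * (qF M m α' q' (some j) - qF M m α q (some j))
            = (((m : ℤ) * (((α' : ℤ) - α) * (q'' j - q j) - ((α'' : ℤ) - α) * (q' j - q j)) : ℤ)
              : ZMod M) := by
          unfold qF qv
          push_cast
          ring
        rw [e]
        exact intCast_ne _ hj hj2)
    rw [ZMod.card, hι] at h
    exact (Nat.le_div_iff_mul_le (Nat.pos_of_ne_zero (pow_ne_zero _ hMp.out.ne_zero))).2 h
  have hgood := good3_card (M := M) m α α' α'' hm hx q q' q'' W W' W'' w h1 h2 h3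
  set Good := ((univ : Finset ((Option J → ZMod M) × (Option J → ZMod M) ×
    (Option J → ZMod M))).filter
      (fun t => (∀ j, t.1 (some j) ∈ W j) ∧ (∀ j, t.2.1 (some j) ∈ W' j) ∧
        (∀ j, t.2.2 (some j) ∈ W'' j) ∧
        Ksum (qv m α q) (qv m α' q') (qv m α'' q'') t.1 t.2.1 t.2.2 = 0)) with hGood
  have hbad : ((univ : Finset (Th J M)).filter
      (fun θ => badEv m α α' α'' q q' q'' W W' W'' θ)).card
      ≤ (M ^ ((N + 1) ^ 2) / M ^ (2 * (N + 1) - 1)) * Good.card := by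
    apply Finset.card_le_mul_card_image_of_maps_to
      (f := fun θ : Th J M => (pp θ m α q, pp θ m α' q', pp θ m α'' q''))
    · intro θ hθ0
      have hθ := (Finset.mem_filter.1 hθ0).2
      rw [hGood]
      simp only [Finset.mem_filter, Finset.mem_univ, true_and]
      exact hθ
    · intro t _
      refine le_trans (Finset.card_le_card ?_) (hfib t)
      intro θ hθ
      simp only [Finset.mem_filter, Finset.mem_univ, true_and] at hθ ⊢
      have := hθ.2
      rw [← this]
      exact ⟨rfl, rfl, rfl⟩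
  have hN0 := N0_real M ((α' : ℤ) - α) ((α'' : ℤ) - α) hx0 hxM
  have hdiv : ((M ^ ((N + 1) ^ 2) / M ^ (2 * (N + 1) - 1) : ℕ) : ℝ)
      ≤ (M : ℝ) ^ ((N + 1) ^ 2) / (M : ℝ) ^ (2 * (N + 1) - 1) := by
    refine le_trans Nat.cast_div_le ?_
    push_cast
    exact le_rfl
  have hprod : (0 : ℝ) ≤ (∏ j, (w j : ℝ)) := Finset.prod_nonneg (fun j _ => Nat.cast_nonneg _)
  calc (((univ : Finset (Th J M)).filter
        (fun θ => badEv m α α' α'' q q' q'' W W' W'' θ)).card : ℝ)
      ≤ ((M ^ ((N + 1) ^ 2) / M ^ (2 * (N + 1) - 1) : ℕ) : ℝ) * (Good.card : ℝ) := by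
        exact_mod_cast hbad
    _ ≤ ((M : ℝ) ^ ((N + 1) ^ 2) / (M : ℝ) ^ (2 * (N + 1) - 1))
        * ((2 * (M : ℝ) ^ 2 * gw ((α' : ℤ) - α) ((α'' : ℤ) - α)) * (∏ j, (w j : ℝ)) ^ 3) := by
        apply mul_le_mul hdiv _ (Nat.cast_nonneg _) (by positivity)
        calc (Good.card : ℝ) ≤ ((N0nat M ((α' : ℤ) - α) ((α'' : ℤ) - α) * (∏ j, w j) ^ 3 : ℕ) : ℝ) := by
              exact_mod_cast hgood
          _ = ((N0nat M ((α' : ℤ) - α) ((α'' : ℤ) - α) : ℕ) : ℝ) * (∏ j, (w j : ℝ)) ^ 3 := by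
              push_cast; ring
          _ ≤ _ := mul_le_mul_of_nonneg_right hN0 (by positivity)
    _ = (Fintype.card (Th J M) : ℝ) * (2 * gw ((α' : ℤ) - α) ((α'' : ℤ) - α))
        * ((∏ j, (w j : ℝ)) / (M : ℝ) ^ N) ^ 3 := by
        rw [card_Th, ← hN]
        have e1 : 2 * (N + 1) - 1 = 2 * N + 1 := by omega
        rw [e1]
        have e2 : (M : ℝ) ^ ((N + 1) ^ 2 + (N + 1)) = (M : ℝ) ^ ((N + 1) ^ 2) * (M : ℝ) ^ (N + 1) :=
          pow_add _ _ _
        rw [e2, div_pow]
        have e3 : ((M : ℝ) ^ N) ^ 3 * M ^ 2 * (M : ℝ) = (M : ℝ) ^ (2 * N + 1) * (M : ℝ) ^ (N + 1) * M := by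
          ring
        field_simp
        ring

open Classical in
theorem bad_collinear (hM2 : 2 < M) (m α α' α'' : ℕ) (hm : 0 < m) (hmM : m < M) (hx : α ≠ α')
    (hxM : ((α' : ℤ) - α).natAbs < M)
    (q q' q'' : J → ℤ)
    (W W' W'' : J → Finset (ZMod M)) (w : J → ℕ) (h1 : ∀ j, (W j).card = w j)
    (h2 : ∀ j, (W' j).card = w j)
    (hcol : ∀ j, ((α' : ℤ) - α) * (q'' j - q j) = ((α'' : ℤ) - α) * (q' j - q j)) :
    (((univ : Finset (Th J M)).filter (fun θ => badEv m α α' α'' q q' q'' W W' W'' θ)).card : ℝ)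
      ≤ (Fintype.card (Th J M) : ℝ) * (2 * gw ((α' : ℤ) - α) ((α'' : ℤ) - α))
        * ((∏ j, (w j : ℝ)) / (M : ℝ) ^ Fintype.card J) ^ 2 := by
  have : NeZero M := ⟨hMp.out.ne_zero⟩
  have hM0 : (0 : ℝ) < M := by exact_mod_cast hMp.out.pos
  set N := Fintype.card J with hN
  have hι : Fintype.card (Option J) = N + 1 := by rw [Fintype.card_option]
  have hx0 : ((α' : ℤ) - α) ≠ 0 := by intro h; apply hx; omega
  have hxF : ((((α' : ℤ) - α : ℤ)) : ZMod M) ≠ 0 := by
    apply intCast_ne _ hx0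
    rw [Int.abs_eq_natAbs]
    exact_mod_cast hxM
  have hmF : (((m : ℤ)) : ZMod M) ≠ 0 := by
    apply intCast_ne _ (by exact_mod_cast hm.ne')
    rw [abs_of_nonneg (by positivity)]
    exact_mod_cast hmM
  set t : ZMod M := ((((α'' : ℤ) - α : ℤ)) : ZMod M) / ((((α' : ℤ) - α : ℤ)) : ZMod M) with ht
  -- third momentum determined
  have hv : ∀ i, qF M m α'' q'' i - qF M m α q i = t * (qF M m α' q' i - qF M m α q i) := by
    intro i
    cases i with
    | none =>
      unfold qF qv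
      rw [ht]
      push_cast at hxF ⊢
      field_simp
    | some j =>
      have h := congrArg (Int.cast : ℤ → ZMod M) (hcol j)
      unfold qF qv
      rw [ht]
      push_cast at hxF h ⊢
      rw [div_mul_eq_mul_div, eq_div_iff hxF]
      linear_combination h
  have hthird : ∀ θ : Th J M, pp θ m α'' q''
      = fun i => pp θ m α q i + t * (pp θ m α' q' i - pp θ m α q i) := by
    intro θ
    funext i
    have e1 := pv_sub θ.1 θ.2 (qF M m α q) (qF M m α'' q'') i
    have e2 := pv_sub θ.1 θ.2 (qF M m α q) (qF M m α' q') i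
    have e3 : ∑ k, (θ.1 i k + θ.1 k i) * (qF M m α'' q'' k - qF M m α q k)
        = t * ∑ k, (θ.1 i k + θ.1 k i) * (qF M m α' q' k - qF M m α q k) := by
      rw [Finset.mul_sum]
      apply Finset.sum_congr rfl
      intro k _
      rw [hv k]; ring
    unfold pp
    rw [e3, ← e2] at e1
    linear_combination e1
  have hfib : ∀ u : (Option J → ZMod M) × (Option J → ZMod M),
      ((univ : Finset (Th J M)).filter (fun θ =>
        pv θ.1 θ.2 (qF M m α q) = u.1 ∧ pv θ.1 θ.2 (qF M m α' q') = u.2)).card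
        ≤ M ^ ((N + 1) ^ 2) / M ^ (N + 1) := by
    intro u
    have h := count_two (two_ne hM2) (qF M m α q) (qF M m α' q') u.1 u.2 none (by
        have e : (qF M m α' q' none - qF M m α q none)
            = ((m : ℤ) : ZMod M) * ((((α' : ℤ) - α : ℤ)) : ZMod M) := by
          unfold qF qv
          push_cast
          ring
        rw [e]
        exact mul_ne_zero hmF hxF)
    rw [ZMod.card, hι] at h
    exact (Nat.le_div_iff_mul_le (Nat.pos_of_ne_zero (pow_ne_zero _ hMp.out.ne_zero))).2 h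
  have hgood := good2_card (M := M) m α α' α'' hm hx q q' q'' W W' w h1 h2 t
  set Good := ((univ : Finset ((Option J → ZMod M) × (Option J → ZMod M))).filter
      (fun u => (∀ j, u.1 (some j) ∈ W j) ∧ (∀ j, u.2 (some j) ∈ W' j) ∧
        Ksum (qv m α q) (qv m α' q') (qv m α'' q'') u.1 u.2
          (fun i => u.1 i + t * (u.2 i - u.1 i)) = 0)) with hGood
  have hbad : ((univ : Finset (Th J M)).filter
      (fun θ => badEv m α α' α'' q q' q'' W W' W'' θ)).card
      ≤ (M ^ ((N + 1) ^ 2) / M ^ (N + 1)) * Good.card := by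
    apply Finset.card_le_mul_card_image_of_maps_to
      (f := fun θ : Th J M => (pp θ m α q, pp θ m α' q'))
    · intro θ hθ0
      have hθ := (Finset.mem_filter.1 hθ0).2
      rw [hGood]
      simp only [Finset.mem_filter, Finset.mem_univ, true_and]
      refine ⟨hθ.1, hθ.2.1, ?_⟩
      rw [← hthird θ]
      exact hθ.2.2.2
    · intro u _
      refine le_trans (Finset.card_le_card ?_) (hfib u)
      intro θ hθ
      simp only [Finset.mem_filter, Finset.mem_univ, true_and] at hθ ⊢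
      have := hθ.2
      rw [← this]
      exact ⟨rfl, rfl⟩
  have hN0 := N0_real M ((α' : ℤ) - α) ((α'' : ℤ) - α) hx0 hxM.le
  have hdiv : ((M ^ ((N + 1) ^ 2) / M ^ (N + 1) : ℕ) : ℝ)
      ≤ (M : ℝ) ^ ((N + 1) ^ 2) / (M : ℝ) ^ (N + 1) := by
    refine le_trans Nat.cast_div_le ?_
    push_cast
    exact le_rfl
  have hprod : (0 : ℝ) ≤ (∏ j, (w j : ℝ)) := Finset.prod_nonneg (fun j _ => Nat.cast_nonneg _)
  calc (((univ : Finset (Th J M)).filter
        (fun θ => badEv m α α' α'' q q' q'' W W' W'' θ)).card : ℝ)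
      ≤ ((M ^ ((N + 1) ^ 2) / M ^ (N + 1) : ℕ) : ℝ) * (Good.card : ℝ) := by
        exact_mod_cast hbad
    _ ≤ ((M : ℝ) ^ ((N + 1) ^ 2) / (M : ℝ) ^ (N + 1))
        * ((2 * (M : ℝ) ^ 2 * gw ((α' : ℤ) - α) ((α'' : ℤ) - α)) * (∏ j, (w j : ℝ)) ^ 2) := by
        apply mul_le_mul hdiv _ (Nat.cast_nonneg _) (by positivity)
        calc (Good.card : ℝ) ≤ ((N0nat M ((α' : ℤ) - α) ((α'' : ℤ) - α) * (∏ j, w j) ^ 2 : ℕ) : ℝ) := by
              exact_mod_cast hgood
          _ = ((N0nat M ((α' : ℤ) - α) ((α'' : ℤ) - α) : ℕ) : ℝ) * (∏ j, (w j : ℝ)) ^ 2 := by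
              push_cast; ring
          _ ≤ _ := mul_le_mul_of_nonneg_right hN0 (by positivity)
    _ = (Fintype.card (Th J M) : ℝ) * (2 * gw ((α' : ℤ) - α) ((α'' : ℤ) - α))
        * ((∏ j, (w j : ℝ)) / (M : ℝ) ^ N) ^ 2 := by
        rw [card_Th, ← hN]
        have e2 : (M : ℝ) ^ ((N + 1) ^ 2 + (N + 1)) = (M : ℝ) ^ ((N + 1) ^ 2) * (M : ℝ) ^ (N + 1) :=
          pow_add _ _ _
        rw [e2, div_pow]
        field_simp
        ring

end Event

end Crest.Agent.HB.Pl
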