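import Crest.Agent.HB.PlLift
import Crest.Agent.HB.Defs

/-! Row 32 (S0042), STEP 2, part G: instantiation of the lifting theorem. -/
set_option autoImplicit false
set_option linter.unusedSectionVars false

namespace Crest.Agent.HB.Pl

open Finset

section Windows
variable {M : ℕ} [hMp : Fact M.Prime]

theorem win1_card (b : ℕ) (hb : b ≤ M) :
    ((univ : Finset (ZMod M)).filter (fun z => z.val < b)).card = b := by
  have : NeZero M := ⟨hMp.out.ne_zero⟩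
  suffices h : ((univ : Finset (ZMod M)).filter (fun z => z.val < b)).card = (range b).card by
    rw [h, Finset.card_range]
  apply Finset.card_bij' (fun (z : ZMod M) _ => z.val) (fun (v : ℕ) _ => (v : ZMod M))
  · intro z hz
    simpa using hz
  · intro v hv
    rw [Finset.mem_range] at hv
    simp only [Finset.mem_filter, Finset.mem_univ, true_and]
    rw [ZMod.val_natCast_of_lt (lt_of_lt_of_le hv hb)]
    exact hv
  · intro z _
    simp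
  · intro v hv
    rw [Finset.mem_range] at hv
    exact ZMod.val_natCast_of_lt (lt_of_lt_of_le hv hb)

theorem win2_card (m w : ℕ) (hm : 0 < m) (hb : m * w ≤ M) (r : ZMod m) :
    ((univ : Finset (ZMod M)).filter (fun z => z.val < m * w ∧ ((z.val : ℕ) : ZMod m) = r)).card
      = w := by
  have : NeZero M := ⟨hMp.out.ne_zero⟩
  have : NeZero m := ⟨hm.ne'⟩
  have h1 : ((range (m * w)).filter (fun v => v ≡ r.val [MOD m])).card = w := by
    rw [← Nat.count_eq_card_filter_range, Nat.count_modEq_card (m * w) hm r.val]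
    simp [Nat.mul_div_cancel_left w hm]
  conv_rhs => rw [← h1]
  apply Finset.card_bij' (fun (z : ZMod M) _ => z.val) (fun (v : ℕ) _ => (v : ZMod M))
  · intro z hz
    simp only [Finset.mem_filter, Finset.mem_univ, true_and, Finset.mem_range] at hz ⊢
    refine ⟨hz.1, ?_⟩
    rw [← ZMod.natCast_eq_natCast_iff, hz.2]
    simp
  · intro v hv
    simp only [Finset.mem_filter, Finset.mem_univ, true_and, Finset.mem_range] at hv ⊢
    rw [ZMod.val_natCast_of_lt (lt_of_lt_of_le hv.1 hb)]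
    refine ⟨hv.1, ?_⟩
    have := (ZMod.natCast_eq_natCast_iff _ _ _).2 hv.2
    rw [this]
    simp
  · intro z _
    simp
  · intro v hv
    simp only [Finset.mem_filter, Finset.mem_range] at hv
    exact ZMod.val_natCast_of_lt (lt_of_lt_of_le hv.1 hb)

end Windows

section Inst
variable {D m N : ℕ}

/-- Letters. -/
abbrev Lam (S : Finset (Fin D → ZMod m × ZMod m)) (N : ℕ) := S × (Fin N × Fin N × Fin N)

/-- internal positions -/
def qI (S : Finset (Fin D → ZMod m × ZMod m)) (l : Lam S N) : Fin D ⊕ Fin 4 → ℤ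
  | Sum.inl j => (((l.1.1 j).1.val : ℕ) : ℤ)
  | Sum.inr i => (m : ℤ) * (![(((l.2.1 : ℕ) : ℤ)), ((l.2.2.1 : ℕ) : ℤ), ((l.2.2.2 : ℕ) : ℤ),
      ((l.2.1 : ℕ) : ℤ) ^ 2 + ((l.2.2.1 : ℕ) : ℤ) ^ 2 + ((l.2.2.2 : ℕ) : ℤ) ^ 2] i)

variable (M : ℕ)

/-- windows sizes -/
def wI (D m N M : ℕ) : Fin D ⊕ Fin 4 → ℕ
  | Sum.inl _ => M / m ^ 3
  | Sum.inr i => ![M / (m ^ 2 * N), M / (m ^ 2 * N), M / (m ^ 2 * N), M / (m ^ 2 * N ^ 2)] i

/-- windows -/
def WI [NeZero M] (S : Finset (Fin D → ZMod m × ZMod m)) (l : Lam S N) :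
    Fin D ⊕ Fin 4 → Finset (ZMod M)
  | Sum.inl j => univ.filter (fun z => z.val < m * (M / m ^ 3) ∧
      ((z.val : ℕ) : ZMod m) = (l.1.1 j).2)
  | Sum.inr i => univ.filter (fun z => z.val < wI D m N M (Sum.inr i))

theorem WI_card [hMp : Fact M.Prime] [NeZero M] (hm : 0 < m)
    (S : Finset (Fin D → ZMod m × ZMod m)) (l : Lam S N) (j : Fin D ⊕ Fin 4) :
    (WI M S l j).card = wI D m N M j := by
  cases j with
  | inl j =>
    apply win2_card m (M / m ^ 3) hm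
    calc m * (M / m ^ 3) ≤ m ^ 3 * (M / m ^ 3) := by
          apply Nat.mul_le_mul_right
          calc m = m ^ 1 := (pow_one m).symm
            _ ≤ m ^ 3 := Nat.pow_le_pow_right hm (by norm_num)
      _ ≤ M := Nat.mul_div_le M (m ^ 3)
  | inr i =>
    apply win1_card
    fin_cases i <;> exact Nat.div_le_self _ _

theorem parab (m x y u1 u2 u3 v1 v2 v3 w1 w2 w3 : ℤ) (hm' : m ≠ 0) (hx : x ≠ 0) (hy : y ≠ 0)
    (hxy : x ≠ y) (h0 : x * (m * w1 - m * u1) = y * (m * v1 - m * u1))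
    (h1 : x * (m * w2 - m * u2) = y * (m * v2 - m * u2))
    (h2 : x * (m * w3 - m * u3) = y * (m * v3 - m * u3))
    (h3 : x * (m * (w1 ^ 2 + w2 ^ 2 + w3 ^ 2) - m * (u1 ^ 2 + u2 ^ 2 + u3 ^ 2))
      = y * (m * (v1 ^ 2 + v2 ^ 2 + v3 ^ 2) - m * (u1 ^ 2 + u2 ^ 2 + u3 ^ 2))) :
    (u1 = v1 ∧ u2 = v2 ∧ u3 = v3) ∧ (u1 = w1 ∧ u2 = w2 ∧ u3 = w3) := by
  have k0 : x * (w1 - u1) = y * (v1 - u1) := mul_left_cancel₀ hm' (by linear_combination h0)
  have k1 : x * (w2 - u2) = y * (v2 - u2) := mul_left_cancel₀ hm' (by linear_combination h1)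
  have k2 : x * (w3 - u3) = y * (v3 - u3) := mul_left_cancel₀ hm' (by linear_combination h2)
  have k3 : x * ((w1 ^ 2 + w2 ^ 2 + w3 ^ 2) - (u1 ^ 2 + u2 ^ 2 + u3 ^ 2))
      = y * ((v1 ^ 2 + v2 ^ 2 + v3 ^ 2) - (u1 ^ 2 + u2 ^ 2 + u3 ^ 2)) :=
    mul_left_cancel₀ hm' (by linear_combination h3)
  -- x |b|² = y |a|²
  have k4 : x * ((w1 - u1) ^ 2 + (w2 - u2) ^ 2 + (w3 - u3) ^ 2)
      = y * ((v1 - u1) ^ 2 + (v2 - u2) ^ 2 + (v3 - u3) ^ 2) := by
    linear_combination k3 - 2 * u1 * k0 - 2 * u2 * k1 - 2 * u3 * k2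
  have k5 : y * (x - y) * ((v1 - u1) ^ 2 + (v2 - u2) ^ 2 + (v3 - u3) ^ 2) = 0 := by
    linear_combination (-x) * k4 + (x * (w1 - u1) + y * (v1 - u1)) * k0
      + (x * (w2 - u2) + y * (v2 - u2)) * k1 + (x * (w3 - u3) + y * (v3 - u3)) * k2
  have k6 : (v1 - u1) ^ 2 + (v2 - u2) ^ 2 + (v3 - u3) ^ 2 = 0 := by
    rcases mul_eq_zero.1 k5 with h | h
    · rcases mul_eq_zero.1 h with h | h
      · exact absurd h hy
      · exact absurd (sub_eq_zero.1 h) hxy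
    · exact h
  have s1 := sq_nonneg (v1 - u1)
  have s2 := sq_nonneg (v2 - u2)
  have s3 := sq_nonneg (v3 - u3)
  have a1 : v1 = u1 := sub_eq_zero.1 (pow_eq_zero_iff (two_ne_zero) |>.1 (by linarith))
  have a2 : v2 = u2 := sub_eq_zero.1 (pow_eq_zero_iff (two_ne_zero) |>.1 (by linarith))
  have a3 : v3 = u3 := sub_eq_zero.1 (pow_eq_zero_iff (two_ne_zero) |>.1 (by linarith))
  have b1 : w1 = u1 := by
    rw [a1, sub_self, mul_zero] at k0
    exact sub_eq_zero.1 ((mul_eq_zero.1 k0).resolve_left hx)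
  have b2 : w2 = u2 := by
    rw [a2, sub_self, mul_zero] at k1
    exact sub_eq_zero.1 ((mul_eq_zero.1 k1).resolve_left hx)
  have b3 : w3 = u3 := by
    rw [a3, sub_self, mul_zero] at k2
    exact sub_eq_zero.1 ((mul_eq_zero.1 k2).resolve_left hx)
  exact ⟨⟨a1.symm, a2.symm, a3.symm⟩, ⟨b1.symm, b2.symm, b3.symm⟩⟩

theorem hE_I (hm : 0 < m) (S : Finset (Fin D → ZMod m × ZMod m)) (l l' l'' : Lam S N) (x y : ℤ)
    (hx : x ≠ 0) (hy : y ≠ 0) (hxy : x ≠ y)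
    (h : ∀ j, x * (qI S l'' j - qI S l j) = y * (qI S l' j - qI S l j)) :
    l.2 = l'.2 ∧ l.2 = l''.2 := by
  have hm' : (m : ℤ) ≠ 0 := by exact_mod_cast hm.ne'
  obtain ⟨⟨a1, a2, a3⟩, ⟨b1, b2, b3⟩⟩ := parab (m : ℤ) x y _ _ _ _ _ _ _ _ _ hm' hx hy hxy
    (h (Sum.inr 0)) (h (Sum.inr 1)) (h (Sum.inr 2)) (h (Sum.inr 3))
  constructor
  · refine Prod.ext (Fin.ext ?_) (Prod.ext (Fin.ext ?_) (Fin.ext ?_))
    · exact Nat.cast_injective (R := ℤ) a1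
    · exact Nat.cast_injective (R := ℤ) a2
    · exact Nat.cast_injective (R := ℤ) a3
  · refine Prod.ext (Fin.ext ?_) (Prod.ext (Fin.ext ?_) (Fin.ext ?_))
    · exact Nat.cast_injective (R := ℤ) b1
    · exact Nat.cast_injective (R := ℤ) b2
    · exact Nat.cast_injective (R := ℤ) b3

theorem hZ_I [hMp : Fact M.Prime] [NeZero M] (hm : 0 < m)
    (S : Finset (Fin D → ZMod m × ZMod m)) (l l' l'' : Lam S N)
    (r r' r'' : Fin D ⊕ Fin 4 → ZMod M) (hr : ∀ j, r j ∈ WI M S l j)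
    (hr' : ∀ j, r' j ∈ WI M S l' j) (hr'' : ∀ j, r'' j ∈ WI M S l'' j)
    (h : (m : ℤ) ∣ Ksum (qI S l) (qI S l') (qI S l'') r r' r'') :
    KK l.1.1 l'.1.1 l''.1.1 = 0 := by
  have : NeZero m := ⟨hm.ne'⟩
  have h1 := (ZMod.intCast_zmod_eq_zero_iff_dvd _ m).2 h
  rw [← h1]
  unfold Ksum KK
  rw [Fintype.sum_sum_type]
  push_cast
  have e1 : ∀ j, (((r (Sum.inl j)).val : ℕ) : ZMod m) = (l.1.1 j).2 := fun j =>
    (Finset.mem_filter.1 (hr (Sum.inl j))).2.2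
  have e2 : ∀ j, (((r' (Sum.inl j)).val : ℕ) : ZMod m) = (l'.1.1 j).2 := fun j =>
    (Finset.mem_filter.1 (hr' (Sum.inl j))).2.2
  have e3 : ∀ j, (((r'' (Sum.inl j)).val : ℕ) : ZMod m) = (l''.1.1 j).2 := fun j =>
    (Finset.mem_filter.1 (hr'' (Sum.inl j))).2.2
  have e4 : ∀ (l : Lam S N) j, ((qI S l (Sum.inl j) : ℤ) : ZMod m) = (l.1.1 j).1 := by
    intro l j
    unfold qI
    push_cast
    simp
  have e5 : ∀ (l : Lam S N) i, ((qI S l (Sum.inr i) : ℤ) : ZMod m) = 0 := by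
    intro l i
    unfold qI
    push_cast
    simp
  simp only [e1, e2, e3, e4, e5]
  simp

/-- bounds for the positions -/
def Qb (D m N : ℕ) : Fin D ⊕ Fin 4 → ℕ
  | Sum.inl _ => m
  | Sum.inr i => ![m * N, m * N, m * N, 3 * (m * N ^ 2)] i

/-- bounds for the momenta -/
def Pb (D m N M : ℕ) : Fin D ⊕ Fin 4 → ℕ
  | Sum.inl _ => m * (M / m ^ 3)
  | Sum.inr i => wI D m N M (Sum.inr i)

/-- constants -/
def cb (D : ℕ) : Fin D ⊕ Fin 4 → ℕ
  | Sum.inl _ => 1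
  | Sum.inr i => ![1, 1, 1, 3] i

theorem qI_bd (hm : 0 < m) (S : Finset (Fin D → ZMod m × ZMod m)) (l : Lam S N)
    (j : Fin D ⊕ Fin 4) : 0 ≤ qI S l j ∧ qI S l j ≤ Qb D m N j := by
  have : NeZero m := ⟨hm.ne'⟩
  have h1 : ((l.2.1 : ℕ) : ℤ) ≤ N := by exact_mod_cast l.2.1.2.le
  have h2 : ((l.2.2.1 : ℕ) : ℤ) ≤ N := by exact_mod_cast l.2.2.1.2.le
  have h3 : ((l.2.2.2 : ℕ) : ℤ) ≤ N := by exact_mod_cast l.2.2.2.2.le
  have g1 : (0 : ℤ) ≤ ((l.2.1 : ℕ) : ℤ) := Nat.cast_nonneg _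
  have g2 : (0 : ℤ) ≤ ((l.2.2.1 : ℕ) : ℤ) := Nat.cast_nonneg _
  have g3 : (0 : ℤ) ≤ ((l.2.2.2 : ℕ) : ℤ) := Nat.cast_nonneg _
  have hm0 : (0 : ℤ) ≤ m := Nat.cast_nonneg _
  cases j with
  | inl j =>
    refine ⟨Nat.cast_nonneg _, ?_⟩
    have h := (ZMod.val_lt (l.1.1 j).1).le
    show (((l.1.1 j).1.val : ℕ) : ℤ) ≤ ((m : ℕ) : ℤ)
    exact_mod_cast h
  | inr i =>
    fin_cases i
    · show 0 ≤ (m : ℤ) * ((l.2.1 : ℕ) : ℤ) ∧ (m : ℤ) * ((l.2.1 : ℕ) : ℤ) ≤ ((m * N : ℕ) : ℤ)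
      push_cast
      exact ⟨by positivity, mul_le_mul_of_nonneg_left h1 hm0⟩
    · show 0 ≤ (m : ℤ) * ((l.2.2.1 : ℕ) : ℤ) ∧ (m : ℤ) * ((l.2.2.1 : ℕ) : ℤ) ≤ ((m * N : ℕ) : ℤ)
      push_cast
      exact ⟨by positivity, mul_le_mul_of_nonneg_left h2 hm0⟩
    · show 0 ≤ (m : ℤ) * ((l.2.2.2 : ℕ) : ℤ) ∧ (m : ℤ) * ((l.2.2.2 : ℕ) : ℤ) ≤ ((m * N : ℕ) : ℤ)
      push_cast
      exact ⟨by positivity, mul_le_mul_of_nonneg_left h3 hm0⟩
    · show 0 ≤ (m : ℤ) * (((l.2.1 : ℕ) : ℤ) ^ 2 + ((l.2.2.1 : ℕ) : ℤ) ^ 2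
        + ((l.2.2.2 : ℕ) : ℤ) ^ 2) ∧ (m : ℤ) * (((l.2.1 : ℕ) : ℤ) ^ 2
        + ((l.2.2.1 : ℕ) : ℤ) ^ 2 + ((l.2.2.2 : ℕ) : ℤ) ^ 2) ≤ ((3 * (m * N ^ 2) : ℕ) : ℤ)
      push_cast
      refine ⟨by positivity, ?_⟩
      have k1 : ((l.2.1 : ℕ) : ℤ) ^ 2 ≤ (N : ℤ) ^ 2 := pow_le_pow_left₀ g1 h1 2
      have k2 : ((l.2.2.1 : ℕ) : ℤ) ^ 2 ≤ (N : ℤ) ^ 2 := pow_le_pow_left₀ g2 h2 2
      have k3 : ((l.2.2.2 : ℕ) : ℤ) ^ 2 ≤ (N : ℤ) ^ 2 := pow_le_pow_left₀ g3 h3 2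
      calc _ ≤ (m : ℤ) * ((N : ℤ) ^ 2 + (N : ℤ) ^ 2 + (N : ℤ) ^ 2) :=
            mul_le_mul_of_nonneg_left (by linarith) hm0
        _ = _ := by ring

theorem WI_bd [hMp : Fact M.Prime] [NeZero M] (S : Finset (Fin D → ZMod m × ZMod m))
    (l : Lam S N) (j : Fin D ⊕ Fin 4) (z : ZMod M) (hz : z ∈ WI M S l j) :
    z.val ≤ Pb D m N M j := by
  cases j with
  | inl j => exact (Finset.mem_filter.1 hz).2.1.le
  | inr i => exact (Finset.mem_filter.1 hz).2.le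

theorem QP_bd (j : Fin D ⊕ Fin 4) : m * (Qb D m N j * Pb D m N M j) ≤ cb D j * M := by
  cases j with
  | inl j =>
    show m * (m * (m * (M / m ^ 3))) ≤ 1 * M
    calc m * (m * (m * (M / m ^ 3))) = (M / m ^ 3) * m ^ 3 := by ring
      _ ≤ M := Nat.div_mul_le_self _ _
      _ = 1 * M := (one_mul M).symm
  | inr i =>
    have h1 : m * ((m * N) * (M / (m ^ 2 * N))) ≤ 1 * M := by
      calc m * ((m * N) * (M / (m ^ 2 * N))) = (M / (m ^ 2 * N)) * (m ^ 2 * N) := by ring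
        _ ≤ M := Nat.div_mul_le_self _ _
        _ = 1 * M := (one_mul M).symm
    have h2 : m * ((3 * (m * N ^ 2)) * (M / (m ^ 2 * N ^ 2))) ≤ 3 * M := by
      calc m * ((3 * (m * N ^ 2)) * (M / (m ^ 2 * N ^ 2)))
          = 3 * ((M / (m ^ 2 * N ^ 2)) * (m ^ 2 * N ^ 2)) := by ring
        _ ≤ 3 * M := Nat.mul_le_mul_left _ (Nat.div_mul_le_self _ _)
    fin_cases i
    · exact h1
    · exact h1
    · exact h1
    · exact h2

theorem term_bd (a b c d Q P : ℤ) (hQ : 0 ≤ Q) (hP : 0 ≤ P) (ha : |a| ≤ Q) (hb : |b| ≤ P)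
    (hc : |c| ≤ P) (hd : |d| ≤ Q) : |a * b - c * d| ≤ 2 * (Q * P) := by
  have h1 : |a * b| ≤ Q * P := by
    rw [abs_mul]; exact mul_le_mul ha hb (abs_nonneg _) hQ
  have h2 : |c * d| ≤ Q * P := by
    rw [abs_mul, mul_comm Q P]; exact mul_le_mul hc hd (abs_nonneg _) hP
  have h3 := abs_sub (a * b) (c * d)
  linarith

theorem hK_I [hMp : Fact M.Prime] [NeZero M] (hm : 4 * D + 24 ≤ m)
    (S : Finset (Fin D → ZMod m × ZMod m)) (l l' l'' : Lam S N)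
    (r r' r'' : Fin D ⊕ Fin 4 → ZMod M) (hr : ∀ j, r j ∈ WI M S l j)
    (hr' : ∀ j, r' j ∈ WI M S l' j) (hr'' : ∀ j, r'' j ∈ WI M S l'' j) :
    2 * |Ksum (qI S l) (qI S l') (qI S l'') r r' r''| ≤ (M : ℤ) := by
  have hm0 : 0 < m := by omega
  have hmZ : (0 : ℤ) < m := by exact_mod_cast hm0
  have h1 : (m : ℤ) * |Ksum (qI S l) (qI S l') (qI S l'') r r' r''|
      ≤ ∑ j : Fin D ⊕ Fin 4, 2 * ((cb D j * M : ℕ) : ℤ) := by
    unfold Ksum
    calc (m : ℤ) * |∑ i, ((qI S l' i - qI S l i) * (((r'' i).val : ℤ) - (r i).val)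
          - (((r' i).val : ℤ) - (r i).val) * (qI S l'' i - qI S l i))|
        ≤ (m : ℤ) * ∑ i, |((qI S l' i - qI S l i) * (((r'' i).val : ℤ) - (r i).val)
          - (((r' i).val : ℤ) - (r i).val) * (qI S l'' i - qI S l i))| :=
          mul_le_mul_of_nonneg_left (Finset.abs_sum_le_sum_abs _ _) hmZ.le
      _ = ∑ i, (m : ℤ) * |((qI S l' i - qI S l i) * (((r'' i).val : ℤ) - (r i).val)
          - (((r' i).val : ℤ) - (r i).val) * (qI S l'' i - qI S l i))| := Finset.mul_sum _ _ _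
      _ ≤ _ := by
          apply Finset.sum_le_sum
          intro j _
          have q0 := qI_bd hm0 S l j
          have q1 := qI_bd hm0 S l' j
          have q2 := qI_bd hm0 S l'' j
          have p0 : ((r j).val : ℤ) ≤ Pb D m N M j := by exact_mod_cast WI_bd M S l j _ (hr j)
          have p1 : ((r' j).val : ℤ) ≤ Pb D m N M j := by exact_mod_cast WI_bd M S l' j _ (hr' j)
          have p2 : ((r'' j).val : ℤ) ≤ Pb D m N M j := by
            exact_mod_cast WI_bd M S l'' j _ (hr'' j)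
          have n0 : (0 : ℤ) ≤ ((r j).val : ℤ) := Nat.cast_nonneg _
          have n1 : (0 : ℤ) ≤ ((r' j).val : ℤ) := Nat.cast_nonneg _
          have n2 : (0 : ℤ) ≤ ((r'' j).val : ℤ) := Nat.cast_nonneg _
          have ht := term_bd (qI S l' j - qI S l j) (((r'' j).val : ℤ) - (r j).val)
            (((r' j).val : ℤ) - (r j).val) (qI S l'' j - qI S l j) (Qb D m N j) (Pb D m N M j)
            (Nat.cast_nonneg _) (Nat.cast_nonneg _)
            (by rw [abs_le]; constructor <;> linarith [q0.1, q0.2, q1.1, q1.2])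
            (by rw [abs_le]; constructor <;> linarith)
            (by rw [abs_le]; constructor <;> linarith)
            (by rw [abs_le]; constructor <;> linarith [q0.1, q0.2, q2.1, q2.2])
          have hQP : (m : ℤ) * ((Qb D m N j : ℤ) * (Pb D m N M j : ℤ)) ≤ ((cb D j * M : ℕ) : ℤ) := by
            exact_mod_cast QP_bd M j
          calc (m : ℤ) * |((qI S l' j - qI S l j) * (((r'' j).val : ℤ) - (r j).val)
                - (((r' j).val : ℤ) - (r j).val) * (qI S l'' j - qI S l j))|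
              ≤ (m : ℤ) * (2 * ((Qb D m N j : ℤ) * (Pb D m N M j : ℤ))) :=
                mul_le_mul_of_nonneg_left ht hmZ.le
            _ = 2 * ((m : ℤ) * ((Qb D m N j : ℤ) * (Pb D m N M j : ℤ))) := by ring
            _ ≤ 2 * ((cb D j * M : ℕ) : ℤ) := mul_le_mul_of_nonneg_left hQP (by norm_num)
  have h2 : ∑ j : Fin D ⊕ Fin 4, 2 * ((cb D j * M : ℕ) : ℤ) = 2 * ((D : ℤ) + 6) * M := by
    rw [Fintype.sum_sum_type]
    have e1 : ∑ j : Fin D, 2 * ((cb D (Sum.inl j) * M : ℕ) : ℤ) = 2 * (D : ℤ) * M := by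
      have : ∀ j : Fin D, 2 * ((cb D (Sum.inl j) * M : ℕ) : ℤ) = 2 * (M : ℤ) := by
        intro j; simp [cb]
      rw [Finset.sum_congr rfl (fun j _ => this j), Finset.sum_const, Finset.card_univ,
        Fintype.card_fin, nsmul_eq_mul]
      ring
    have e2 : ∑ j : Fin 4, 2 * ((cb D (Sum.inr j) * M : ℕ) : ℤ) = 12 * (M : ℤ) := by
      simp only [Fin.sum_univ_four, cb]
      simp
      ring
    rw [e1, e2]; ring
  rw [h2] at h1
  have hmM : (4 * (D : ℤ) + 24) * M ≤ (m : ℤ) * M := by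
    apply mul_le_mul_of_nonneg_right _ (Nat.cast_nonneg _)
    exact_mod_cast hm
  have h3 : (m : ℤ) * (2 * |Ksum (qI S l) (qI S l') (qI S l'') r r' r''|) ≤ (m : ℤ) * M := by
    linarith
  exact le_of_mul_le_mul_left h3 hmZ

theorem Qb_le (hm : 0 < m) (hN : 0 < N) (j : Fin D ⊕ Fin 4) : Qb D m N j ≤ 3 * (m * N ^ 2) := by
  have h1 : 1 ≤ N ^ 2 := Nat.one_le_pow _ _ hN
  have h2 : N ≤ N ^ 2 := by nlinarith
  cases j with
  | inl j =>
    show m ≤ 3 * (m * N ^ 2)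
    nlinarith
  | inr i =>
    have h3 : m * N ≤ 3 * (m * N ^ 2) := by nlinarith
    fin_cases i
    · exact h3
    · exact h3
    · exact h3
    · exact le_rfl

theorem hsm_I (hm : 0 < m) (hN : 0 < N) (a : ℕ) (hM : 6 * m ^ 2 * a * N ^ 2 < M)
    (S : Finset (Fin D → ZMod m × ZMod m)) (l l' l'' : Lam S N) (j : Fin D ⊕ Fin 4)
    (x y : ℤ) (hx : |x| < a) (hy : |y| < a) :
    |(m : ℤ) * (x * (qI S l'' j - qI S l j) - y * (qI S l' j - qI S l j))| < M := by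
  have q0 := qI_bd hm S l j
  have q1 := qI_bd hm S l' j
  have q2 := qI_bd hm S l'' j
  have hQ : ((Qb D m N j : ℕ) : ℤ) ≤ 3 * ((m : ℤ) * (N : ℤ) ^ 2) := by
    exact_mod_cast Qb_le hm hN j
  have a1 : |qI S l'' j - qI S l j| ≤ 3 * ((m : ℤ) * (N : ℤ) ^ 2) := by
    rw [abs_le]; constructor <;> linarith [q0.1, q0.2, q2.1, q2.2]
  have a2 : |qI S l' j - qI S l j| ≤ 3 * ((m : ℤ) * (N : ℤ) ^ 2) := by
    rw [abs_le]; constructor <;> linarith [q0.1, q0.2, q1.1, q1.2]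
  have b1 : |x * (qI S l'' j - qI S l j)| ≤ (a : ℤ) * (3 * ((m : ℤ) * (N : ℤ) ^ 2)) := by
    rw [abs_mul]; exact mul_le_mul hx.le a1 (abs_nonneg _) (Nat.cast_nonneg _)
  have b2 : |y * (qI S l' j - qI S l j)| ≤ (a : ℤ) * (3 * ((m : ℤ) * (N : ℤ) ^ 2)) := by
    rw [abs_mul]; exact mul_le_mul hy.le a2 (abs_nonneg _) (Nat.cast_nonneg _)
  have b3 := abs_sub (x * (qI S l'' j - qI S l j)) (y * (qI S l' j - qI S l j))
  have hM' : 6 * (m : ℤ) ^ 2 * a * (N : ℤ) ^ 2 < M := by exact_mod_cast hM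
  have hm0 : (0 : ℤ) ≤ m := Nat.cast_nonneg _
  rw [abs_mul, abs_of_nonneg hm0]
  calc (m : ℤ) * |x * (qI S l'' j - qI S l j) - y * (qI S l' j - qI S l j)|
      ≤ (m : ℤ) * ((a : ℤ) * (3 * ((m : ℤ) * (N : ℤ) ^ 2))
        + (a : ℤ) * (3 * ((m : ℤ) * (N : ℤ) ^ 2))) :=
        mul_le_mul_of_nonneg_left (by linarith) hm0
    _ = 6 * (m : ℤ) ^ 2 * a * (N : ℤ) ^ 2 := by ring
    _ < M := hM'

open Classical in
theorem cardZ_I (S : Finset (Fin D → ZMod m × ZMod m)) (ε : ℝ)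
    (hε : (((S ×ˢ S ×ˢ S).filter (fun t => KK t.1 t.2.1 t.2.2 = 0)).card : ℝ)
      ≤ (S.card : ℝ) ^ 3 * ε) :
    ((univ.filter (fun t : Lam S N × Lam S N × Lam S N =>
      KK t.1.1.1 t.2.1.1.1 t.2.2.1.1 = 0)).card : ℝ) ≤ ε * (Fintype.card (Lam S N) : ℝ) ^ 3 := by
  have h1 : (univ.filter (fun t : Lam S N × Lam S N × Lam S N =>
      KK t.1.1.1 t.2.1.1.1 t.2.2.1.1 = 0)).card
      ≤ (((S ×ˢ S ×ˢ S).filter (fun t => KK t.1 t.2.1 t.2.2 = 0))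
        ×ˢ (univ : Finset ((Fin N × Fin N × Fin N) × (Fin N × Fin N × Fin N)
          × (Fin N × Fin N × Fin N)))).card := by
    apply Finset.card_le_card_of_injOn (fun t => ((t.1.1.1, t.2.1.1.1, t.2.2.1.1),
      (t.1.2, t.2.1.2, t.2.2.2)))
    · intro t ht
      simp only [Finset.coe_filter, Finset.mem_univ, true_and, Set.mem_ofPred_eq] at ht
      simp only [Finset.coe_product, Set.mem_prod, Finset.mem_coe, Finset.mem_filter,
        Finset.mem_product, Finset.mem_univ, and_true]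
      exact ⟨⟨t.1.1.2, t.2.1.1.2, t.2.2.1.2⟩, ht⟩
    · rintro ⟨⟨s1, u1⟩, ⟨s2, u2⟩, ⟨s3, u3⟩⟩ _ ⟨⟨t1, v1⟩, ⟨t2, v2⟩, ⟨t3, v3⟩⟩ _ h
      simp only [Prod.mk.injEq] at h
      obtain ⟨⟨a1, a2, a3⟩, b1, b2, b3⟩ := h
      rw [Subtype.ext a1, Subtype.ext a2, Subtype.ext a3, b1, b2, b3]
  rw [Finset.card_product, Finset.card_univ] at h1
  simp only [Fintype.card_prod, Fintype.card_fin] at h1
  have h2 : (Fintype.card (Lam S N) : ℝ) = (S.card : ℝ) * (N : ℝ) ^ 3 := by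
    simp only [Lam, Fintype.card_prod, Fintype.card_fin, Fintype.card_coe]
    push_cast; ring
  rw [h2]
  calc _ ≤ ((((S ×ˢ S ×ˢ S).filter (fun t => KK t.1 t.2.1 t.2.2 = 0)).card *
        ((N * (N * N)) * ((N * (N * N)) * (N * (N * N)))) : ℕ) : ℝ) := by exact_mod_cast h1
    _ = (((S ×ˢ S ×ˢ S).filter (fun t => KK t.1 t.2.1 t.2.2 = 0)).card : ℝ) * (N : ℝ) ^ 9 := by
        push_cast; ring
    _ ≤ ((S.card : ℝ) ^ 3 * ε) * (N : ℝ) ^ 9 := mul_le_mul_of_nonneg_right hε (by positivity)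
    _ = ε * ((S.card : ℝ) * (N : ℝ) ^ 3) ^ 3 := by ring

open Classical in
theorem cardE_I (hN : 0 < N) (S : Finset (Fin D → ZMod m × ZMod m)) :
    ((univ.filter (fun t : Lam S N × Lam S N × Lam S N =>
      t.1.2 = t.2.1.2 ∧ t.1.2 = t.2.2.2)).card : ℝ)
      ≤ (1 / (N : ℝ) ^ 6) * (Fintype.card (Lam S N) : ℝ) ^ 3 := by
  have h1 : (univ.filter (fun t : Lam S N × Lam S N × Lam S N =>
      t.1.2 = t.2.1.2 ∧ t.1.2 = t.2.2.2)).card
      ≤ (univ : Finset ((S × S × S) × (Fin N × Fin N × Fin N))).card := by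
    apply Finset.card_le_card_of_injOn (fun t => ((t.1.1, t.2.1.1, t.2.2.1), t.1.2))
    · intro t _
      exact Finset.mem_coe.2 (Finset.mem_univ _)
    · rintro ⟨⟨s1, u1⟩, ⟨s2, u2⟩, ⟨s3, u3⟩⟩ ha ⟨⟨t1, v1⟩, ⟨t2, v2⟩, ⟨t3, v3⟩⟩ hb h
      simp only [Finset.coe_filter, Finset.mem_univ, true_and, Set.mem_ofPred_eq] at ha hb
      simp only [Prod.mk.injEq] at h
      obtain ⟨⟨a1, a2, a3⟩, b1⟩ := h
      obtain ⟨c1, c2⟩ := ha
      obtain ⟨d1, d2⟩ := hb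
      subst a1; subst a2; subst a3; subst b1; subst c1; subst c2; subst d1; subst d2
      rfl
  rw [Finset.card_univ] at h1
  simp only [Fintype.card_prod, Fintype.card_fin, Fintype.card_coe] at h1
  have h2 : (Fintype.card (Lam S N) : ℝ) = (S.card : ℝ) * (N : ℝ) ^ 3 := by
    simp only [Lam, Fintype.card_prod, Fintype.card_fin, Fintype.card_coe]
    push_cast; ring
  rw [h2]
  have hN0 : (0 : ℝ) < N := by exact_mod_cast hN
  calc _ ≤ (((S.card * (S.card * S.card)) * (N * (N * N)) : ℕ) : ℝ) := by exact_mod_cast h1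
    _ = (1 / (N : ℝ) ^ 6) * ((S.card : ℝ) * (N : ℝ) ^ 3) ^ 3 := by
        push_cast
        field_simp

end Inst

end Crest.Agent.HB.Pl
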