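import Crest.Agent.HB.PlEvent
import Crest.Agent.HB.PlAvg

/-! Row 32 (S0042), STEP 2, part F: the lifting theorem. -/
set_option autoImplicit false
set_option linter.unusedSectionVars false

namespace Crest.Agent.HB.Pl

open Finset

section Lift
variable {J : Type} [Fintype J] [DecidableEq J] {M : ℕ} [hMp : Fact M.Prime]

open Classical in
theorem acc_card (m α : ℕ) (q : J → ℤ) (W : J → Finset (ZMod M)) (w : J → ℕ)
    (h1 : ∀ j, (W j).card = w j) :
    (((univ : Finset (Th J M)).filter (fun θ => ∀ j, pp θ m α q (some j) ∈ W j)).card : ℝ)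
      = (Fintype.card (Th J M) : ℝ) * ((∏ j, (w j : ℝ)) / (M : ℝ) ^ Fintype.card J) := by
  have : NeZero M := ⟨hMp.out.ne_zero⟩
  have hM0 : (0 : ℝ) < M := by exact_mod_cast hMp.out.pos
  have hι : Fintype.card (Option J) = Fintype.card J + 1 := by rw [Fintype.card_option]
  set box : Finset (Option J → ZMod M) :=
    Fintype.piFinset (fun i : Option J => i.elim univ W) with hbox
  have hboxc : box.card = M * ∏ j, w j := by
    rw [hbox, Fintype.card_piFinset, Fintype.prod_option]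
    simp only [Option.elim_none, Option.elim_some]
    rw [Finset.card_univ, ZMod.card, Finset.prod_congr rfl (fun j _ => h1 j)]
  have hsum : ((univ : Finset (Th J M)).filter (fun θ => ∀ j, pp θ m α q (some j) ∈ W j)).card
      = ∑ b ∈ box, ((univ : Finset (Th J M)).filter
        (fun θ => pv θ.1 θ.2 (qF M m α q) = b)).card := by
    rw [Finset.card_eq_sum_card_fiberwise (f := fun θ : Th J M => pp θ m α q) (t := box)]
    · apply Finset.sum_congr rfl
      intro b hb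
      congr 1
      ext θ
      simp only [Finset.mem_filter, Finset.mem_univ, true_and]
      constructor
      · rintro ⟨_, h⟩; exact h
      · intro h
        refine ⟨?_, h⟩
        intro j
        rw [hbox, Fintype.mem_piFinset] at hb
        have := hb (some j)
        simp only [Option.elim_some] at this
        rw [← h] at this
        exact this
    · intro θ hθ
      have hθ' := (Finset.mem_filter.1 hθ).2
      rw [hbox, Finset.mem_coe, Fintype.mem_piFinset]
      intro i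
      cases i with
      | none => simp
      | some j => exact hθ' j
  rw [hsum, Finset.sum_congr rfl (fun b _ => count_one (qF M m α q) b), Finset.sum_const, hboxc,
    card_Th, ZMod.card, hι]
  have e2 : (M : ℝ) ^ ((Fintype.card J + 1) ^ 2 + (Fintype.card J + 1))
      = (M : ℝ) ^ ((Fintype.card J + 1) ^ 2) * (M : ℝ) ^ Fintype.card J * M := by
    rw [pow_add, pow_succ (M : ℝ) (Fintype.card J), mul_assoc]
  rw [e2, smul_eq_mul]
  push_cast
  field_simp

open Classical in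
theorem bad_all {Λ : Type} (hM2 : 2 < M) (m a : ℕ) (hm : 0 < m) (hmM : m < M) (haM : a ≤ M)
    (q : Λ → J → ℤ) (W : Λ → J → Finset (ZMod M)) (w : J → ℕ) (hW : ∀ l j, (W l j).card = w j)
    (Z E : Λ → Λ → Λ → Prop)
    (hZ : ∀ l l' l'' (r r' r'' : J → ZMod M), (∀ j, r j ∈ W l j) → (∀ j, r' j ∈ W l' j) →
      (∀ j, r'' j ∈ W l'' j) → (m : ℤ) ∣ Ksum (q l) (q l') (q l'') r r' r'' → Z l l' l'')
    (hE : ∀ l l' l'' (x y : ℤ), x ≠ 0 → y ≠ 0 → x ≠ y →
      (∀ j, x * (q l'' j - q l j) = y * (q l' j - q l j)) → E l l' l'')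
    (hsm : ∀ l l' l'' j (x y : ℤ), |x| < a → |y| < a →
      |(m : ℤ) * (x * (q l'' j - q l j) - y * (q l' j - q l j))| < M)
    (α α' α'' : ℕ) (hα : α < a) (hα' : α' < a) (hα'' : α'' < a) (h12 : α ≠ α') (h13 : α ≠ α'')
    (h23 : α' ≠ α'') (l l' l'' : Λ) :
    (((univ : Finset (Th J M)).filter
      (fun θ => badEv m α α' α'' (q l) (q l') (q l'') (W l) (W l') (W l'') θ)).card : ℝ)
      ≤ (Fintype.card (Th J M) : ℝ) * (2 * gw ((α' : ℤ) - α) ((α'' : ℤ) - α))
        * (((∏ j, (w j : ℝ)) / (M : ℝ) ^ Fintype.card J) ^ 3 * (if Z l l' l'' then 1 else 0)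
          + ((∏ j, (w j : ℝ)) / (M : ℝ) ^ Fintype.card J) ^ 2 * (if E l l' l'' then 1 else 0)) := by
  set κ : ℝ := (∏ j, (w j : ℝ)) / (M : ℝ) ^ Fintype.card J with hκ
  have hκ0 : 0 ≤ κ := div_nonneg (Finset.prod_nonneg (fun j _ => Nat.cast_nonneg _)) (by positivity)
  have hg := gw_nonneg ((α' : ℤ) - α) ((α'' : ℤ) - α)
  by_cases hemp : ((univ : Finset (Th J M)).filter
      (fun θ => badEv m α α' α'' (q l) (q l') (q l'') (W l) (W l') (W l'') θ)) = ∅
  · rw [hemp, Finset.card_empty, Nat.cast_zero]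
    positivity
  · obtain ⟨θ, hθ⟩ := Finset.nonempty_iff_ne_empty.2 hemp
    have hθ' := (Finset.mem_filter.1 hθ).2
    obtain ⟨b1, b2, b3, b4⟩ := hθ'
    have hz : Z l l' l'' := by
      apply hZ l l' l'' _ _ _ b1 b2 b3
      rw [Ksum_option] at b4
      exact ⟨-((((α' : ℤ) - α) * (((pp θ m α'' (q l'') none).val : ℤ) - (pp θ m α (q l) none).val)
          - ((α'' : ℤ) - α) * (((pp θ m α' (q l') none).val : ℤ) - (pp θ m α (q l) none).val))),
        by linear_combination b4⟩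
    by_cases hcol : ∀ j, ((α' : ℤ) - α) * (q l'' j - q l j) = ((α'' : ℤ) - α) * (q l' j - q l j)
    · have he : E l l' l'' := hE l l' l'' _ _ (by intro h; apply h12; omega)
        (by intro h; apply h13; omega) (by intro h; apply h23; omega) hcol
      rw [if_pos hz, if_pos he]
      refine le_trans (bad_collinear hM2 m α α' α'' hm hmM h12 (by omega) (q l) (q l') (q l'')
        (W l) (W l') (W l'') w (hW l) (hW l') hcol) ?_
      rw [← hκ]
      apply mul_le_mul_of_nonneg_left _ (by positivity)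
      have : 0 ≤ κ ^ 3 := by positivity
      linarith
    · push Not at hcol
      obtain ⟨j, hj⟩ := hcol
      rw [if_pos hz]
      refine le_trans (bad_indep hM2 m α α' α'' hm h12 (by omega) (q l) (q l') (q l'')
        (W l) (W l') (W l'') w (hW l) (hW l') (hW l'') j ?_ ?_) ?_
      · apply mul_ne_zero (by exact_mod_cast hm.ne')
        exact sub_ne_zero.2 hj
      · apply hsm l l' l'' j
        · rw [abs_lt]; constructor <;> omega
        · rw [abs_lt]; constructor <;> omega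
      · rw [← hκ]
        apply mul_le_mul_of_nonneg_left _ (by positivity)
        have : 0 ≤ κ ^ 2 * (if E l l' l'' then (1 : ℝ) else 0) := by positivity
        linarith

theorem gw_sum_fin (a : ℕ) :
    ∑ t : Fin a × Fin a × Fin a, (if t.1 ≠ t.2.1 ∧ t.1 ≠ t.2.2 ∧ t.2.1 ≠ t.2.2 then
      gw (((t.2.1 : ℕ) : ℤ) - (t.1 : ℕ)) (((t.2.2 : ℕ) : ℤ) - (t.1 : ℕ)) else 0)
      ≤ 4 * (a : ℝ) ^ 2 * (1 + Real.log a) ^ 2 := by
  refine le_trans ?_ (gw_sum a)
  have h1 : ∑ α ∈ range a, ∑ α' ∈ (range a).filter (fun b => b ≠ α),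
      ∑ α'' ∈ (range a).filter (fun b => b ≠ α), gw ((α' : ℤ) - α) ((α'' : ℤ) - α)
      = ∑ α ∈ range a, ∑ α' ∈ range a, ∑ α'' ∈ range a,
        (if α' ≠ α ∧ α'' ≠ α then gw ((α' : ℤ) - α) ((α'' : ℤ) - α) else 0) := by
    apply Finset.sum_congr rfl
    intro α _
    rw [Finset.sum_filter]
    apply Finset.sum_congr rfl
    intro α' _
    by_cases h : α' ≠ α
    · rw [if_pos h, Finset.sum_filter]
      apply Finset.sum_congr rfl
      intro α'' _
      simp [h]
    · rw [if_neg h]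
      symm
      apply Finset.sum_eq_zero
      intro α'' _
      rw [if_neg]
      intro h'; exact h h'.1
  rw [h1, Fintype.sum_prod_type]
  rw [← Fin.sum_univ_eq_sum_range (fun α => ∑ α' ∈ range a, ∑ α'' ∈ range a,
        (if α' ≠ α ∧ α'' ≠ α then gw ((α' : ℤ) - α) ((α'' : ℤ) - α) else 0)) a]
  apply Finset.sum_le_sum
  intro α _
  rw [Fintype.sum_prod_type]
  rw [← Fin.sum_univ_eq_sum_range (fun α' => ∑ α'' ∈ range a,
        (if α' ≠ (α : ℕ) ∧ α'' ≠ (α : ℕ) then gw ((α' : ℤ) - (α : ℕ)) ((α'' : ℤ) - (α : ℕ)) else 0)) a]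
  apply Finset.sum_le_sum
  intro α' _
  rw [← Fin.sum_univ_eq_sum_range (fun α'' =>
        (if (α' : ℕ) ≠ (α : ℕ) ∧ α'' ≠ (α : ℕ) then
          gw (((α' : ℕ) : ℤ) - (α : ℕ)) ((α'' : ℤ) - (α : ℕ)) else 0)) a]
  apply Finset.sum_le_sum
  intro α'' _
  simp only
  split_ifs with h h'
  · exact le_rfl
  · exfalso
    apply h'
    refine ⟨?_, ?_⟩
    · intro e; exact h.1 (Fin.ext e.symm)
    · intro e; exact h.2.1 (Fin.ext e.symm)
  · exact gw_nonneg _ _
  · exact le_rfl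

set_option maxHeartbeats 2000000 in
open Classical in
theorem lift {Λ : Type} [Fintype Λ] [Nonempty Λ] (hM2 : 2 < M) (m a T : ℕ) (hm : 0 < m)
    (hmM : m < M) (haM : a ≤ M)
    (q : Λ → J → ℤ) (W : Λ → J → Finset (ZMod M)) (w : J → ℕ) (hW : ∀ l j, (W l j).card = w j)
    (Z E : Λ → Λ → Λ → Prop)
    (hZ : ∀ l l' l'' (r r' r'' : J → ZMod M), (∀ j, r j ∈ W l j) → (∀ j, r' j ∈ W l' j) →
      (∀ j, r'' j ∈ W l'' j) → (m : ℤ) ∣ Ksum (q l) (q l') (q l'') r r' r'' → Z l l' l'')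
    (hE : ∀ l l' l'' (x y : ℤ), x ≠ 0 → y ≠ 0 → x ≠ y →
      (∀ j, x * (q l'' j - q l j) = y * (q l' j - q l j)) → E l l' l'')
    (hK : ∀ l l' l'' (r r' r'' : J → ZMod M), (∀ j, r j ∈ W l j) → (∀ j, r' j ∈ W l' j) →
      (∀ j, r'' j ∈ W l'' j) → 2 * |Ksum (q l) (q l') (q l'') r r' r''| ≤ M)
    (hsm : ∀ l l' l'' j (x y : ℤ), |x| < a → |y| < a →
      |(m : ℤ) * (x * (q l'' j - q l j) - y * (q l' j - q l j))| < M)
    (εZ εE : ℝ)
    (hεZ : ((univ.filter (fun t : Λ × Λ × Λ => Z t.1 t.2.1 t.2.2)).card : ℝ)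
      ≤ εZ * (Fintype.card Λ : ℝ) ^ 3)
    (hεE : ((univ.filter (fun t : Λ × Λ × Λ => E t.1 t.2.1 t.2.2)).card : ℝ)
      ≤ εE * (Fintype.card Λ : ℝ) ^ 3) :
    ∃ (X : Finset (Fin a)) (p : Fin a → ℕ), (∀ α ∈ X, p α < M) ∧
      ((a : ℝ) * ((∏ j, (w j : ℝ)) / (M : ℝ) ^ Fintype.card J) / ((T : ℝ) + 1)
        - 8 * (a : ℝ) ^ 2 * (1 + Real.log a) ^ 2 / ((T : ℝ) + 1) ^ 3
          * (((∏ j, (w j : ℝ)) / (M : ℝ) ^ Fintype.card J) ^ 3 * εZ
            + ((∏ j, (w j : ℝ)) / (M : ℝ) ^ Fintype.card J) ^ 2 * εE) ≤ (X.card : ℝ)) ∧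
      ∀ α ∈ X, ∀ α' ∈ X, ∀ α'' ∈ X, α ≠ α' → α ≠ α'' → α' ≠ α'' →
        (M : ℤ) ≤ 2 * |(m : ℤ) * ((((α' : ℕ) : ℤ) - (α : ℕ)) * ((p α'' : ℤ) - p α)
          - (((α'' : ℕ) : ℤ) - (α : ℕ)) * ((p α' : ℤ) - p α))| := by
  have : NeZero M := ⟨hMp.out.ne_zero⟩
  set κ : ℝ := (∏ j, (w j : ℝ)) / (M : ℝ) ^ Fintype.card J with hκ
  have hκ0 : 0 ≤ κ := div_nonneg (Finset.prod_nonneg (fun j _ => Nat.cast_nonneg _)) (by positivity)
  set Lc : ℝ := (Fintype.card (Λ × Fin (T + 1)) : ℝ) with hLc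
  have hLc' : Lc = (Fintype.card Λ : ℝ) * ((T : ℝ) + 1) := by
    rw [hLc, Fintype.card_prod, Fintype.card_fin]; push_cast; ring
  have hΛ0 : (0 : ℝ) < (Fintype.card Λ : ℝ) := by exact_mod_cast Fintype.card_pos
  have hT0 : (0 : ℝ) < (T : ℝ) + 1 := by positivity
  have hLc0 : 0 < Lc := by rw [hLc']; positivity
  set Θc : ℝ := (Fintype.card (Th J M) : ℝ) with hΘc
  have hΘ0 : 0 < Θc := by rw [hΘc]; exact_mod_cast Fintype.card_pos
  -- the sets
  let X : Th J M × (Fin a → Λ × Fin (T + 1)) → Finset (Fin a) := fun ω =>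
    univ.filter (fun α => (ω.2 α).2 = 0 ∧
      ∀ j, pp ω.1 m α (q (ω.2 α).1) (some j) ∈ W (ω.2 α).1 j)
  let B : Th J M × (Fin a → Λ × Fin (T + 1)) → Finset (Fin a × Fin a × Fin a) := fun ω =>
    univ.filter (fun t => (t.1 ≠ t.2.1 ∧ t.1 ≠ t.2.2 ∧ t.2.1 ≠ t.2.2) ∧
      ((ω.2 t.1).2 = 0 ∧ (ω.2 t.2.1).2 = 0 ∧ (ω.2 t.2.2).2 = 0) ∧
      badEv m t.1 t.2.1 t.2.2 (q (ω.2 t.1).1) (q (ω.2 t.2.1).1) (q (ω.2 t.2.2).1)
        (W (ω.2 t.1).1) (W (ω.2 t.2.1).1) (W (ω.2 t.2.2).1) ω.1)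
  -- first moment
  have hX : ∑ ω, ((X ω).card : ℝ) = Θc * Lc ^ a * (a * κ / (T + 1)) := by
    have e1 : ∀ ω, ((X ω).card : ℝ) = ∑ α : Fin a, (if ((ω.2 α).2 = 0 ∧
      ∀ j, pp ω.1 m α (q (ω.2 α).1) (some j) ∈ W (ω.2 α).1 j) then (1 : ℝ) else 0) := by
      intro ω
      simp only [X, Finset.card_filter]
      push_cast
      rfl
    simp_rw [e1]
    rw [Finset.sum_comm]
    have e2 : ∀ α : Fin a, ∑ ω : Th J M × (Fin a → Λ × Fin (T + 1)), (if ((ω.2 α).2 = 0 ∧
      ∀ j, pp ω.1 m α (q (ω.2 α).1) (some j) ∈ W (ω.2 α).1 j) then (1 : ℝ) else 0)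
        = Θc * Lc ^ a * (κ / (T + 1)) := by
      intro α
      rw [Fintype.sum_prod_type, Finset.sum_comm]
      have e3 : ∀ f : Fin a → Λ × Fin (T + 1), ∑ θ : Th J M, (if ((f α).2 = 0 ∧
          ∀ j, pp θ m α (q (f α).1) (some j) ∈ W (f α).1 j) then (1 : ℝ) else 0)
          = (fun l : Λ × Fin (T + 1) => if l.2 = 0 then Θc * κ else 0) (f α) := by
        intro f
        simp only
        by_cases h0 : (f α).2 = 0
        · simp only [h0, true_and, if_true]
          rw [← acc_card m α (q (f α).1) (W (f α).1) w (hW (f α).1), Finset.card_filter]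
          push_cast
          rfl
        · simp [h0]
      simp_rw [e3]
      have e4 := avg_one (L := Λ × Fin (T + 1)) α
        (fun l : Λ × Fin (T + 1) => if l.2 = 0 then Θc * κ else 0)
      have e5 : ∑ l : Λ × Fin (T + 1), (if l.2 = 0 then Θc * κ else 0)
          = (Fintype.card Λ : ℝ) * (Θc * κ) := by
        rw [Fintype.sum_prod_type]
        simp
      rw [e5, Fintype.card_fin, ← hLc] at e4
      have e6 : ∑ f : Fin a → Λ × Fin (T + 1),
          (fun l : Λ × Fin (T + 1) => if l.2 = 0 then Θc * κ else 0) (f α)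
          = (Lc ^ a * ((Fintype.card Λ : ℝ) * (Θc * κ))) / Lc := by
        rw [eq_div_iff hLc0.ne']; exact e4
      rw [e6]
      have : Lc ^ a * ((Fintype.card Λ : ℝ) * (Θc * κ)) / Lc
          = Θc * Lc ^ a * κ * ((Fintype.card Λ : ℝ) / Lc) := by ring
      rw [this, hLc']
      field_simp
    rw [Finset.sum_congr rfl (fun α _ => e2 α), Finset.sum_const, Finset.card_univ,
      Fintype.card_fin, nsmul_eq_mul]
    ring
  -- bad triples
  have hB : ∑ ω, ((B ω).card : ℝ) ≤ Θc * Lc ^ a *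
      (8 * (a : ℝ) ^ 2 * (1 + Real.log a) ^ 2 / ((T : ℝ) + 1) ^ 3 * (κ ^ 3 * εZ + κ ^ 2 * εE)) := by
    have e1 : ∀ ω, ((B ω).card : ℝ) = ∑ t : Fin a × Fin a × Fin a,
        (if (t.1 ≠ t.2.1 ∧ t.1 ≠ t.2.2 ∧ t.2.1 ≠ t.2.2) ∧
        ((ω.2 t.1).2 = 0 ∧ (ω.2 t.2.1).2 = 0 ∧ (ω.2 t.2.2).2 = 0) ∧
        badEv m t.1 t.2.1 t.2.2 (q (ω.2 t.1).1) (q (ω.2 t.2.1).1) (q (ω.2 t.2.2).1)
        (W (ω.2 t.1).1) (W (ω.2 t.2.1).1) (W (ω.2 t.2.2).1) ω.1 then (1 : ℝ) else 0) := by
      intro ω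
      simp only [B, Finset.card_filter]
      push_cast
      rfl
    simp_rw [e1]
    rw [Finset.sum_comm]
    have hεs : 0 ≤ κ ^ 3 * εZ + κ ^ 2 * εE := by
      have h3 : (0 : ℝ) < (Fintype.card Λ : ℝ) ^ 3 := by positivity
      have a1 : 0 ≤ εZ := by
        have := le_trans (Nat.cast_nonneg _) hεZ
        exact nonneg_of_mul_nonneg_left this h3
      have a2 : 0 ≤ εE := by
        have := le_trans (Nat.cast_nonneg _) hεE
        exact nonneg_of_mul_nonneg_left this h3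
      positivity
    have e2 : ∀ t : Fin a × Fin a × Fin a, ∑ ω : Th J M × (Fin a → Λ × Fin (T + 1)),
        (if (t.1 ≠ t.2.1 ∧ t.1 ≠ t.2.2 ∧ t.2.1 ≠ t.2.2) ∧
        ((ω.2 t.1).2 = 0 ∧ (ω.2 t.2.1).2 = 0 ∧ (ω.2 t.2.2).2 = 0) ∧
        badEv m t.1 t.2.1 t.2.2 (q (ω.2 t.1).1) (q (ω.2 t.2.1).1) (q (ω.2 t.2.2).1)
        (W (ω.2 t.1).1) (W (ω.2 t.2.1).1) (W (ω.2 t.2.2).1) ω.1 then (1 : ℝ) else 0)
        ≤ (Θc * Lc ^ a * (2 / ((T : ℝ) + 1) ^ 3 * (κ ^ 3 * εZ + κ ^ 2 * εE))) *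
          (if t.1 ≠ t.2.1 ∧ t.1 ≠ t.2.2 ∧ t.2.1 ≠ t.2.2 then
      gw (((t.2.1 : ℕ) : ℤ) - (t.1 : ℕ)) (((t.2.2 : ℕ) : ℤ) - (t.1 : ℕ)) else 0) := by
      rintro ⟨α, α', α''⟩
      by_cases hd : α ≠ α' ∧ α ≠ α'' ∧ α' ≠ α''
      · simp only [hd, true_and, if_true, ne_eq, not_false_eq_true, and_self]
        obtain ⟨h12, h13, h23⟩ := hd
        set g := gw (((α' : ℕ) : ℤ) - (α : ℕ)) (((α'' : ℕ) : ℤ) - (α : ℕ)) with hg
        have hg0 : 0 ≤ g := gw_nonneg _ _
        let H : Λ → Λ → Λ → ℝ := fun l l' l'' => (((univ : Finset (Th J M)).filter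
          (fun θ => badEv m α α' α'' (q l) (q l') (q l'') (W l) (W l') (W l'') θ)).card : ℝ)
        let G : Λ × Fin (T + 1) → Λ × Fin (T + 1) → Λ × Fin (T + 1) → ℝ := fun l l' l'' =>
          if l.2 = 0 ∧ l'.2 = 0 ∧ l''.2 = 0 then H l.1 l'.1 l''.1 else 0
        rw [Fintype.sum_prod_type, Finset.sum_comm]
        have e3 : ∀ f : Fin a → Λ × Fin (T + 1), ∑ θ : Th J M,
            (if (((f α).2 = 0 ∧ (f α').2 = 0 ∧ (f α'').2 = 0) ∧
              badEv m α α' α'' (q (f α).1) (q (f α').1) (q (f α'').1)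
              (W (f α).1) (W (f α').1) (W (f α'').1) θ) then (1 : ℝ) else 0)
            = G (f α) (f α') (f α'') := by
          intro f
          simp only [G]
          by_cases h0 : (f α).2 = 0 ∧ (f α').2 = 0 ∧ (f α'').2 = 0
          · simp only [h0, true_and, if_true, and_self]
            simp only [H, Finset.card_filter]
            push_cast
            rfl
          · simp [h0]
        simp only at e3 ⊢
        rw [Finset.sum_congr rfl (fun f _ => e3 f)]
        have e4 := avg_three (L := Λ × Fin (T + 1)) α α' α'' h12 h13 h23 G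
        rw [Fintype.card_fin, ← hLc] at e4
        have e5 : ∑ l, ∑ l', ∑ l'', G l l' l'' = ∑ l, ∑ l', ∑ l'', H l l' l'' := by
          simp only [G]
          rw [Fintype.sum_prod_type]
          apply Finset.sum_congr rfl
          intro l _
          rw [Finset.sum_eq_single (0 : Fin (T + 1))]
          · rw [Fintype.sum_prod_type]
            apply Finset.sum_congr rfl
            intro l' _
            rw [Finset.sum_eq_single (0 : Fin (T + 1))]
            · rw [Fintype.sum_prod_type]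
              apply Finset.sum_congr rfl
              intro l'' _
              simp
            · intro c _ hc
              apply Finset.sum_eq_zero
              intro x _
              simp [hc]
            · intro h; exact absurd (Finset.mem_univ _) h
          · intro c _ hc
            apply Finset.sum_eq_zero
            intro x _
            apply Finset.sum_eq_zero
            intro y _
            simp [hc]
          · intro h; exact absurd (Finset.mem_univ _) h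
        have e6 : ∑ l, ∑ l', ∑ l'', H l l' l''
            ≤ Θc * (2 * g) * ((κ ^ 3 * εZ + κ ^ 2 * εE) * (Fintype.card Λ : ℝ) ^ 3) := by
          have f1 : ∀ l l' l'', H l l' l'' ≤ Θc * (2 * g) *
              (κ ^ 3 * (if Z l l' l'' then 1 else 0) + κ ^ 2 * (if E l l' l'' then 1 else 0)) := by
            intro l l' l''
            exact bad_all hM2 m a hm hmM haM q W w hW Z E hZ hE hsm α α' α'' α.2 α'.2 α''.2
              (fun h => h12 (Fin.ext h)) (fun h => h13 (Fin.ext h)) (fun h => h23 (Fin.ext h))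
              l l' l''
          have f2 : ∀ P : Λ → Λ → Λ → Prop, ∑ l, ∑ l', ∑ l'', (if P l l' l'' then (1 : ℝ) else 0)
              = ((univ.filter (fun t : Λ × Λ × Λ => P t.1 t.2.1 t.2.2)).card : ℝ) := by
            intro P
            rw [Finset.card_filter]
            push_cast
            rw [Fintype.sum_prod_type]
            apply Finset.sum_congr rfl
            intro l _
            rw [Fintype.sum_prod_type]
          calc ∑ l, ∑ l', ∑ l'', H l l' l''
              ≤ ∑ l, ∑ l', ∑ l'', Θc * (2 * g) *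
              (κ ^ 3 * (if Z l l' l'' then 1 else 0) + κ ^ 2 * (if E l l' l'' then 1 else 0)) := by
                apply Finset.sum_le_sum; intro l _
                apply Finset.sum_le_sum; intro l' _
                apply Finset.sum_le_sum; intro l'' _
                exact f1 l l' l''
            _ = Θc * (2 * g) * (κ ^ 3 * ∑ l, ∑ l', ∑ l'', (if Z l l' l'' then (1 : ℝ) else 0)
                + κ ^ 2 * ∑ l, ∑ l', ∑ l'', (if E l l' l'' then (1 : ℝ) else 0)) := by
                simp only [Finset.mul_sum, ← Finset.sum_add_distrib]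
            _ ≤ Θc * (2 * g) * (κ ^ 3 * (εZ * (Fintype.card Λ : ℝ) ^ 3)
                + κ ^ 2 * (εE * (Fintype.card Λ : ℝ) ^ 3)) := by
                rw [f2 Z, f2 E]
                apply mul_le_mul_of_nonneg_left _ (by positivity)
                apply add_le_add
                · exact mul_le_mul_of_nonneg_left hεZ (by positivity)
                · exact mul_le_mul_of_nonneg_left hεE (by positivity)
            _ = _ := by ring
        have e7 : ∑ f : Fin a → Λ × Fin (T + 1), G (f α) (f α') (f α'')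
            = (Lc ^ a * ∑ l, ∑ l', ∑ l'', G l l' l'') / Lc ^ 3 := by
          rw [eq_div_iff (by positivity)]; exact e4
        rw [e7, e5]
        calc (Lc ^ a * ∑ l, ∑ l', ∑ l'', H l l' l'') / Lc ^ 3
            ≤ (Lc ^ a * (Θc * (2 * g) * ((κ ^ 3 * εZ + κ ^ 2 * εE)
                * (Fintype.card Λ : ℝ) ^ 3))) / Lc ^ 3 := by
              apply div_le_div_of_nonneg_right _ (by positivity)
              exact mul_le_mul_of_nonneg_left e6 (by positivity)
          _ = Lc ^ a * (Θc * (2 * g) * (κ ^ 3 * εZ + κ ^ 2 * εE))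
              * ((Fintype.card Λ : ℝ) / Lc) ^ 3 := by
              rw [div_pow]; ring
          _ = Θc * Lc ^ a * (2 / ((T : ℝ) + 1) ^ 3 * (κ ^ 3 * εZ + κ ^ 2 * εE)) * g := by
              have : (Fintype.card Λ : ℝ) / Lc = 1 / ((T : ℝ) + 1) := by
                rw [hLc']; field_simp
              have h9 : (1 / ((T : ℝ) + 1)) ^ 3 = 1 / ((T : ℝ) + 1) ^ 3 := by
                rw [div_pow (1 : ℝ), one_pow]
              rw [this, h9]
              ring
      · rw [if_neg hd, mul_zero]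
        apply le_of_eq
        apply Finset.sum_eq_zero
        intro ω _
        rw [if_neg]
        intro h; exact hd h.1
    refine le_trans (Finset.sum_le_sum (fun t _ => e2 t)) ?_
    rw [← Finset.mul_sum]
    refine le_trans (mul_le_mul_of_nonneg_left (gw_sum_fin a) (by positivity)) ?_
    apply le_of_eq
    ring
  -- averaging
  have hcardΩ : ∑ _ω : Th J M × (Fin a → Λ × Fin (T + 1)), (1 : ℝ) = Θc * Lc ^ a := by
    rw [Finset.sum_const, nsmul_eq_mul, mul_one, Finset.card_univ, Fintype.card_prod,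
      Fintype.card_fun, Fintype.card_fin]
    push_cast
    rw [hΘc, hLc]
  set c : ℝ := (a : ℝ) * κ / ((T : ℝ) + 1)
        - 8 * (a : ℝ) ^ 2 * (1 + Real.log a) ^ 2 / ((T : ℝ) + 1) ^ 3
          * (κ ^ 3 * εZ + κ ^ 2 * εE) with hc
  have hex : ∃ ω : Th J M × (Fin a → Λ × Fin (T + 1)),
      c ≤ ((X ω).card : ℝ) - ((B ω).card : ℝ) := by
    have h1 : ∑ _ω : Th J M × (Fin a → Λ × Fin (T + 1)), c
        ≤ ∑ ω, (((X ω).card : ℝ) - ((B ω).card : ℝ)) := by
      have h2 : ∑ _ω : Th J M × (Fin a → Λ × Fin (T + 1)), c = c * (Θc * Lc ^ a) := by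
        rw [← hcardΩ, Finset.mul_sum]; simp
      rw [h2, Finset.sum_sub_distrib, hX, hc]
      have : (a * κ / (T + 1) - 8 * (a : ℝ) ^ 2 * (1 + Real.log a) ^ 2 / ((T : ℝ) + 1) ^ 3
          * (κ ^ 3 * εZ + κ ^ 2 * εE)) * (Θc * Lc ^ a)
          = Θc * Lc ^ a * (a * κ / (T + 1)) - Θc * Lc ^ a *
      (8 * (a : ℝ) ^ 2 * (1 + Real.log a) ^ 2 / ((T : ℝ) + 1) ^ 3 * (κ ^ 3 * εZ + κ ^ 2 * εE)) := by
        ring
      rw [this]
      linarith
    obtain ⟨ω, _, hω⟩ := Finset.exists_le_of_sum_le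
      (s := (univ : Finset (Th J M × (Fin a → Λ × Fin (T + 1))))) Finset.univ_nonempty h1
    exact ⟨ω, hω⟩
  obtain ⟨ω, hω⟩ := hex
  refine ⟨X ω \ (B ω).image (fun t => t.1), fun α => (pp ω.1 m α (q (ω.2 α).1) none).val,
    fun α _ => ZMod.val_lt _, ?_, ?_⟩
  · refine le_trans hω ?_
    have h1 : (X ω).card ≤ (X ω \ (B ω).image (fun t => t.1)).card + (B ω).card := by
      have h2 := Finset.le_card_sdiff ((B ω).image (fun t => t.1)) (X ω)
      have h3 := Finset.card_image_le (s := B ω) (f := fun t => t.1)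
      omega
    have h2 : ((X ω).card : ℝ) ≤ ((X ω \ (B ω).image (fun t => t.1)).card : ℝ)
      + ((B ω).card : ℝ) := by exact_mod_cast h1
    linarith
  · intro α hα α' hα' α'' hα'' h12 h13 h23
    rw [Finset.mem_sdiff] at hα hα' hα''
    have x1 := (Finset.mem_filter.1 hα.1).2
    have x2 := (Finset.mem_filter.1 hα'.1).2
    have x3 := (Finset.mem_filter.1 hα''.1).2
    set K := Ksum (qv m α (q (ω.2 α).1)) (qv m α' (q (ω.2 α').1)) (qv m α'' (q (ω.2 α'').1))
      (pp ω.1 m α (q (ω.2 α).1)) (pp ω.1 m α' (q (ω.2 α').1)) (pp ω.1 m α'' (q (ω.2 α'').1)) with hKdef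
    have hKne : K ≠ 0 := by
      intro h0
      apply hα.2
      rw [Finset.mem_image]
      refine ⟨(α, α', α''), ?_, rfl⟩
      simp only [B, Finset.mem_filter, Finset.mem_univ, true_and]
      exact ⟨⟨h12, h13, h23⟩, ⟨x1.1, x2.1, x3.1⟩, x1.2, x2.2, x3.2, h0⟩
    have hdvd : (M : ℤ) ∣ K := Ksum_dvd _ _ _ _ _ _ _ _
    have hKM : (M : ℤ) ≤ |K| := Int.le_of_dvd (abs_pos.2 hKne) ((dvd_abs _ _).2 hdvd)
    have hint := hK (ω.2 α).1 (ω.2 α').1 (ω.2 α'').1 _ _ _ x1.2 x2.2 x3.2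
    rw [hKdef, Ksum_option] at hKM
    have htri := abs_add_le ((m : ℤ) * ((((α' : ℕ) : ℤ) - (α : ℕ))
      * ((((pp ω.1 m α'' (q (ω.2 α'').1)) none).val : ℤ) - ((pp ω.1 m α (q (ω.2 α).1)) none).val)
          - (((α'' : ℕ) : ℤ) - (α : ℕ)) * ((((pp ω.1 m α' (q (ω.2 α').1)) none).val : ℤ)
            - ((pp ω.1 m α (q (ω.2 α).1)) none).val)))
      (Ksum (q (ω.2 α).1) (q (ω.2 α').1) (q (ω.2 α'').1)
        (fun j => (pp ω.1 m α (q (ω.2 α).1)) (some j)) (fun j => (pp ω.1 m α' (q (ω.2 α').1)) (some j))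
        (fun j => (pp ω.1 m α'' (q (ω.2 α'').1)) (some j)))
    linarith

end Lift

end Crest.Agent.HB.Pl
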