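import Crest.Agent.HB.Defs
import Crest.Agent.HB.PlComb

/-! Row 32 (S0042), STEP 2: planar point sets from sets in `(ℤ/m)^{2D}` with few triangles of
symplectic area zero. -/
set_option autoImplicit false

namespace Crest.Agent.HB

open Finset

namespace Pl

/-- Real-number bookkeeping: the size of `X` and the area. -/
theorem arith (t κ n m a : ℝ) (K B : ℕ) (ht : 0 < t) (hm : t ^ 16 = m) (hmK : 1 / m ^ K ≤ κ)
    (hκ0 : 0 < κ)
    (htB : 1024 * (1 + 32 * (B : ℝ)) ^ 2 ≤ t ^ 2) (hn : m ^ (K + 3) ≤ n)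
    (ha1 : n ^ 2 / t ^ 20 / 2 ≤ a) : 1 ≤ a * κ / (2 * n) := by
  have hB1 : (1 : ℝ) ≤ (1 + 32 * (B : ℝ)) ^ 2 := by
    have : (0 : ℝ) ≤ B := Nat.cast_nonneg _
    nlinarith
  have ht2 : 1024 ≤ t ^ 2 := by linarith
  have hm0 : 0 < m := by rw [← hm]; positivity
  have hmK0 : 0 < m ^ K := by positivity
  have hn0 : 0 < n := lt_of_lt_of_le (by positivity) hn
  rw [le_div_iff₀ (by positivity), one_mul]
  -- 2 n ≤ a κ
  have h1 : n ^ 2 / t ^ 20 / 2 * (1 / m ^ K) ≤ a * κ := by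
    apply mul_le_mul ha1 hmK (by positivity)
    exact le_trans (by positivity) ha1
  refine le_trans ?_ h1
  -- 2 n ≤ n^2 / (2 t^20 m^K)
  have h2 : 4 * t ^ 20 * m ^ K ≤ n := by
    refine le_trans ?_ hn
    have e : m ^ (K + 3) = t ^ 20 * m ^ K * (t ^ 2) ^ 14 := by
      rw [pow_add, ← hm]; ring
    rw [e]
    have h3 : (4 : ℝ) ≤ (t ^ 2) ^ 14 := by
      calc (4 : ℝ) ≤ 1024 ^ 14 := by norm_num
        _ ≤ (t ^ 2) ^ 14 := pow_le_pow_left₀ (by norm_num) ht2 14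
    have h4 : 0 < t ^ 20 * m ^ K := by positivity
    nlinarith
  have e : n ^ 2 / t ^ 20 / 2 * (1 / m ^ K) = n * n / (2 * (t ^ 20 * m ^ K)) := by
    field_simp
  rw [e, le_div_iff₀ (by positivity)]
  nlinarith

theorem arith2 (t κ n m a F lg : ℝ) (B : ℕ) (ht : 0 < t) (hm : t ^ 16 = m) (hκ0 : 0 < κ)
    (htB : 1024 * (1 + 32 * (B : ℝ)) ^ 2 ≤ t ^ 2) (hn0 : 0 < n) (ha0 : 0 < a)
    (ha1 : n ^ 2 / t ^ 20 / 2 ≤ a) (hF0 : 0 < F) (hF1 : F ≤ a * κ / (2 * n))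
    (hF2 : a * κ / (2 * n) / 2 ≤ F) (hlg0 : 0 ≤ lg) (hlg : lg ≤ 32 * (B : ℝ) * t)
    (δ : ℝ) (hδ : δ ≤ 2 * κ ^ 3 / t ^ 24) :
    n ≤ a * κ / F - 8 * a ^ 2 * (1 + lg) ^ 2 / F ^ 3 * δ := by
  have hB0 : (0 : ℝ) ≤ B := Nat.cast_nonneg _
  have hB1 : (1 : ℝ) ≤ (1 + 32 * (B : ℝ)) ^ 2 := by nlinarith
  have ht2 : 1024 ≤ t ^ 2 := by linarith
  have ht1 : 1 ≤ t := by nlinarith
  set μ := a * κ / F with hμ
  have hμ0 : 0 < μ := by positivity
  have hμ1 : 2 * n ≤ μ := by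
    rw [hμ, le_div_iff₀ hF0]
    rw [le_div_iff₀ (by positivity)] at hF1
    linarith
  have hμ2 : μ ≤ 4 * n := by
    rw [hμ, div_le_iff₀ hF0]
    rw [div_div, div_le_iff₀ (by positivity)] at hF2
    linarith
  have hlg1 : 1 + lg ≤ (1 + 32 * (B : ℝ)) * t := by nlinarith
  have hlg2 : (1 + lg) ^ 2 ≤ (1 + 32 * (B : ℝ)) ^ 2 * t ^ 2 := by
    rw [← mul_pow]; exact pow_le_pow_left₀ (by positivity) hlg1 2
  -- the error term
  have h1 : 8 * a ^ 2 * (1 + lg) ^ 2 / F ^ 3 * δ ≤ μ / 2 := by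
    calc 8 * a ^ 2 * (1 + lg) ^ 2 / F ^ 3 * δ
        ≤ 8 * a ^ 2 * (1 + lg) ^ 2 / F ^ 3 * (2 * κ ^ 3 / t ^ 24) :=
          mul_le_mul_of_nonneg_left hδ (by positivity)
      _ = μ * (16 * (1 + lg) ^ 2 * μ ^ 2 / (a * t ^ 24)) := by
          rw [hμ]; field_simp; ring
      _ ≤ μ * (1 / 2) := by
          apply mul_le_mul_of_nonneg_left _ hμ0.le
          rw [div_le_iff₀ (by positivity)]
          have h2 : μ ^ 2 ≤ 16 * n ^ 2 := by nlinarith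
          have h3 : n ^ 2 ≤ 2 * a * t ^ 20 := by
            rw [div_div, div_le_iff₀ (by positivity)] at ha1
            linarith
          calc 16 * (1 + lg) ^ 2 * μ ^ 2
              ≤ 16 * ((1 + 32 * (B : ℝ)) ^ 2 * t ^ 2) * (16 * (2 * a * t ^ 20)) := by
                apply mul_le_mul _ (by linarith) (by positivity) (by positivity)
                exact mul_le_mul_of_nonneg_left hlg2 (by norm_num)
            _ = (1024 * (1 + 32 * (B : ℝ)) ^ 2) * (a * t ^ 22 / 2) := by ring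
            _ ≤ t ^ 2 * (a * t ^ 22 / 2) := mul_le_mul_of_nonneg_right htB (by positivity)
            _ = 1 / 2 * (a * t ^ 24) := by ring
      _ = μ / 2 := by ring
  linarith

theorem area_arith (t n m a M x : ℝ) (ht : 0 < t) (hm : t ^ 16 = m) (ht2 : 1024 ≤ t ^ 2)
    (hn0 : 0 < n) (ha0 : 0 < a) (hM0 : 0 < M)
    (ha2 : a ≤ n ^ 2 / t ^ 20) (hx : M ≤ 2 * (m * |x|)) :
    t ^ 2 / n ^ 2 ≤ |x / (a * M)| / 2 := by
  have hm0 : 0 < m := by rw [← hm]; positivity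
  rw [abs_div, abs_of_pos (by positivity : 0 < a * M)]
  have h1 : M / (2 * m) ≤ |x| := by
    rw [div_le_iff₀ (by positivity)]; linarith
  have h2 : 1 / (4 * m * a) ≤ |x| / (a * M) / 2 := by
    calc 1 / (4 * m * a) = M / (2 * m) / (a * M) / 2 := by field_simp; ring
      _ ≤ |x| / (a * M) / 2 := by gcongr
  refine le_trans ?_ h2
  have h3 : 4 * m * a ≤ 4 * m * (n ^ 2 / t ^ 20) := mul_le_mul_of_nonneg_left ha2 (by positivity)
  refine le_trans ?_ (one_div_le_one_div_of_le (by positivity) h3)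
  rw [← hm]
  have e : 1 / (4 * t ^ 16 * (n ^ 2 / t ^ 20)) = t ^ 4 / (4 * n ^ 2) := by field_simp
  rw [e, div_le_div_iff₀ (by positivity) (by positivity)]
  have h4 : 4 * t ^ 2 ≤ t ^ 4 := by nlinarith
  nlinarith [sq_nonneg n]

end Pl

set_option maxHeartbeats 2000000 in
open Pl in
theorem planar (D : ℕ) : ∃ A : ℕ, ∀ B : ℕ, ∃ m₀ : ℕ, ∀ m : ℕ, m₀ ≤ m →
    ∀ S : Finset (Fin D → ZMod m × ZMod m), S.Nonempty →
    (((S ×ˢ S ×ˢ S).filter (fun t => KK t.1 t.2.1 t.2.2 = 0)).card : ℝ)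
      ≤ (S.card : ℝ) ^ 3 * (m : ℝ) ^ (-(3 / 2 : ℝ)) →
    ∀ n : ℕ, m ^ A ≤ n → n ≤ m ^ B →
    ∃ P : Finset (ℝ × ℝ), P.card = n ∧
      (∀ p ∈ P, 0 ≤ p.1 ∧ p.1 ≤ 1 ∧ 0 ≤ p.2 ∧ p.2 ≤ 1) ∧
      ∀ p ∈ P, ∀ q ∈ P, ∀ r ∈ P, p ≠ q → p ≠ r → q ≠ r →
        (m : ℝ) ^ ((1 : ℝ) / 8) / (n : ℝ) ^ 2
          ≤ |(q.1 - p.1) * (r.2 - p.2) - (q.2 - p.2) * (r.1 - p.1)| / 2 := by
  classical
  refine ⟨24 * D + 82 + 3, fun B => ⟨4 * D + 24 + (1024 * (1 + 32 * B) ^ 2) ^ 8, ?_⟩⟩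
  intro m hm0 S hS hε n hnA hnB
  set K := 24 * D + 82 with hK
  have hmD : 4 * D + 24 ≤ m := by omega
  have hm1 : (1024 * (1 + 32 * B) ^ 2) ^ 8 ≤ m := by omega
  have hmpos : 0 < m := by omega
  have hmR : (0 : ℝ) < m := by exact_mod_cast hmpos
  set t : ℝ := (m : ℝ) ^ ((1 : ℝ) / 16) with ht
  have ht0 : 0 < t := Real.rpow_pos_of_pos hmR _
  have ht16 : t ^ 16 = (m : ℝ) := by
    rw [ht, ← Real.rpow_natCast, ← Real.rpow_mul hmR.le]; norm_num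
  have ht2 : (m : ℝ) ^ ((1 : ℝ) / 8) = t ^ 2 := by
    rw [ht, ← Real.rpow_natCast, ← Real.rpow_mul hmR.le]; norm_num
  have ht24 : (m : ℝ) ^ (-(3 / 2 : ℝ)) = 1 / t ^ 24 := by
    rw [ht, ← Real.rpow_natCast, ← Real.rpow_mul hmR.le, Real.rpow_neg hmR.le, one_div]; norm_num
  have htB : 1024 * (1 + 32 * (B : ℝ)) ^ 2 ≤ t ^ 2 := by
    have h1 : (1024 * (1 + 32 * (B : ℝ)) ^ 2) ^ 8 ≤ (t ^ 2) ^ 8 := by
      have : (t ^ 2) ^ 8 = (m : ℝ) := by rw [← ht16]; ring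
      rw [this]
      exact_mod_cast hm1
    exact le_of_pow_le_pow_left₀ (by norm_num) (by positivity) h1
  have hB1 : (1 : ℝ) ≤ (1 + 32 * (B : ℝ)) ^ 2 := by
    have : (0 : ℝ) ≤ B := Nat.cast_nonneg _
    nlinarith
  have ht2' : 1024 ≤ t ^ 2 := by linarith
  have hnR : (0 : ℝ) < n := by
    have : 0 < n := lt_of_lt_of_le (by positivity) hnA
    exact_mod_cast this
  have hnA' : (m : ℝ) ^ (K + 3) ≤ n := by exact_mod_cast hnA
  -- a
  set a : ℕ := ⌊(n : ℝ) ^ 2 / t ^ 20⌋₊ with ha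
  have hz1 : 1 ≤ (n : ℝ) ^ 2 / t ^ 20 := by
    rw [le_div_iff₀ (by positivity), one_mul]
    have h1 : t ^ 20 ≤ (m : ℝ) ^ (K + 3) := by
      have e : (m : ℝ) ^ (K + 3) = t ^ 20 * ((m : ℝ) ^ K * t ^ 28) := by
        rw [pow_add, ← ht16]; ring
      rw [e]
      have h2 : (1 : ℝ) ≤ (m : ℝ) ^ K := one_le_pow₀ (by exact_mod_cast hmpos)
      have h3 : (1 : ℝ) ≤ t ^ 28 := one_le_pow₀ (by nlinarith)
      have h4 : 1 ≤ (m : ℝ) ^ K * t ^ 28 := by nlinarith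
      have h5 : 0 < t ^ 20 := by positivity
      nlinarith
    have h6 : 1 ≤ (n : ℝ) := by
      have h7 : (1 : ℝ) ≤ (m : ℝ) ^ (K + 3) := one_le_pow₀ (by exact_mod_cast hmpos)
      linarith
    nlinarith
  have ha2 : (a : ℝ) ≤ (n : ℝ) ^ 2 / t ^ 20 := Nat.floor_le (by positivity)
  have ha1 : (n : ℝ) ^ 2 / t ^ 20 / 2 ≤ a := by
    have h1 := Nat.lt_floor_add_one ((n : ℝ) ^ 2 / t ^ 20)
    have h2 : 1 ≤ a := Nat.le_floor (by simpa using hz1)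
    have h3 : (1 : ℝ) ≤ a := by exact_mod_cast h2
    rw [← ha] at h1
    linarith
  have ha0 : (0 : ℝ) < a := lt_of_lt_of_le (by positivity) ha1
  have ha0' : 0 < a := by exact_mod_cast ha0
  -- N and M
  set N : ℕ := m ^ (4 * D + 14) with hN
  have hN0 : 0 < N := by positivity
  obtain ⟨M, hMge, hMp⟩ := Nat.exists_infinite_primes (6 * m ^ 4 * (a + 1) * N ^ 2 + 1)
  have hM1 : 6 * m ^ 2 * (a + 1) * N ^ 2 < M := by
    have : 6 * m ^ 2 * (a + 1) * N ^ 2 ≤ 6 * m ^ 4 * (a + 1) * N ^ 2 := by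
      gcongr
      · omega
    omega
  have hM2 : m ^ 4 * N ^ 2 ≤ M := by
    have : 1 * m ^ 4 * 1 * N ^ 2 ≤ 6 * m ^ 4 * (a + 1) * N ^ 2 := by
      gcongr
      · norm_num
      · omega
    rw [one_mul, mul_one] at this
    omega
  have hM0 : (0 : ℝ) < M := by exact_mod_cast hMp.pos
  set κ := kap D m N M with hκ
  have hκK : 1 / (m : ℝ) ^ K ≤ κ := by
    have h1 := kap_lb D m N M (by omega) hN0 hM2
    refine le_trans (le_of_eq ?_) h1
    congr 1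
    rw [hN]; push_cast
    rw [← pow_mul, ← pow_add]
    congr 1
    omega
  have hκ0 : 0 < κ := lt_of_lt_of_le (by positivity) hκK
  have hκN : 1 / (N : ℝ) ^ 6 ≤ κ / t ^ 24 := by
    have h1 := kap_lb D m N M (by omega) hN0 hM2
    rw [le_div_iff₀ (by positivity)]
    refine le_trans ?_ h1
    rw [div_mul_eq_mul_div, one_mul, div_le_div_iff₀ (by positivity) (by positivity), one_mul]
    have e : (N : ℝ) = (m : ℝ) ^ (4 * D + 12) * t ^ 32 := by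
      rw [hN]; push_cast
      rw [pow_add (m : ℝ) (4 * D) 14, pow_add (m : ℝ) (4 * D) 12, ← ht16]; ring
    have hNR : (0 : ℝ) < N := by exact_mod_cast hN0
    have h32 : t ^ 24 ≤ t ^ 32 := pow_le_pow_right₀ (by nlinarith) (by norm_num)
    calc t ^ 24 * ((m : ℝ) ^ (4 * D + 12) * (N : ℝ) ^ 5)
        ≤ t ^ 32 * ((m : ℝ) ^ (4 * D + 12) * (N : ℝ) ^ 5) :=
          mul_le_mul_of_nonneg_right h32 (by positivity)
      _ = ((m : ℝ) ^ (4 * D + 12) * t ^ 32) * (N : ℝ) ^ 5 := by ring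
      _ = (N : ℝ) ^ 6 := by rw [← e]; ring
  -- T
  have hy := arith t κ n m a K B ht0 ht16 hκK hκ0 htB hnA' ha1
  set y : ℝ := (a : ℝ) * κ / (2 * n) with hydef
  set F : ℕ := ⌊y⌋₊ with hF
  have hF1 : 1 ≤ F := Nat.le_floor (by simpa using hy)
  have hFy : (F : ℝ) ≤ y := Nat.floor_le (by positivity)
  have hFy2 : y / 2 ≤ F := by
    have h1 := Nat.lt_floor_add_one y
    have h3 : (1 : ℝ) ≤ F := by exact_mod_cast hF1
    rw [← hF] at h1
    linarith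
  obtain ⟨X, p, hp, hXc, hX⟩ := inst D m N a (F - 1) M hMp hmD hN0 hM1 S hS
    ((m : ℝ) ^ (-(3 / 2 : ℝ))) hε
  have hF' : (((F - 1 : ℕ) : ℝ) + 1) = F := by
    have : F - 1 + 1 = F := by omega
    exact_mod_cast this
  rw [hF', ← hκ, ht24] at hXc
  have hlog : Real.log a ≤ 32 * (B : ℝ) * t := by
    have h1 : (a : ℝ) ≤ (m : ℝ) ^ (2 * B) := by
      have h2 : (a : ℝ) ≤ (n : ℝ) ^ 2 := by
        refine le_trans ha2 ?_
        apply div_le_self (by positivity)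
        exact one_le_pow₀ (by nlinarith)
      have h3 : (n : ℝ) ≤ (m : ℝ) ^ B := by exact_mod_cast hnB
      calc (a : ℝ) ≤ (n : ℝ) ^ 2 := h2
        _ ≤ ((m : ℝ) ^ B) ^ 2 := pow_le_pow_left₀ hnR.le h3 2
        _ = (m : ℝ) ^ (2 * B) := by rw [← pow_mul, mul_comm]
    have h4 : Real.log a ≤ 2 * B * Real.log m := by
      calc Real.log a ≤ Real.log ((m : ℝ) ^ (2 * B)) := Real.log_le_log ha0 h1
        _ = 2 * B * Real.log m := by rw [Real.log_pow]; push_cast; ring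
    have h5 : Real.log m ≤ 16 * t := by
      have := Real.log_le_rpow_div hmR.le (show (0 : ℝ) < 1 / 16 by norm_num)
      rw [← ht] at this
      linarith
    have hB0 : (0 : ℝ) ≤ 2 * B := by positivity
    calc Real.log a ≤ 2 * B * Real.log m := h4
      _ ≤ 2 * B * (16 * t) := mul_le_mul_of_nonneg_left h5 hB0
      _ = 32 * (B : ℝ) * t := by ring
  have hlog0 : 0 ≤ Real.log a := Real.log_nonneg (by exact_mod_cast ha0')
  have hδ : κ ^ 3 * (1 / t ^ 24) + κ ^ 2 * (1 / (N : ℝ) ^ 6) ≤ 2 * κ ^ 3 / t ^ 24 := by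
    have h1 : κ ^ 2 * (1 / (N : ℝ) ^ 6) ≤ κ ^ 2 * (κ / t ^ 24) :=
      mul_le_mul_of_nonneg_left hκN (by positivity)
    have h2 : κ ^ 3 * (1 / t ^ 24) + κ ^ 2 * (κ / t ^ 24) = 2 * κ ^ 3 / t ^ 24 := by ring
    linarith
  have hn_le : (n : ℝ) ≤ (X.card : ℝ) :=
    le_trans (arith2 t κ n m a F (Real.log a) B ht0 ht16 hκ0 htB hnR ha0 ha1
      (by exact_mod_cast hF1) hFy hFy2 hlog0 hlog _ hδ) hXc
  have hn_le' : n ≤ X.card := by exact_mod_cast hn_le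
  obtain ⟨Y, hYX, hYc⟩ := Finset.exists_subset_card_eq hn_le'
  set φ : Fin a → ℝ × ℝ := fun α => (((α : ℕ) : ℝ) / a, ((p α : ℕ) : ℝ) / M) with hφ
  have hφinj : Function.Injective φ := by
    intro α β hαβ
    have h1 := congrArg Prod.fst hαβ
    simp only [hφ] at h1
    rw [div_left_inj' ha0.ne'] at h1
    exact Fin.ext (by exact_mod_cast h1)
  refine ⟨Y.image φ, ?_, ?_, ?_⟩
  · rw [Finset.card_image_of_injective _ hφinj, hYc]
  · intro z hz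
    obtain ⟨α, hα, rfl⟩ := Finset.mem_image.1 hz
    have h1 : ((α : ℕ) : ℝ) ≤ a := by exact_mod_cast α.2.le
    have h2 : ((p α : ℕ) : ℝ) ≤ M := by exact_mod_cast (hp α (hYX hα)).le
    refine ⟨?_, ?_, ?_, ?_⟩
    · simp only [hφ]; positivity
    · simp only [hφ]; exact (div_le_one ha0).2 h1
    · simp only [hφ]; positivity
    · simp only [hφ]; exact (div_le_one hM0).2 h2
  · intro z1 hz1 z2 hz2 z3 hz3 h12 h13 h23
    obtain ⟨α, hα, rfl⟩ := Finset.mem_image.1 hz1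
    obtain ⟨β, hβ, rfl⟩ := Finset.mem_image.1 hz2
    obtain ⟨γ, hγ, rfl⟩ := Finset.mem_image.1 hz3
    have key := hX α (hYX hα) β (hYX hβ) γ (hYX hγ) (fun h => h12 (by rw [h]))
      (fun h => h13 (by rw [h])) (fun h => h23 (by rw [h]))
    set x : ℤ := (((β : ℕ) : ℤ) - (α : ℕ)) * ((p γ : ℤ) - p α)
          - (((γ : ℕ) : ℤ) - (α : ℕ)) * ((p β : ℤ) - p α) with hx
    have keyR : (M : ℝ) ≤ 2 * ((m : ℝ) * |(x : ℝ)|) := by
      have h1 : |(m : ℤ) * x| = (m : ℤ) * |x| := by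
        rw [abs_mul, abs_of_nonneg (Nat.cast_nonneg _)]
      rw [h1] at key
      exact_mod_cast key
    rw [ht2]
    have h2 := area_arith t n m a M x ht0 ht16 ht2' hnR ha0 hM0 ha2 keyR
    refine le_trans h2 (le_of_eq ?_)
    congr 2
    simp only [hφ, hx]
    push_cast
    field_simp

end Crest.Agent.HB
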