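import Crest.Agent.HB.NFDefs

/-! Row 32 (S0042), chunk T5: adjoining a square root satisfying the local conditions. -/
set_option autoImplicit false

open NumberField IsDedekindDomain
open scoped nonZeroDivisors Pointwise

namespace Crest.Agent.HB

section aux

variable (L M : Type) [Field L] [NumberField L] [Field M] [NumberField M] [Algebra L M]

/-- the nontrivial automorphism changes the sign of the square root -/
theorem quad_sigma (h2 : Module.finrank L M = 2) (x : L) (s : M) (hs : s ^ 2 = algebraMap L M x)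
    (hx : ¬ IsSquare x) (σ : M ≃ₐ[L] M) (hσ : σ ≠ 1) : σ s = -s := by
  have h1 : (σ s) ^ 2 = s ^ 2 := by rw [← map_pow, hs, AlgEquiv.commutes]
  rcases sq_eq_sq_iff_eq_or_eq_neg.1 h1 with h | h
  · exfalso
    apply hσ
    -- `1, s` is a basis
    have hli : LinearIndependent L ![(1 : M), s] := by
      rw [LinearIndependent.pair_iff]
      intro a b hab
      have hb : b = 0 := by
        by_contra hb
        apply hx
        refine ⟨-(a / b), ?_⟩
        have hsval : s = algebraMap L M (-(a / b)) := by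
          have hb' : algebraMap L M b ≠ 0 := by
            rw [Ne, map_eq_zero]; exact hb
          rw [map_neg, map_div₀, eq_comm, ← neg_div, div_eq_iff hb']
          rw [Algebra.smul_def, Algebra.smul_def, mul_one] at hab
          linear_combination -hab
        have := hs
        rw [hsval, ← map_pow] at this
        have := (algebraMap L M).injective this
        rw [← this]; ring
      subst hb
      rw [zero_smul, add_zero, Algebra.smul_def, mul_one, map_eq_zero] at hab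
      exact ⟨hab, rfl⟩
    have hspan : Submodule.span L (Set.range ![(1 : M), s]) = ⊤ :=
      hli.span_eq_top_of_card_eq_finrank (by simp [h2])
    apply AlgEquiv.ext
    intro m
    have hm : m ∈ Submodule.span L (Set.range ![(1 : M), s]) := by rw [hspan]; trivial
    rw [Matrix.range_cons, Matrix.range_cons, Matrix.range_empty, Set.union_empty,
      Set.singleton_union, Submodule.mem_span_pair] at hm
    obtain ⟨a, b, rfl⟩ := hm
    have e : σ (a • (1 : M) + b • s) = a • (1 : M) + b • s := by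
      rw [Algebra.smul_def, Algebra.smul_def, map_add, map_mul, map_mul, AlgEquiv.commutes,
        AlgEquiv.commutes, map_one, h]
    exact e
  · exact h

/-- If some element is moved modulo `P'` by the nontrivial automorphism then `P'` is unramified. -/
theorem quad_unram (h2 : Module.finrank L M = 2) (P' : Ideal (𝓞 M)) [hP' : P'.IsPrime]
    (hP0 : P' ≠ ⊥) (H : ∀ σ : M ≃ₐ[L] M, σ ≠ 1 → ∃ b : 𝓞 M, σ • b - b ∉ P') :
    P'.ramificationIdx (𝓞 L) = 1 := by
  have : Algebra.IsQuadraticExtension L M := ⟨h2⟩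
  have hgal : IsGalois L M := inferInstance
  set P := P'.under (𝓞 L) with hP
  have hPp : P.IsPrime := hP'.under _
  have hPb : P ≠ ⊥ := fun h => hP0 (Ideal.eq_bot_of_comap_eq_bot h)
  have : P.IsMaximal := Ideal.IsPrime.isMaximal ‹_› hPb
  have : Finite (𝓞 L ⧸ P) := Ideal.finiteQuotientOfFreeOfNeBot P hPb
  have : Finite P.ResidueField := inferInstance
  have hover : P'.LiesOver P := ⟨rfl⟩
  have hcard := Ideal.card_inertia_eq_ramificationIdxIn (G := M ≃ₐ[L] M) P P'
  rw [Ideal.ramificationIdxIn_eq_ramificationIdx P P' (M ≃ₐ[L] M)] at hcard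
  rw [← hcard]
  have hbot : P'.inertia (M ≃ₐ[L] M) = ⊥ := by
    rw [eq_bot_iff]
    intro σ hσ
    rw [Subgroup.mem_bot]
    by_contra hne
    obtain ⟨b, hb⟩ := H σ hne
    exact hb (hσ b)
  rw [hbot]
  simp

/-- If moreover the decomposition group is trivial then the norms agree. -/
theorem quad_norm (h2 : Module.finrank L M = 2) (P' : Ideal (𝓞 M)) [hP' : P'.IsPrime]
    (hP0 : P' ≠ ⊥) (H : ∀ σ : M ≃ₐ[L] M, σ ≠ 1 → σ • P' ≠ P') :
    Ideal.absNorm P' = Ideal.absNorm (P'.under (𝓞 L)) := by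
  have : Algebra.IsQuadraticExtension L M := ⟨h2⟩
  have hgal : IsGalois L M := inferInstance
  set P := P'.under (𝓞 L) with hP
  have hPp : P.IsPrime := hP'.under _
  have hPb : P ≠ ⊥ := fun h => hP0 (Ideal.eq_bot_of_comap_eq_bot h)
  have : P.IsMaximal := Ideal.IsPrime.isMaximal ‹_› hPb
  have : Finite (𝓞 L ⧸ P) := Ideal.finiteQuotientOfFreeOfNeBot P hPb
  have : Finite P.ResidueField := inferInstance
  have hover : P'.LiesOver P := ⟨rfl⟩
  have hst := Ideal.card_stabilizer_eq_card_inertia_mul_finrank (G := M ≃ₐ[L] M) P P'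
  have hbot : MulAction.stabilizer (M ≃ₐ[L] M) P' = ⊥ := by
    rw [eq_bot_iff]
    intro σ hσ
    rw [Subgroup.mem_bot]
    by_contra hne
    exact H σ hne hσ
  rw [hbot] at hst
  have hd : P'.inertiaDeg (𝓞 L) = 1 := by
    have h1 : Nat.card (⊥ : Subgroup (M ≃ₐ[L] M)) = 1 := by simp
    rw [h1] at hst
    exact Nat.eq_one_of_mul_eq_one_left hst.symm
  have := Ideal.absNorm_pow_inertiaDeg P P'
  rw [hd, pow_one] at this
  exact this.symm

end aux

/-- If `2 ∈ P` is unramified then `(2) = P·J`, with some `c ∈ J ∖ P`. -/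
theorem odd_two_factor (L : Type) [Field L] [NumberField L] (P : Ideal (𝓞 L)) (hP : P.IsPrime)
    (hP0 : P ≠ ⊥) (h2 : (2 : 𝓞 L) ∈ P) (hr : P.ramificationIdx ℤ = 1) :
    ∃ J : Ideal (𝓞 L), Ideal.span {(2 : 𝓞 L)} = P * J ∧ ¬ J ≤ P := by
  have hunder : P.under ℤ = Ideal.span {(2 : ℤ)} := by
    have hmax : (Ideal.span {(2 : ℤ)}).IsMaximal :=
      PrincipalIdealRing.isMaximal_of_irreducible Int.prime_two.irreducible
    have hp : (P.under ℤ).IsPrime := hP.under _
    refine (hmax.eq_of_le hp.ne_top ?_).symm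
    rw [Ideal.span_singleton_le_iff_mem]
    change algebraMap ℤ (𝓞 L) 2 ∈ P
    simpa using h2
  have hover : P.LiesOver (Ideal.span {(2 : ℤ)}) := ⟨hunder.symm⟩
  have hmap : (Ideal.span {(2 : ℤ)}).map (algebraMap ℤ (𝓞 L)) = Ideal.span {(2 : 𝓞 L)} := by
    rw [Ideal.map_span, Set.image_singleton]; simp
  have hne : (Ideal.span {(2 : ℤ)}).map (algebraMap ℤ (𝓞 L)) ≠ ⊥ := by
    rw [hmap, Ne, Ideal.span_singleton_eq_bot]
    exact two_ne_zero
  have hmul := Ideal.IsDedekindDomain.ramificationIdx_eq_multiplicity (Ideal.span {(2 : ℤ)}) P hne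
  rw [hr, hmap] at hmul
  have hdvd : P ∣ Ideal.span {(2 : 𝓞 L)} := by
    rw [Ideal.dvd_iff_le, Ideal.span_singleton_le_iff_mem]; exact h2
  obtain ⟨J, hJ⟩ := hdvd
  refine ⟨J, hJ, ?_⟩
  intro hle
  obtain ⟨J', hJ'⟩ := Ideal.dvd_iff_le.2 hle
  have hfin : FiniteMultiplicity P (Ideal.span {(2 : 𝓞 L)}) := by
    apply FiniteMultiplicity.of_prime_left (Ideal.prime_of_isPrime hP0 hP)
    rw [← hmap]; exact hne
  have h22 : P ^ 2 ∣ Ideal.span {(2 : 𝓞 L)} := by
    rw [hJ, hJ', pow_two, ← mul_assoc]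
    exact Dvd.intro _ rfl
  have := hfin.le_multiplicity_of_pow_dvd h22
  omega

/-- Local statement. `M = L(s)`, `s² = x`, quadratic; `P'` a nonzero prime of `M`, `P = P' ∩ L`.
If `x t² = y` with `y ∉ P`, and if `2 ∈ P` then `2` is unramified at `P` and `y ≡ z² mod P²`, and if
`5 ∈ P` then `y ≡ z² mod P`, then `P'` is unramified over `L` (and of the same norm as `P` when
`5 ∈ P`).

Proof. Let `σ` be the nontrivial automorphism; `θ = s t`, `θ² = y`, `σ θ = -θ`, `θ ∈ 𝓞_M`, `θ ∉ P'`.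
If `2 ∉ P`: `σθ - θ = -2θ ∉ P'`, so `σ` is not in the inertia group of `P'`, so
`e(P'|P) = #inertia = 1` (`Ideal.card_inertia_eq_ramificationIdxIn`). If `2 ∈ P`: `P` divides `2`
exactly once, so `y - z² ∈ P²` means `(y - z²)/4` is `P`-integral; choose `c ∈ 𝓞_L ∖ P` with
`c²(y - z²) ∈ 4 𝓞_L`; then `η = c(z + θ)/2` is integral
(`η² - c z η + c²(z² - y)/4 = 0`) and `ση - η = -cθ ∉ P'`; again the inertia group is trivial.
If `5 ∈ P`: `(θ - z)(θ + z) = y - z² ∈ P ⊆ P'`, so `θ ≡ ±z mod P'` with `z ∉ P`; if `σP' = P'`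
then also `-θ ≡ ±z`, so `2z ∈ P'`, a contradiction; hence `P` has two primes above it and
`f(P'|P) = 1`. -/
theorem quad_local (L M : Type) [Field L] [NumberField L] [Field M] [NumberField M] [Algebra L M]
    (h2 : Module.finrank L M = 2) (x : L) (s : M) (hs : s ^ 2 = algebraMap L M x)
    (hx : ¬ IsSquare x) (P' : Ideal (𝓞 M)) (hP' : P'.IsPrime) (hP0 : P' ≠ ⊥)
    (hodd : (2 : 𝓞 L) ∈ P'.under (𝓞 L) → (P'.under (𝓞 L)).ramificationIdx ℤ = 1)
    (hloc : ∃ (t : L) (y z : 𝓞 L), t ≠ 0 ∧ y ∉ P'.under (𝓞 L) ∧ x * t ^ 2 = (y : L) ∧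
      ((2 : 𝓞 L) ∈ P'.under (𝓞 L) → y - z ^ 2 ∈ (P'.under (𝓞 L)) ^ 2) ∧
      ((5 : 𝓞 L) ∈ P'.under (𝓞 L) → y - z ^ 2 ∈ P'.under (𝓞 L))) :
    P'.ramificationIdx (𝓞 L) = 1 ∧
      ((5 : 𝓞 L) ∈ P'.under (𝓞 L) → Ideal.absNorm P' = Ideal.absNorm (P'.under (𝓞 L))) := by
  obtain ⟨t, y, z, ht, hy, hxy, hl2, hl5⟩ := hloc
  set P := P'.under (𝓞 L) with hPdef
  have hPp : P.IsPrime := hP'.under _
  have hPb : P ≠ ⊥ := fun h => hP0 (Ideal.eq_bot_of_comap_eq_bot h)
  have hmemP : ∀ a : 𝓞 L, a ∈ P ↔ algebraMap (𝓞 L) (𝓞 M) a ∈ P' := fun a => Iff.rfl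
  -- `θ`
  have hθ2 : (s * algebraMap L M t) ^ 2 = algebraMap L M (y : L) := by
    rw [mul_pow, hs, ← hxy, map_mul, map_pow]
  have hθint : IsIntegral ℤ (s * algebraMap L M t) := by
    apply IsIntegral.of_pow (n := 2) (by norm_num)
    rw [hθ2]
    exact (y.isIntegral_coe).map (algebraMap L M).toIntAlgHom
  set θ : 𝓞 M := ⟨s * algebraMap L M t, hθint⟩ with hθ
  have hθy : θ ^ 2 = algebraMap (𝓞 L) (𝓞 M) y := by
    apply RingOfIntegers.ext
    exact hθ2
  have hθP : θ ∉ P' := by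
    intro h
    apply hy
    rw [hmemP, ← hθy]
    exact Ideal.pow_mem_of_mem P' h 2 (by norm_num)
  have hσθ : ∀ σ : M ≃ₐ[L] M, σ ≠ 1 → σ • θ = -θ := by
    intro σ hσ
    apply RingOfIntegers.ext
    change σ (s * algebraMap L M t) = -(s * algebraMap L M t)
    rw [map_mul, quad_sigma L M h2 x s hs hx σ hσ, AlgEquiv.commutes, neg_mul]
  have hσa : ∀ (σ : M ≃ₐ[L] M) (a : 𝓞 L),
      σ • (algebraMap (𝓞 L) (𝓞 M) a) = algebraMap (𝓞 L) (𝓞 M) a := by
    intro σ a
    apply RingOfIntegers.ext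
    change σ (algebraMap L M (a : L)) = algebraMap L M (a : L)
    rw [AlgEquiv.commutes]
  constructor
  · apply quad_unram L M h2 P' hP0
    intro σ hσ
    by_cases h2P : (2 : 𝓞 L) ∈ P
    · -- 2 ∈ P
      obtain ⟨J, hJ, hJP⟩ := odd_two_factor L P hPp hPb h2P (hodd h2P)
      obtain ⟨c, hcJ, hcP⟩ := Set.not_subset.1 hJP
      have h4 : c ^ 2 * (y - z ^ 2) ∈ Ideal.span {(4 : 𝓞 L)} := by
        have e4 : Ideal.span {(4 : 𝓞 L)} = P ^ 2 * J ^ 2 := by
          rw [← mul_pow, ← hJ, Ideal.span_singleton_pow]; norm_num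
        rw [e4, mul_comm (P ^ 2)]
        exact Ideal.mul_mem_mul (Ideal.pow_mem_pow hcJ 2) (hl2 h2P)
      rw [Ideal.mem_span_singleton] at h4
      obtain ⟨w, hw⟩ := h4
      -- `η`
      have hη : IsIntegral ℤ (algebraMap L M (c : L) *
          (algebraMap L M (z : L) + s * algebraMap L M t) / 2) := by
        set η := algebraMap L M (c : L) * (algebraMap L M (z : L) + s * algebraMap L M t) / 2
          with hηdef
        have hw' : (algebraMap L M (c : L)) ^ 2 * (algebraMap L M (y : L)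
            - (algebraMap L M (z : L)) ^ 2) = 4 * algebraMap L M (w : L) := by
          have := congrArg (fun a : 𝓞 L => algebraMap (𝓞 L) M a) hw
          simp only [map_mul, map_sub, map_pow, map_ofNat] at this
          rw [IsScalarTower.algebraMap_apply (𝓞 L) L M, IsScalarTower.algebraMap_apply (𝓞 L) L M,
            IsScalarTower.algebraMap_apply (𝓞 L) L M, IsScalarTower.algebraMap_apply (𝓞 L) L M]
            at this
          exact this
        have heq : η ^ 2 - algebraMap L M (c : L) * algebraMap L M (z : L) * η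
            = algebraMap L M (w : L) := by
          rw [hηdef]
          linear_combination (algebraMap L M (c : L)) ^ 2 / 4 * hθ2 + (1 / 4 : M) * hw'
        have hint : IsIntegral (𝓞 L) η := by
          refine ⟨Polynomial.X ^ 2 - Polynomial.C (c * z) * Polynomial.X - Polynomial.C w, ?_, ?_⟩
          · monicity!
          · simp only [Polynomial.eval₂_sub, Polynomial.eval₂_pow, Polynomial.eval₂_X,
              Polynomial.eval₂_mul, Polynomial.eval₂_C]
            have e1 : algebraMap (𝓞 L) M (c * z)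
                = algebraMap L M (c : L) * algebraMap L M (z : L) := by
              rw [IsScalarTower.algebraMap_apply (𝓞 L) L M, map_mul, map_mul]
            have e2 : algebraMap (𝓞 L) M w = algebraMap L M (w : L) := by
              rw [IsScalarTower.algebraMap_apply (𝓞 L) L M]
            rw [e1, e2]
            linear_combination heq
        exact isIntegral_trans (R := ℤ) (A := 𝓞 L) η hint
      obtain ⟨η, hηv⟩ : ∃ η : 𝓞 M, (η : M) = algebraMap L M (c : L) *
          (algebraMap L M (z : L) + s * algebraMap L M t) / 2 := ⟨⟨_, hη⟩, rfl⟩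
      refine ⟨η, ?_⟩
      have hdiff : σ • η - η = -(algebraMap (𝓞 L) (𝓞 M) c * θ) := by
        apply RingOfIntegers.ext
        change σ (η : M) - (η : M) = -(algebraMap L M (c : L) * (s * algebraMap L M t))
        rw [hηv, map_div₀, map_mul, map_add, map_mul, quad_sigma L M h2 x s hs hx σ hσ,
          AlgEquiv.commutes, AlgEquiv.commutes, AlgEquiv.commutes, map_ofNat]
        ring
      rw [hdiff, neg_mem_iff]
      intro hmem
      rcases hP'.mem_or_mem hmem with h | h
      · exact hcP ((hmemP c).2 h)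
      · exact hθP h
    · refine ⟨θ, ?_⟩
      rw [hσθ σ hσ]
      have e : -θ - θ = -(2 * θ) := by ring
      rw [e, neg_mem_iff]
      intro hmem
      rcases hP'.mem_or_mem hmem with h | h
      · apply h2P
        rw [hmemP, map_ofNat]
        exact h
      · exact hθP h
  · intro h5
    apply quad_norm L M h2 P' hP0
    intro σ hσ hstab
    have h5' : (5 : 𝓞 M) ∈ P' := by
      have := (hmemP 5).1 h5
      rwa [map_ofNat] at this
    have h2' : (2 : 𝓞 M) ∉ P' := by
      intro h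
      apply hP'.ne_top
      rw [Ideal.eq_top_iff_one]
      have : (1 : 𝓞 M) = 5 - 2 * 2 := by norm_num
      rw [this]
      exact P'.sub_mem h5' (P'.mul_mem_left 2 h)
    have hyz : (θ - algebraMap (𝓞 L) (𝓞 M) z) * (θ + algebraMap (𝓞 L) (𝓞 M) z) ∈ P' := by
      have e : (θ - algebraMap (𝓞 L) (𝓞 M) z) * (θ + algebraMap (𝓞 L) (𝓞 M) z)
          = algebraMap (𝓞 L) (𝓞 M) (y - z ^ 2) := by
        rw [map_sub, map_pow, ← hθy]; ring
      rw [e]
      exact (hmemP _).1 (hl5 h5)
    have hzP : algebraMap (𝓞 L) (𝓞 M) z ∉ P' := by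
      intro h
      apply hy
      have hz : z ∈ P := (hmemP z).2 h
      have e : y = (y - z ^ 2) + z * z := by ring
      rw [e]
      exact P.add_mem (hl5 h5) (P.mul_mem_left z hz)
    have hsm : ∀ b : 𝓞 M, b ∈ P' → σ • b ∈ P' := by
      intro b hb
      rw [← hstab]
      exact Ideal.smul_mem_pointwise_smul σ b P' hb
    have h2z : (2 : 𝓞 M) * algebraMap (𝓞 L) (𝓞 M) z ∉ P' := by
      intro h
      rcases hP'.mem_or_mem h with h | h
      · exact h2' h
      · exact hzP h
    rcases hP'.mem_or_mem hyz with h | h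
    · have h' := hsm _ h
      rw [smul_sub, hσθ σ hσ, hσa] at h'
      apply h2z
      have e : (2 : 𝓞 M) * algebraMap (𝓞 L) (𝓞 M) z
          = -((θ - algebraMap (𝓞 L) (𝓞 M) z) + (-θ - algebraMap (𝓞 L) (𝓞 M) z)) := by ring
      rw [e, neg_mem_iff]
      exact P'.add_mem h h'
    · have h' := hsm _ h
      rw [smul_add, hσθ σ hσ, hσa] at h'
      apply h2z
      have e : (2 : 𝓞 M) * algebraMap (𝓞 L) (𝓞 M) z
          = ((θ + algebraMap (𝓞 L) (𝓞 M) z) + (-θ + algebraMap (𝓞 L) (𝓞 M) z)) := by ring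
      rw [e]
      exact P'.add_mem h h'

/-- Global version. -/
theorem quad_step (L M : Type) [Field L] [NumberField L] [Field M] [NumberField M] [Algebra L M]
    (h2 : Module.finrank L M = 2) (x : L) (s : M) (hs : s ^ 2 = algebraMap L M x)
    (hx : ¬ IsSquare x) (hodd : Odd2 L) (hloc : LocSq x) :
    Unram L M ∧ Odd2 M ∧ (Split5 L → Split5 M) := by
  have key : ∀ P' : Ideal (𝓞 M), P'.IsPrime → P' ≠ ⊥ → P'.ramificationIdx (𝓞 L) = 1 ∧
      ((5 : 𝓞 L) ∈ P'.under (𝓞 L) → Ideal.absNorm P' = Ideal.absNorm (P'.under (𝓞 L))) := by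
    intro P' hP' hP0
    have hPp : (P'.under (𝓞 L)).IsPrime := hP'.under _
    have hPb : P'.under (𝓞 L) ≠ ⊥ := fun h => hP0 (Ideal.eq_bot_of_comap_eq_bot h)
    exact quad_local L M h2 x s hs hx P' hP' hP0 (fun h => hodd _ hPp h) (hloc _ hPp hPb)
  have hne : ∀ (n : ℕ) [n.AtLeastTwo] (P' : Ideal (𝓞 M)), (OfNat.ofNat n : 𝓞 M) ∈ P' → P' ≠ ⊥ := by
    intro n _ P' h hb
    rw [hb, Ideal.mem_bot] at h
    exact (OfNat.ofNat_ne_zero n) h
  have hunram : Unram L M := fun P' hP' hP0 => (key P' hP' hP0).1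
  have htower : ∀ P' : Ideal (𝓞 M), P'.IsPrime → P' ≠ ⊥ →
      P'.ramificationIdx ℤ = (P'.under (𝓞 L)).ramificationIdx ℤ := by
    intro P' hP' hP0
    have hover : P'.LiesOver (P'.under (𝓞 L)) := ⟨rfl⟩
    rw [Ideal.ramificationIdx_tower (R := ℤ) (P'.under (𝓞 L)) P', (key P' hP' hP0).1, mul_one]
  refine ⟨hunram, ?_, ?_⟩
  · intro P' hP' h2P
    have hP0 := hne 2 P' h2P
    rw [htower P' hP' hP0]
    apply hodd _ (hP'.under _)
    change algebraMap (𝓞 L) (𝓞 M) 2 ∈ P'
    rw [map_ofNat]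
    exact h2P
  · intro h5 P' hP' h5P
    have hP0 := hne 5 P' h5P
    have h5u : (5 : 𝓞 L) ∈ P'.under (𝓞 L) := by
      change algebraMap (𝓞 L) (𝓞 M) 5 ∈ P'
      rw [map_ofNat]
      exact h5P
    obtain ⟨h6, h7⟩ := h5 _ (hP'.under _) h5u
    exact ⟨by rw [(key P' hP' hP0).2 h5u, h6], by rw [htower P' hP' hP0, h7]⟩

end Crest.Agent.HB
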