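import Crest.Agent.HB.RelCount

/-! Row 32 (S0042), chunk T7b. -/
set_option autoImplicit false

open NumberField IsDedekindDomain
open scoped nonZeroDivisors

namespace Crest.Agent.HB

open FractionalIdeal

/-- The two primes above `5` of an admissible base field. -/
theorem two_primes (K : Type) [Field K] [NumberField K] (hK : BaseField K) :
    ∃ v w : HeightOneSpectrum (𝓞 K), v ≠ w ∧ (5 : 𝓞 K) ∈ v.asIdeal ∧ (5 : 𝓞 K) ∈ w.asIdeal ∧
      ∀ u : HeightOneSpectrum (𝓞 K), (5 : 𝓞 K) ∈ u.asIdeal → u = v ∨ u = w := by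
  classical
  set p : Ideal ℤ := Ideal.span {(5 : ℤ)} with hp
  have h5 : Prime (5 : ℤ) := by norm_num
  have hp0 : p ≠ ⊥ := by rw [hp, Ne, Ideal.span_singleton_eq_bot]; norm_num
  have hpp : p.IsPrime := (Ideal.span_singleton_prime (by norm_num)).2 h5
  have hpm : p.IsMaximal := hpp.isMaximal hp0
  have hfin : (p.primesOver (𝓞 K)).Finite := IsDedekindDomain.primesOver_finite p (𝓞 K)
  have : Fintype (p.primesOver (𝓞 K)) := hfin.fintype
  have hsum := Ideal.sum_ramification_inertia_eq_finrank p (𝓞 K)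
  have hover : ∀ q : Ideal (𝓞 K), q.LiesOver p → (5 : 𝓞 K) ∈ q := by
    intro q hq
    have h : (5 : ℤ) ∈ q.under ℤ := by
      rw [← hq.over]
      exact Ideal.subset_span rfl
    have : algebraMap ℤ (𝓞 K) 5 ∈ q := h
    simpa using this
  have hover' : ∀ q : Ideal (𝓞 K), q.IsPrime → (5 : 𝓞 K) ∈ q → q.LiesOver p := by
    intro q hq hmem
    constructor
    have h : p ≤ q.under ℤ := by
      rw [hp, Ideal.span_singleton_le_iff_mem]
      show algebraMap ℤ (𝓞 K) 5 ∈ q
      simpa using hmem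
    exact hpm.eq_of_le (Ideal.IsPrime.under ℤ q).ne_top h
  have hnorm5 : p.absNorm = 5 := by
    rw [hp, Ideal.absNorm_span_singleton]
    simp
  have hterm : ∀ q : p.primesOver (𝓞 K), q.1.ramificationIdx ℤ * q.1.inertiaDeg ℤ = 1 := by
    rintro ⟨q, hq1, hq2⟩
    have hm := hover q hq2
    obtain ⟨hn, he⟩ := hK.split5 q hq1 hm
    have hf := Ideal.absNorm_pow_inertiaDeg p q
    rw [hn, hnorm5] at hf
    have : q.inertiaDeg ℤ = 1 :=
      Nat.pow_right_injective (by norm_num : 2 ≤ 5) (show 5 ^ q.inertiaDeg ℤ = 5 ^ 1 by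
        rw [hf, pow_one])
    show q.ramificationIdx ℤ * q.inertiaDeg ℤ = 1
    rw [he, this]
  simp only [hterm, Finset.sum_const, Finset.card_univ, smul_eq_mul, mul_one] at hsum
  have hrank : Module.finrank ℤ (𝓞 K) = 2 := by rw [RingOfIntegers.rank, hK.deg]
  rw [hrank] at hsum
  obtain ⟨a, b, hab, huniv⟩ := Finset.card_eq_two.1 (by rw [Finset.card_univ, hsum] :
    (Finset.univ : Finset (p.primesOver (𝓞 K))).card = 2)
  have hne : ∀ q : p.primesOver (𝓞 K), q.1 ≠ ⊥ := by
    rintro ⟨q, hq1, hq2⟩ h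
    have := hover q hq2
    simp only at h
    rw [h] at this
    simp at this
  refine ⟨⟨a.1, a.2.1, hne a⟩, ⟨b.1, b.2.1, hne b⟩, ?_, hover a.1 a.2.2, hover b.1 b.2.2, ?_⟩
  · intro h
    apply hab
    apply Subtype.ext
    exact congrArg HeightOneSpectrum.asIdeal h
  · intro u hu
    have hmem : (⟨u.asIdeal, u.isPrime, hover' _ u.isPrime hu⟩ : p.primesOver (𝓞 K)) ∈
        (Finset.univ : Finset (p.primesOver (𝓞 K))) := Finset.mem_univ _
    rw [huniv] at hmem
    simp only [Finset.mem_insert, Finset.mem_singleton] at hmem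
    rcases hmem with h | h
    · left
      apply HeightOneSpectrum.ext
      exact congrArg Subtype.val h
    · right
      apply HeightOneSpectrum.ext
      exact congrArg Subtype.val h

/-- The unit group of an imaginary quadratic field is finite. -/
theorem units_finite (K : Type) [Field K] [NumberField K] (hK : BaseField K) : Finite (𝓞 K)ˣ := by
  classical
  have h1 : Fintype.card (InfinitePlace K) = 1 := by
    have h2 := InfinitePlace.card_add_two_mul_card_eq_rank K
    have h3 : InfinitePlace.nrRealPlaces K = 0 := by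
      rw [InfinitePlace.nrRealPlaces, Fintype.card_eq_zero_iff]
      constructor
      rintro ⟨v, hv⟩
      exact (InfinitePlace.not_isReal_iff_isComplex.2 (hK.cplx v)) hv
    rw [InfinitePlace.card_eq_nrRealPlaces_add_nrComplexPlaces, h3]
    rw [h3, hK.deg] at h2
    omega
  have hrank : Units.rank K = 0 := by
    rw [Units.rank, h1]
  have htop : Units.torsion K = ⊤ := by
    rw [eq_top_iff]
    intro x _
    obtain ⟨⟨ζ, e⟩, h, _⟩ := Units.exist_unique_eq_mul_prod K x
    have : IsEmpty (Fin (Units.rank K)) := by rw [hrank]; infer_instance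
    simp only [Finset.univ_eq_empty, Finset.prod_empty, mul_one] at h
    rw [h]
    exact ζ.2
  have : Finite (Units.torsion K) := inferInstance
  rw [htop] at this
  exact Finite.of_equiv _ Subgroup.topEquiv.toEquiv

/-- `[V_K : Kˣ²] = 8·[Cl : WW]` for an imaginary quadratic field in which `5` splits
(`V_K = {x : v_𝔮(x) even for all 𝔮 ∤ 5}`). Only `≥` is needed. -/
theorem VK_card (K : Type) [Field K] [NumberField K] (hK : BaseField K) :
    8 * (WW K).index ≤ (SqG K).relIndex (VV K) := by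
  classical
  obtain ⟨v, w, hvw, hv5, hw5, huniq⟩ := two_primes K hK
  have hUfin := units_finite K hK
  -- the group of fractional ideals
  let I := (FractionalIdeal (𝓞 K)⁰ K)ˣ
  let φ : Kˣ →* I := toPrincipalIdeal (𝓞 K) K
  let mk : I →* ClassGroup (𝓞 K) := ClassGroup.mk K
  let sqh : I →* I := powMonoidHom 2
  have hcount_mul : ∀ (u : HeightOneSpectrum (𝓞 K)) (a b : I),
      count K u ((a * b : I) : FractionalIdeal (𝓞 K)⁰ K) =
        count K u (a : FractionalIdeal (𝓞 K)⁰ K) + count K u (b : FractionalIdeal (𝓞 K)⁰ K) := by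
    intro u a b
    rw [Units.val_mul, count_mul K u a.ne_zero b.ne_zero]
  have hcount_one : ∀ (u : HeightOneSpectrum (𝓞 K)),
      count K u ((1 : I) : FractionalIdeal (𝓞 K)⁰ K) = 0 := by
    intro u
    rw [Units.val_one, count_one]
  have hcount_inv : ∀ (u : HeightOneSpectrum (𝓞 K)) (a : I),
      count K u ((a⁻¹ : I) : FractionalIdeal (𝓞 K)⁰ K) =
        - count K u (a : FractionalIdeal (𝓞 K)⁰ K) := by
    intro u a
    have := hcount_mul u a a⁻¹
    rw [mul_inv_cancel, hcount_one] at this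
    linarith
  have hφcount : ∀ (u : HeightOneSpectrum (𝓞 K)) (x : Kˣ),
      count K u ((φ x : I) : FractionalIdeal (𝓞 K)⁰ K) =
        count K u (spanSingleton (𝓞 K)⁰ (x : K)) := by
    intro u x
    rw [coe_toPrincipalIdeal]
  -- the group `J` of ideals with even counts away from `5`
  let J : Subgroup I :=
    { carrier := {a | ∀ u : HeightOneSpectrum (𝓞 K), (5 : 𝓞 K) ∉ u.asIdeal →
        Even (count K u (a : FractionalIdeal (𝓞 K)⁰ K))}
      mul_mem' := by
        intro a b ha hb u hu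
        rw [hcount_mul]
        exact (ha u hu).add (hb u hu)
      one_mem' := by
        intro u _
        rw [hcount_one]
        exact Even.zero
      inv_mem' := by
        intro a ha u hu
        rw [hcount_inv]
        exact (ha u hu).neg }
  have hJmem : ∀ a : I, a ∈ J ↔ ∀ u : HeightOneSpectrum (𝓞 K), (5 : 𝓞 K) ∉ u.asIdeal →
        Even (count K u (a : FractionalIdeal (𝓞 K)⁰ K)) := fun a => Iff.rfl
  have hVJ : VV K = J.comap φ := by
    ext x
    rw [Subgroup.mem_comap, hJmem]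
    show (∀ u : HeightOneSpectrum (𝓞 K), (5 : 𝓞 K) ∉ u.asIdeal → EvenAt u (x : K)) ↔ _
    refine forall_congr' fun u => imp_congr_right fun _ => ?_
    rw [evenAt_iff u (x : K) x.ne_zero, hφcount]
  -- `P` principal ideals
  let P : Subgroup I := φ.range
  have hPker : mk.ker = P := by
    ext a
    rw [MonoidHom.mem_ker]
    constructor
    · intro h
      have h1 := ClassGroup.mk_eq_one_iff.1 h
      obtain ⟨x, hx⟩ := h1.principal
      refine mem_principal_ideals_iff.2 ⟨x, ?_⟩
      apply coeToSubmodule_injective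
      show ((spanSingleton (𝓞 K)⁰ x : FractionalIdeal (𝓞 K)⁰ K) : Submodule (𝓞 K) K) = _
      rw [coe_spanSingleton]
      exact hx.symm
    · rintro ⟨x, rfl⟩
      apply ClassGroup.mk_eq_one_iff.2
      refine ⟨⟨(x : K), ?_⟩⟩
      rw [← coe_spanSingleton (𝓞 K)⁰ (x : K)]
      exact congrArg _ (coe_toPrincipalIdeal x)
  have hmksurj : Function.Surjective mk := by
    intro c
    obtain ⟨a, ha⟩ := ClassGroup.mk0_surjective c
    exact ⟨FractionalIdeal.mk0 K a, by rw [← ha]; exact ClassGroup.mk_mk0 K a⟩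
  -- squaring is injective on `I`
  have hsq_inj : Function.Injective sqh := by
    intro a b hab
    apply Units.ext
    rw [← finprod_heightOneSpectrum_factorization' K (I := (a : FractionalIdeal (𝓞 K)⁰ K)) a.ne_zero,
      ← finprod_heightOneSpectrum_factorization' K (I := (b : FractionalIdeal (𝓞 K)⁰ K)) b.ne_zero]
    apply finprod_congr
    intro u
    have h1 : a * a = b * b := by
      have : a ^ 2 = b ^ 2 := hab
      rw [sq, sq] at this
      exact this
    have h2 := hcount_mul u a a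
    rw [h1, hcount_mul] at h2
    have h3 : count K u (a : FractionalIdeal (𝓞 K)⁰ K) =
        count K u (b : FractionalIdeal (𝓞 K)⁰ K) := by linarith
    rw [h3]
  -- parity at the two primes above `5`
  let χ : I →* Multiplicative (ZMod 2 × ZMod 2) :=
    { toFun := fun a => Multiplicative.ofAdd
        (((count K v (a : FractionalIdeal (𝓞 K)⁰ K) : ℤ) : ZMod 2),
          ((count K w (a : FractionalIdeal (𝓞 K)⁰ K) : ℤ) : ZMod 2))
      map_one' := by
        rw [hcount_one, hcount_one]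
        rfl
      map_mul' := by
        intro a b
        rw [hcount_mul, hcount_mul, ← ofAdd_add]
        congr 1
        ext <;> simp }
  have hχ : ∀ a : I, χ a = Multiplicative.ofAdd
        (((count K v (a : FractionalIdeal (𝓞 K)⁰ K) : ℤ) : ZMod 2),
          ((count K w (a : FractionalIdeal (𝓞 K)⁰ K) : ℤ) : ZMod 2)) := fun a => rfl
  let 𝔳 : I := FractionalIdeal.mk0 K ⟨v.asIdeal, mem_nonZeroDivisors_of_ne_zero v.ne_bot⟩
  let 𝔴 : I := FractionalIdeal.mk0 K ⟨w.asIdeal, mem_nonZeroDivisors_of_ne_zero w.ne_bot⟩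
  have c𝔳 : ∀ u : HeightOneSpectrum (𝓞 K), count K u (𝔳 : FractionalIdeal (𝓞 K)⁰ K) =
      if v = u then 1 else 0 := by
    intro u
    exact count_maximal K u v
  have c𝔴 : ∀ u : HeightOneSpectrum (𝓞 K), count K u (𝔴 : FractionalIdeal (𝓞 K)⁰ K) =
      if w = u then 1 else 0 := by
    intro u
    exact count_maximal K u w
  have h𝔳J : 𝔳 ∈ J := by
    intro u hu
    rw [c𝔳, if_neg]
    · exact Even.zero
    · rintro rfl; exact hu hv5
  have h𝔴J : 𝔴 ∈ J := by
    intro u hu
    rw [c𝔴, if_neg]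
    · exact Even.zero
    · rintro rfl; exact hu hw5
  have hmap : J.map χ = ⊤ := by
    rw [eq_top_iff]
    intro t _
    have e1 : Multiplicative.ofAdd ((1 : ZMod 2), (0 : ZMod 2)) ∈ J.map χ := by
      refine ⟨𝔳, h𝔳J, ?_⟩
      rw [hχ, c𝔳, c𝔳, if_pos rfl, if_neg hvw]
      simp
    have e2 : Multiplicative.ofAdd ((0 : ZMod 2), (1 : ZMod 2)) ∈ J.map χ := by
      refine ⟨𝔴, h𝔴J, ?_⟩
      rw [hχ, c𝔴, c𝔴, if_pos rfl, if_neg (Ne.symm hvw)]
      simp
    have e3 := Subgroup.mul_mem _ e1 e2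
    have e0 := Subgroup.one_mem (J.map χ)
    have z2 : ∀ u : ZMod 2, u = 0 ∨ u = 1 := by decide
    obtain ⟨t1, t2⟩ := t
    rcases z2 t1 with rfl | rfl <;> rcases z2 t2 with rfl | rfl
    · exact e0
    · exact e2
    · exact e1
    · exact e3
  have hker : χ.ker ⊓ J = sqh.range := by
    ext a
    constructor
    · rintro ⟨h1, h2⟩
      have h1' : χ a = 1 := h1
      rw [hχ] at h1'
      have h3 := congrArg Multiplicative.toAdd h1'
      simp only [toAdd_ofAdd, toAdd_one] at h3
      have h4 := (Prod.ext_iff.1 h3).1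
      have h5 := (Prod.ext_iff.1 h3).2
      simp only [Prod.fst_zero, Prod.snd_zero] at h4 h5
      obtain ⟨b, hb⟩ := exists_sq_of_even a (by
        intro u
        by_cases hu : (5 : 𝓞 K) ∈ u.asIdeal
        · rcases huniq u hu with rfl | rfl
          · exact (ZMod.intCast_eq_zero_iff_even).1 h4
          · exact (ZMod.intCast_eq_zero_iff_even).1 h5
        · exact h2 u hu)
      exact ⟨b, hb⟩
    · rintro ⟨b, rfl⟩
      have heven : ∀ u : HeightOneSpectrum (𝓞 K),
          Even (count K u ((sqh b : I) : FractionalIdeal (𝓞 K)⁰ K)) := by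
        intro u
        have : sqh b = b * b := by
          show b ^ 2 = b * b
          rw [sq]
        rw [this, hcount_mul]
        exact ⟨_, rfl⟩
      refine ⟨?_, fun u _ => heven u⟩
      show χ (sqh b) = 1
      rw [hχ, (ZMod.intCast_eq_zero_iff_even).2 (heven v),
        (ZMod.intCast_eq_zero_iff_even).2 (heven w)]
      rfl
  have hIJ : sqh.range.relIndex J = 4 := by
    rw [← hker, Subgroup.inf_relIndex_right, Subgroup.relIndex_ker, hmap, Subgroup.card_top]
    show Nat.card (ZMod 2 × ZMod 2) = 4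
    rw [Nat.card_prod, Nat.card_zmod]
  have hPI : (P.map sqh).relIndex sqh.range = Nat.card (ClassGroup (𝓞 K)) := by
    rw [MonoidHom.range_eq_map, Subgroup.relIndex_map_map_of_injective _ _ hsq_inj,
      Subgroup.relIndex_top_right, ← hPker, Subgroup.index_ker,
      MonoidHom.range_eq_top.2 hmksurj, Subgroup.card_top]
  have hsqrange_le : sqh.range ≤ J := by rw [← hker]; exact inf_le_right
  have hPsq_le : P.map sqh ≤ sqh.range := Subgroup.map_le_range _ _
  have hPsq_le_P : P.map sqh ≤ P := by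
    rintro _ ⟨a, ha, rfl⟩
    exact P.pow_mem ha 2
  have hD : (P.map sqh).relIndex (J ⊓ P) * (J ⊓ P).relIndex J =
      Nat.card (ClassGroup (𝓞 K)) * 4 := by
    rw [Subgroup.relIndex_mul_relIndex _ _ _ (le_inf (hPsq_le.trans hsqrange_le) hPsq_le_P)
      inf_le_left, ← Subgroup.relIndex_mul_relIndex _ _ _ hPsq_le hsqrange_le, hPI, hIJ]
  have hJP : (J ⊓ P).relIndex J = Nat.card (J.map mk) := by
    rw [Subgroup.inf_relIndex_left, ← hPker, Subgroup.relIndex_ker]
  have hJW : J.map mk ≤ WW K := by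
    rintro _ ⟨a, ha, rfl⟩
    set m := count K v (a : FractionalIdeal (𝓞 K)⁰ K) with hm
    set n := count K w (a : FractionalIdeal (𝓞 K)⁰ K) with hn
    have hcz : ∀ (u : HeightOneSpectrum (𝓞 K)) (b : I) (k : ℤ),
        count K u ((b ^ k : I) : FractionalIdeal (𝓞 K)⁰ K) =
          k * count K u (b : FractionalIdeal (𝓞 K)⁰ K) := by
      intro u b k
      rw [Units.val_zpow_eq_zpow_val, count_zpow]
    obtain ⟨b, hb⟩ := exists_sq_of_even (a * 𝔳 ^ (-m) * 𝔴 ^ (-n)) (by
      intro u
      rw [hcount_mul, hcount_mul, hcz, hcz, c𝔳, c𝔴]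
      by_cases hu : (5 : 𝓞 K) ∈ u.asIdeal
      · rcases huniq u hu with rfl | rfl
        · rw [if_pos rfl, if_neg (Ne.symm hvw), ← hm]
          simp
        · rw [if_pos rfl, if_neg hvw, ← hn]
          simp
      · rw [if_neg, if_neg]
        · simpa using ha u hu
        · rintro rfl; exact hu hw5
        · rintro rfl; exact hu hv5)
    have hab : a = b ^ 2 * 𝔳 ^ m * 𝔴 ^ n := by
      rw [hb]
      simp only [zpow_neg]
      have : a * (𝔳 ^ m)⁻¹ * (𝔴 ^ n)⁻¹ * 𝔳 ^ m * 𝔴 ^ n =
        a * ((𝔳 ^ m)⁻¹ * 𝔳 ^ m) * ((𝔴 ^ n)⁻¹ * 𝔴 ^ n) := by ac_rfl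
      rw [this]
      simp
    have : mk a = mk b ^ 2 * mk 𝔳 ^ m * mk 𝔴 ^ n := by
      rw [hab, map_mul, map_mul, map_pow, map_zpow, map_zpow]
    rw [this]
    have hle1 : (powMonoidHom 2 : ClassGroup (𝓞 K) →* ClassGroup (𝓞 K)).range ≤ WW K :=
      le_sup_left
    have hle2 : Subgroup.closure {c | ∃ 𝔮 : (Ideal (𝓞 K))⁰, (𝔮 : Ideal (𝓞 K)).IsPrime ∧
      (5 : 𝓞 K) ∈ (𝔮 : Ideal (𝓞 K)) ∧ c = ClassGroup.mk0 𝔮} ≤ WW K := le_sup_right
    have hmkv : mk 𝔳 ∈ WW K := by
      apply hle2
      apply Subgroup.subset_closure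
      exact ⟨⟨v.asIdeal, mem_nonZeroDivisors_of_ne_zero v.ne_bot⟩, v.isPrime, hv5,
        ClassGroup.mk_mk0 K _⟩
    have hmkw : mk 𝔴 ∈ WW K := by
      apply hle2
      apply Subgroup.subset_closure
      exact ⟨⟨w.asIdeal, mem_nonZeroDivisors_of_ne_zero w.ne_bot⟩, w.isPrime, hw5,
        ClassGroup.mk_mk0 K _⟩
    exact Subgroup.mul_mem _ (Subgroup.mul_mem _ (hle1 ⟨mk b, rfl⟩)
      (Subgroup.zpow_mem _ hmkv m)) (Subgroup.zpow_mem _ hmkw n)
  have hClfin : Finite (ClassGroup (𝓞 K)) := inferInstance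
  have hcard_le : Nat.card (J.map mk) ≤ Nat.card (WW K) := by
    exact Subgroup.card_le_of_le hJW
  have hWcard : Nat.card (WW K) * (WW K).index = Nat.card (ClassGroup (𝓞 K)) :=
    Subgroup.card_mul_index _
  have hWpos : 0 < Nat.card (WW K) := Nat.card_pos
  have hmain : 4 * (WW K).index ≤ (P.map sqh).relIndex (J ⊓ P) := by
    rw [hJP, ← hWcard] at hD
    have h1 : Nat.card (WW K) * (4 * (WW K).index) ≤
        Nat.card (WW K) * (P.map sqh).relIndex (J ⊓ P) := by
      calc Nat.card (WW K) * (4 * (WW K).index) = Nat.card (WW K) * (WW K).index * 4 := by ring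
        _ = (P.map sqh).relIndex (J ⊓ P) * Nat.card (J.map mk) := hD.symm
        _ ≤ (P.map sqh).relIndex (J ⊓ P) * Nat.card (WW K) := Nat.mul_le_mul_left _ hcard_le
        _ = _ := mul_comm _ _
    exact Nat.le_of_mul_le_mul_left h1 hWpos
  -- pass to `Kˣ`
  have hVker : φ.ker ≤ VV K := by
    rw [hVJ]
    intro x hx
    rw [Subgroup.mem_comap, (MonoidHom.mem_ker).1 hx]
    exact J.one_mem
  have hK2V : SqG K ≤ VV K := by
    rintro _ ⟨y, rfl⟩
    rw [hVJ, Subgroup.mem_comap]
    apply hsqrange_le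
    exact ⟨φ y, by show (φ y) ^ 2 = φ (y ^ 2); rw [map_pow]⟩
  have hmapK2 : (SqG K).map φ = P.map sqh := by
    ext a
    constructor
    · rintro ⟨_, ⟨y, rfl⟩, rfl⟩
      exact ⟨φ y, ⟨y, rfl⟩, by show (φ y) ^ 2 = φ (y ^ 2); rw [map_pow]⟩
    · rintro ⟨_, ⟨y, rfl⟩, rfl⟩
      exact ⟨y ^ 2, ⟨y, rfl⟩, by show φ (y ^ 2) = (φ y) ^ 2; rw [map_pow]⟩
  have hmapV : (VV K).map φ = J ⊓ P := by
    rw [hVJ, Subgroup.map_comap_eq, inf_comm]
  have hR1 : (P.map sqh).relIndex (J ⊓ P) = (SqG K ⊔ φ.ker).relIndex (VV K) := by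
    rw [← hmapK2, ← hmapV, Subgroup.relIndex_map_map, sup_eq_left.2 hVker]
  have hR2 : (SqG K).relIndex φ.ker * (SqG K ⊔ φ.ker).relIndex (VV K) =
      (SqG K).relIndex (VV K) := by
    rw [← Subgroup.relIndex_sup_left (K := SqG K) (H := φ.ker),
      Subgroup.relIndex_mul_relIndex _ _ _ le_sup_left (sup_le hK2V hVker)]
  -- the units
  have hint : ∀ x : Kˣ, x ∈ φ.ker → ∃ a : 𝓞 K, algebraMap (𝓞 K) K a = (x : K) := by
    intro x hx
    have h1 : φ x = 1 := hx
    have h2 : spanSingleton (𝓞 K)⁰ (x : K) = 1 := by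
      have := congrArg Units.val h1
      rwa [coe_toPrincipalIdeal, Units.val_one] at this
    have h3 : (x : K) ∈ (1 : FractionalIdeal (𝓞 K)⁰ K) := by
      rw [← h2]
      exact mem_spanSingleton_self _ _
    exact (mem_one_iff _).1 h3
  have hUle : φ.ker ≤ (Units.map (algebraMap (𝓞 K) K : 𝓞 K →* K)).range := by
    intro x hx
    obtain ⟨a, ha⟩ := hint x hx
    obtain ⟨b, hb⟩ := hint x⁻¹ (φ.ker.inv_mem hx)
    have hab : a * b = 1 := by
      apply FaithfulSMul.algebraMap_injective (𝓞 K) K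
      rw [map_mul, ha, hb, map_one]
      exact Units.mul_inv x
    refine ⟨⟨a, b, hab, by rw [mul_comm]; exact hab⟩, ?_⟩
    apply Units.ext
    exact ha
  have hUfin' : Finite φ.ker := by
    have hr : Finite ((Units.map (algebraMap (𝓞 K) K : 𝓞 K →* K)).range) :=
      Set.finite_range (Units.map (algebraMap (𝓞 K) K : 𝓞 K →* K))
    exact Finite.of_injective (Subgroup.inclusion hUle) (Subgroup.inclusion_injective hUle)
  have hU2 : 2 ≤ (SqG K).relIndex φ.ker := by
    have h0 : (SqG K).relIndex φ.ker ≠ 0 := by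
      show ((SqG K).subgroupOf φ.ker).index ≠ 0
      exact Subgroup.FiniteIndex.index_ne_zero
    have h1 : (SqG K).relIndex φ.ker ≠ 1 := by
      intro h
      have hle : φ.ker ≤ SqG K := Subgroup.relIndex_eq_one.1 h
      have hsurj : Function.Surjective (fun x : φ.ker => x ^ 2) := by
        rintro ⟨x, hx⟩
        obtain ⟨y, hy⟩ := hle hx
        have hy' : y ^ 2 = x := hy
        have hyk : y ∈ φ.ker := by
          rw [MonoidHom.mem_ker]
          apply hsq_inj
          show (φ y) ^ 2 = (1 : I) ^ 2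
          rw [← map_pow, hy', one_pow]
          exact hx
        exact ⟨⟨y, hyk⟩, Subtype.ext hy'⟩
      have hinj := Finite.injective_iff_surjective.2 hsurj
      have hneg : (-1 : Kˣ) ∈ φ.ker := by
        rw [MonoidHom.mem_ker]
        apply hsq_inj
        show (φ (-1)) ^ 2 = (1 : I) ^ 2
        rw [← map_pow]
        simp
      have h2 : (⟨-1, hneg⟩ : φ.ker) = 1 := by
        apply hinj
        apply Subtype.ext
        show (-1 : Kˣ) ^ 2 = (1 : Kˣ) ^ 2
        simp
      have h3 : (-1 : Kˣ) = 1 := congrArg Subtype.val h2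
      have h4 : (-1 : K) = 1 := by
        have := congrArg Units.val h3
        simpa using this
      have h5 : (2 : K) = 0 := by linear_combination -h4
      exact two_ne_zero h5
    omega
  calc 8 * (WW K).index = 2 * (4 * (WW K).index) := by ring
    _ ≤ (SqG K).relIndex φ.ker * (P.map sqh).relIndex (J ⊓ P) := Nat.mul_le_mul hU2 hmain
    _ = (SqG K).relIndex (VV K) := by rw [hR1, hR2]

end Crest.Agent.HB
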