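import Crest.Agent.HB.RelDefs

/-! Row 32 (S0042), chunk T7c. -/
set_option autoImplicit false

open NumberField IsDedekindDomain
open scoped nonZeroDivisors Pointwise

namespace Crest.Agent.HB

/-- Index bound by a separating function. -/
theorem e3_relIndex_le {G : Type*} [Group G] (H V : Subgroup G) {T : Type*} [Finite T] (f : G → T)
    (h : ∀ x ∈ V, ∀ y ∈ V, f x = f y → x⁻¹ * y ∈ H) :
    H.relIndex V ≠ 0 ∧ H.relIndex V ≤ Nat.card T := by
  have hinj : Function.Injective (fun q : V ⧸ H.subgroupOf V => f (q.out : V)) := by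
    intro q q' hqq
    have h1 := h _ (q.out).2 _ (q'.out).2 hqq
    have h2 : (q.out)⁻¹ * q'.out ∈ H.subgroupOf V := h1
    rw [← QuotientGroup.eq] at h2
    simpa using h2
  have : Finite (V ⧸ H.subgroupOf V) := Finite.of_injective _ hinj
  constructor
  · rw [Subgroup.relIndex, Subgroup.index]
    exact Nat.card_ne_zero.2 ⟨⟨QuotientGroup.mk 1⟩, this⟩
  · exact Nat.card_le_card_of_injective _ hinj

theorem e3_relIndex_finset {G : Type*} [Group G] {ι : Type*} (S : Finset ι) (V : Subgroup G)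
    (H : ι → Subgroup G) (c : ι → ℕ) (h : ∀ i ∈ S, (H i).relIndex V ≠ 0 ∧ (H i).relIndex V ≤ c i) :
    (⨅ i ∈ S, H i).relIndex V ≠ 0 ∧ (⨅ i ∈ S, H i).relIndex V ≤ ∏ i ∈ S, c i := by
  classical
  induction S using Finset.induction_on with
  | empty => simp
  | insert a S ha ih =>
    obtain ⟨h1, h2⟩ := h a (Finset.mem_insert_self a S)
    obtain ⟨h3, h4⟩ := ih (fun i hi => h i (Finset.mem_insert_of_mem hi))
    rw [Finset.iInf_insert, Finset.prod_insert ha]
    exact ⟨Subgroup.relIndex_inf_ne_zero h1 h3,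
      (Subgroup.relIndex_inf_le).trans (Nat.mul_le_mul h2 h4)⟩

section loc

variable {L : Type} [Field L] [NumberField L]

omit [NumberField L] in
theorem e3_cmul (y z : 𝓞 L) : ((y * z : 𝓞 L) : L) = (y : L) * (z : L) :=
  map_mul (algebraMap (𝓞 L) L) y z

omit [NumberField L] in
theorem e3_cpow (y : 𝓞 L) (n : ℕ) : ((y ^ n : 𝓞 L) : L) = (y : L) ^ n :=
  map_pow (algebraMap (𝓞 L) L) y n

omit [NumberField L] in
theorem e3_cinj (y z : 𝓞 L) (h : (y : L) = (z : L)) : y = z :=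
  FaithfulSMul.algebraMap_injective (𝓞 L) L h

/-- Local condition of `LocSq` at `P`. -/
def e3_Loc (P : Ideal (𝓞 L)) (x : L) : Prop :=
  ∃ (t : L) (y z : 𝓞 L), t ≠ 0 ∧ y ∉ P ∧
    x * t ^ 2 = (y : L) ∧ ((2 : 𝓞 L) ∈ P → y - z ^ 2 ∈ P ^ 2) ∧ ((5 : 𝓞 L) ∈ P → y - z ^ 2 ∈ P)

omit [NumberField L] in
theorem e3_Loc_mul (P : Ideal (𝓞 L)) [P.IsPrime] (x x' : L) (h : e3_Loc P x) (h' : e3_Loc P x') :
    e3_Loc P (x * x') := by
  obtain ⟨t, y, z, ht, hy, e, h2, h5⟩ := h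
  obtain ⟨t', y', z', ht', hy', e', h2', h5'⟩ := h'
  have key : y * y' - (z * z') ^ 2 = y * (y' - z' ^ 2) + z' ^ 2 * (y - z ^ 2) := by ring
  refine ⟨t * t', y * y', z * z', mul_ne_zero ht ht', ?_, ?_, ?_, ?_⟩
  · intro hm
    rcases (Ideal.IsPrime.mem_or_mem ‹P.IsPrime› hm) with h | h
    · exact hy h
    · exact hy' h
  · rw [e3_cmul, ← e, ← e']; ring
  · intro h
    rw [key]
    exact add_mem (Ideal.mul_mem_left _ _ (h2' h)) (Ideal.mul_mem_left _ _ (h2 h))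
  · intro h
    rw [key]
    exact add_mem (Ideal.mul_mem_left _ _ (h5' h)) (Ideal.mul_mem_left _ _ (h5 h))

omit [NumberField L] in
theorem e3_Loc_sq (P : Ideal (𝓞 L)) (x s : L) (hs : s ≠ 0) (h : e3_Loc P x) :
    e3_Loc P (x * s ^ 2) := by
  obtain ⟨t, y, z, ht, hy, e, h2, h5⟩ := h
  refine ⟨t / s, y, z, div_ne_zero ht hs, hy, ?_, h2, h5⟩
  rw [← e]; field_simp

/-- Local condition of `LocSq` at `v`, a subgroup. -/
def e3_LocG (v : HeightOneSpectrum (𝓞 L)) : Subgroup Lˣ where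
  carrier := {x | e3_Loc v.asIdeal (x : L)}
  mul_mem' := by
    intro a b ha hb
    have := v.isPrime
    have h := e3_Loc_mul v.asIdeal _ _ ha hb
    simpa using h
  one_mem' := by
    refine ⟨1, 1, 1, one_ne_zero, ?_, by simp, by simp, by simp⟩
    exact fun h => v.isPrime.ne_top ((Ideal.eq_top_iff_one _).2 h)
  inv_mem' := by
    intro a ha
    have h := e3_Loc_sq v.asIdeal _ ((a : L)⁻¹) (inv_ne_zero a.ne_zero) ha
    have e : (a : L) * ((a : L)⁻¹) ^ 2 = ((a⁻¹ : Lˣ) : L) := by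
      rw [Units.val_inv_eq_inv_val]
      have := a.ne_zero
      field_simp
    rw [e] at h
    exact h

/-- representation of a unit at `v` -/
theorem e3_unit_rep (v : HeightOneSpectrum (𝓞 L)) (u : L) (hu : v.valuation L u = 1) :
    ∃ (a b : 𝓞 L), a ∉ v.asIdeal ∧ b ∉ v.asIdeal ∧ u * (b : L) = (a : L) := by
  obtain ⟨a, ⟨b, hb⟩, hab⟩ := HeightOneSpectrum.exists_primeCompl_mul_eq_of_integer v u hu.le
  have hb1 : v.intValuation b = 1 := (v.intValuation_eq_one_iff_mem_primeCompl b).2 hb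
  refine ⟨a, b, ?_, hb, hab⟩
  have : v.intValuation a = 1 := by
    have e1 : v.valuation L (algebraMap (𝓞 L) L a) = v.intValuation a :=
      v.valuation_of_algebraMap a
    have e2 : v.valuation L (algebraMap (𝓞 L) L b) = v.intValuation b :=
      v.valuation_of_algebraMap b
    have hab' : u * (algebraMap (𝓞 L) L) b = (algebraMap (𝓞 L) L) a := hab
    rw [← e1, ← hab', map_mul, hu, e2, hb1, one_mul]
  exact (v.intValuation_eq_one_iff_mem_primeCompl a).1 this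

omit [NumberField L] in
theorem e3_coe_ne_zero (v : HeightOneSpectrum (𝓞 L)) (b : 𝓞 L) (hb : b ∉ v.asIdeal) :
    (b : L) ≠ 0 := by
  intro h
  apply hb
  have : b = 0 := by
    apply FaithfulSMul.algebraMap_injective (𝓞 L) L
    simpa using h
  rw [this]; exact Ideal.zero_mem _

theorem e3_even_rep (v : HeightOneSpectrum (𝓞 L)) (x : L) (hx : EvenAt v x) :
    ∃ (t : L) (y : 𝓞 L), t ≠ 0 ∧ y ∉ v.asIdeal ∧ x * t ^ 2 = (y : L) := by
  obtain ⟨t, ht, h⟩ := hx
  obtain ⟨a, b, ha, hb, e⟩ := e3_unit_rep v _ h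
  refine ⟨t * b, a * b, mul_ne_zero ht (e3_coe_ne_zero v b hb), ?_, ?_⟩
  · intro hm
    rcases (Ideal.IsPrime.mem_or_mem v.isPrime hm) with h | h
    · exact ha h
    · exact hb h
  · rw [e3_cmul, ← e]; ring

/-- Normal form at a prime above `2`. -/
theorem e3_normal2 (v : HeightOneSpectrum (𝓞 L)) (h2 : (2 : 𝓞 L) ∈ v.asIdeal) (x : L)
    (hx : EvenAt v x) :
    ∃ (t : L) (y : 𝓞 L), t ≠ 0 ∧ x * t ^ 2 = (y : L) ∧ y - 1 ∈ v.asIdeal := by
  obtain ⟨t, c, ht, hc, e⟩ := e3_even_rep v x hx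
  have hmax : v.asIdeal.IsMaximal := v.isMaximal
  let := Ideal.Quotient.field v.asIdeal
  have : Finite (𝓞 L ⧸ v.asIdeal) := Ideal.finiteQuotientOfFreeOfNeBot v.asIdeal v.ne_bot
  have hchar : CharP (𝓞 L ⧸ v.asIdeal) 2 := by
    refine CharTwo.of_one_ne_zero_of_two_eq_zero one_ne_zero ?_
    have : (Ideal.Quotient.mk v.asIdeal (2 : 𝓞 L)) = 0 := Ideal.Quotient.eq_zero_iff_mem.2 h2
    rwa [map_ofNat] at this
  let := Fintype.ofFinite (𝓞 L ⧸ v.asIdeal)
  obtain ⟨r, hr⟩ := FiniteField.isSquare_of_char_two (F := 𝓞 L ⧸ v.asIdeal)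
    (ringChar.eq _ 2) ((Ideal.Quotient.mk v.asIdeal) c)
  have hc0 : (Ideal.Quotient.mk v.asIdeal) c ≠ 0 := fun h => hc (Ideal.Quotient.eq_zero_iff_mem.1 h)
  have hr0 : r ≠ 0 := by rintro rfl; simp at hr; exact hc0 hr
  obtain ⟨w, hw⟩ := Ideal.Quotient.mk_surjective (r⁻¹)
  have hw0 : w ∉ v.asIdeal := by
    intro h
    rw [Ideal.Quotient.eq_zero_iff_mem.2 h] at hw
    exact inv_ne_zero hr0 hw.symm
  refine ⟨t * w, c * w ^ 2, mul_ne_zero ht (e3_coe_ne_zero v w hw0), ?_, ?_⟩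
  · rw [e3_cmul, e3_cpow, ← e]; ring
  · rw [← Ideal.Quotient.eq_zero_iff_mem]
    rw [map_sub, map_mul, map_pow, hw, hr, map_one]
    field_simp
    simp

/-- `y ≡ 1 + 2 a (mod P²)` -/
theorem e3_form2 (v : HeightOneSpectrum (𝓞 L)) (h2 : (2 : 𝓞 L) ∈ v.asIdeal)
    (h2' : (2 : 𝓞 L) ∉ v.asIdeal ^ 2) (x : L) (hx : EvenAt v x) :
    ∃ (t : L) (y a : 𝓞 L), t ≠ 0 ∧ x * t ^ 2 = (y : L) ∧ y - (1 + 2 * a) ∈ v.asIdeal ^ 2 := by
  obtain ⟨t, y, ht, e, hy⟩ := e3_normal2 v h2 x hx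
  have := v.isPrime
  obtain ⟨d, f, hf, hd⟩ := Ideal.exists_mul_add_mem_pow_succ v.ne_bot (i := 1) 2 (y - 1)
    (by simpa using h2) h2' (by simpa using hy)
  refine ⟨t, y, d, ht, e, ?_⟩
  have : y - (1 + 2 * d) = f := by
    rw [← sub_eq_zero]
    have : y - (1 + 2 * d) - f = (y - 1) - (2 * d + f) := by ring
    rw [this, hd, sub_self]
  rw [this]; exact hf

/-- well-definedness of `a mod P` -/
theorem e3_wd (v : HeightOneSpectrum (𝓞 L)) (h2 : (2 : 𝓞 L) ∈ v.asIdeal)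
    (h2' : (2 : 𝓞 L) ∉ v.asIdeal ^ 2) (x t t' : L) (y y' a a' : 𝓞 L)
    (hy : x * t ^ 2 = (y : L)) (hy' : x * t' ^ 2 = (y' : L))
    (ha : y - (1 + 2 * a) ∈ v.asIdeal ^ 2) (ha' : y' - (1 + 2 * a') ∈ v.asIdeal ^ 2) :
    a - a' ∈ v.asIdeal := by
  have := v.isPrime
  have hint : IsIntegral ℤ (x * t * t') := by
    apply IsIntegral.of_pow (n := 2) (by norm_num)
    have : (x * t * t') ^ 2 = ((y * y' : 𝓞 L) : L) := by
      rw [e3_cmul, ← hy, ← hy']; ring
    rw [this]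
    exact (y * y').isIntegral_coe
  set r : 𝓞 L := ⟨x * t * t', hint⟩ with hr
  have hr2 : r ^ 2 = y * y' := by
    apply FaithfulSMul.algebraMap_injective (𝓞 L) L
    have h1 : algebraMap (𝓞 L) L r = x * t * t' := rfl
    have h2 : algebraMap (𝓞 L) L y = x * t ^ 2 := hy.symm
    have h3 : algebraMap (𝓞 L) L y' = x * t' ^ 2 := hy'.symm
    rw [map_pow, map_mul, h1, h2, h3]
    ring
  set P := v.asIdeal with hP
  have h4 : (2 : 𝓞 L) * 2 ∈ P ^ 2 := by rw [pow_two]; exact Ideal.mul_mem_mul h2 h2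
  have hle : P ^ 2 ≤ P := Ideal.pow_le_self (by norm_num)
  -- y * y' ≡ 1 + 2(a+a')
  have k1 : y * y' - (1 + 2 * (a + a')) ∈ P ^ 2 := by
    have e : y * y' - (1 + 2 * (a + a')) = y * (y' - (1 + 2 * a')) + (1 + 2 * a') * (y - (1 + 2 * a))
      + (2 * 2) * (a * a') := by ring
    rw [e]
    exact add_mem (add_mem (Ideal.mul_mem_left _ _ ha') (Ideal.mul_mem_left _ _ ha))
      (Ideal.mul_mem_right _ _ h4)
  have k2 : r ^ 2 - 1 ∈ P := by
    have e : r ^ 2 - 1 = (y * y' - (1 + 2 * (a + a'))) + 2 * (a + a') := by rw [hr2]; ring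
    rw [e]
    exact add_mem (hle k1) (Ideal.mul_mem_right _ _ h2)
  have k3 : r - 1 ∈ P := by
    have : (r - 1) ^ 2 ∈ P := by
      have e : (r - 1) ^ 2 = (r ^ 2 - 1) - 2 * (r - 1) := by ring
      rw [e]
      exact sub_mem k2 (Ideal.mul_mem_right _ _ h2)
    exact v.isPrime.mem_of_pow_mem _ this
  have k4 : r ^ 2 - 1 ∈ P ^ 2 := by
    have e : r ^ 2 - 1 = (r - 1) * (r - 1) + 2 * (r - 1) := by ring
    rw [e, pow_two]
    exact add_mem (Ideal.mul_mem_mul k3 k3) (Ideal.mul_mem_mul h2 k3)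
  have k5 : 2 * (a + a') ∈ P ^ (1 + 1) := by
    have e : 2 * (a + a') = (r ^ 2 - 1) - (y * y' - (1 + 2 * (a + a'))) := by rw [hr2]; ring
    rw [e]
    exact sub_mem k4 k1
  have k6 : a + a' ∈ P := Ideal.mem_prime_of_mul_mem_pow v.ne_bot (i := 1) h2' k5
  have e : a - a' = (a + a') - 2 * a' := by ring
  rw [e]
  exact sub_mem k6 (Ideal.mul_mem_right _ _ h2)

/-- Local bound at a prime above `5`. -/
theorem e3_local5 (v : HeightOneSpectrum (𝓞 L)) (h5 : (5 : 𝓞 L) ∈ v.asIdeal) (V : Subgroup Lˣ) :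
    (e3_LocG v).relIndex V ≠ 0 ∧ (e3_LocG v).relIndex V ≤ 4 := by
  classical
  have hprime := v.isPrime
  have h2 : (2 : 𝓞 L) ∉ v.asIdeal := by
    intro h2
    apply v.isPrime.ne_top
    rw [Ideal.eq_top_iff_one]
    have e : (1 : 𝓞 L) = 5 - 2 * 2 := by ring
    rw [e]
    exact sub_mem h5 (Ideal.mul_mem_right _ _ h2)
  obtain ⟨π, hπ⟩ := v.valuation_exists_uniformizer L
  have hπ0 : π ≠ 0 := by
    rintro rfl
    rw [map_zero] at hπ
    exact WithZero.exp_ne_zero hπ.symm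
  -- parity normal form
  have key : ∀ x : Lˣ, ∃ (j : Bool) (t : L) (y : 𝓞 L), t ≠ 0 ∧ y ∉ v.asIdeal ∧
      (x : L) * π ^ (cond j 1 0) * t ^ 2 = (y : L) := by
    intro x
    have hx0 : v.valuation L (x : L) ≠ 0 := by
      rw [Valuation.ne_zero_iff]; exact x.ne_zero
    have hx : v.valuation L (x : L) = WithZero.exp (WithZero.log (v.valuation L (x : L))) :=
      (WithZero.exp_log hx0).symm
    set n := WithZero.log (v.valuation L (x : L)) with hn
    rcases Int.even_or_odd' n with ⟨m, hm | hm⟩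
    · have hE : EvenAt v ((x : L) * π ^ (cond false 1 0)) := by
        refine ⟨π ^ m, zpow_ne_zero _ hπ0, ?_⟩
        simp only [cond_false, pow_zero, mul_one]
        rw [map_mul, map_pow, map_zpow₀, hπ, hx, ← WithZero.exp_zsmul, ← WithZero.exp_nsmul,
          ← WithZero.exp_add, ← WithZero.exp_zero]
        congr 1
        simp only [smul_eq_mul, nsmul_eq_mul]
        push_cast
        omega
      obtain ⟨t, y, ht, hy, e⟩ := e3_even_rep v _ hE
      exact ⟨false, t, y, ht, hy, e⟩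
    · have hE : EvenAt v ((x : L) * π ^ (cond true 1 0)) := by
        refine ⟨π ^ m, zpow_ne_zero _ hπ0, ?_⟩
        simp only [cond_true, pow_one]
        rw [map_mul, map_mul, map_pow, map_zpow₀, hπ, hx, ← WithZero.exp_zsmul,
          ← WithZero.exp_nsmul, ← WithZero.exp_add, ← WithZero.exp_add, ← WithZero.exp_zero]
        congr 1
        simp only [smul_eq_mul, nsmul_eq_mul]
        push_cast
        omega
      obtain ⟨t, y, ht, hy, e⟩ := e3_even_rep v _ hE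
      exact ⟨true, t, y, ht, hy, e⟩
  choose j t y ht hy e using key
  have hmax : v.asIdeal.IsMaximal := v.isMaximal
  let := Ideal.Quotient.field v.asIdeal
  have : Finite (𝓞 L ⧸ v.asIdeal) := Ideal.finiteQuotientOfFreeOfNeBot v.asIdeal v.ne_bot
  let := Fintype.ofFinite (𝓞 L ⧸ v.asIdeal)
  have h5' : (5 : 𝓞 L ⧸ v.asIdeal) = 0 := by
    have : (Ideal.Quotient.mk v.asIdeal (5 : 𝓞 L)) = 0 := Ideal.Quotient.eq_zero_iff_mem.2 h5
    rwa [map_ofNat] at this
  have hy0 : ∀ x, Ideal.Quotient.mk v.asIdeal (y x) ≠ 0 :=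
    fun x h => hy x (Ideal.Quotient.eq_zero_iff_mem.1 h)
  have hcard : Nat.card (Bool × Bool) = 4 := by simp
  rw [← hcard]
  refine e3_relIndex_le _ _
    (fun x => (j x, decide (IsSquare (Ideal.Quotient.mk v.asIdeal (y x))))) ?_
  intro x _ x' _ h
  simp only [Prod.mk.injEq, decide_eq_decide] at h
  obtain ⟨hj, hs⟩ := h
  have hsq : IsSquare (Ideal.Quotient.mk v.asIdeal (y x) * Ideal.Quotient.mk v.asIdeal (y x')) := by
    rw [← quadraticChar_one_iff_isSquare (mul_ne_zero (hy0 x) (hy0 x')), map_mul]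
    by_cases h1 : IsSquare (Ideal.Quotient.mk v.asIdeal (y x))
    · rw [(quadraticChar_one_iff_isSquare (hy0 x)).2 h1,
        (quadraticChar_one_iff_isSquare (hy0 x')).2 (hs.1 h1), one_mul]
    · rw [quadraticChar_neg_one_iff_not_isSquare.2 h1,
        quadraticChar_neg_one_iff_not_isSquare.2 (fun h => h1 (hs.2 h))]
      norm_num
  obtain ⟨r, hr⟩ := hsq
  obtain ⟨z, rfl⟩ := Ideal.Quotient.mk_surjective r
  refine ⟨(x : L) * t x * t x' * π ^ (cond (j x) 1 0), y x * y x', z, ?_, ?_, ?_, ?_, ?_⟩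
  · exact mul_ne_zero (mul_ne_zero (mul_ne_zero x.ne_zero (ht x)) (ht x')) (pow_ne_zero _ hπ0)
  · intro hm
    rcases (Ideal.IsPrime.mem_or_mem v.isPrime hm) with h | h
    · exact hy _ h
    · exact hy _ h
  · rw [e3_cmul, ← e, ← e, hj]
    have := x.ne_zero
    rw [Units.val_mul, Units.val_inv_eq_inv_val]
    field_simp
  · intro h; exact absurd h h2
  · intro _
    rw [← Ideal.Quotient.eq, map_mul, hr, pow_two, map_mul]

end loc

section gal

variable (K L : Type) [Field K] [NumberField K] [Field L] [NumberField L] [Algebra K L]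

theorem e3_fixed [IsGalois K L] (v : HeightOneSpectrum (𝓞 L)) (a : 𝓞 L)
    (h : ∀ σ : L ≃ₐ[K] L, σ • v.asIdeal = v.asIdeal → σ • a - a ∈ v.asIdeal) :
    ∃ c : 𝓞 K, a - algebraMap (𝓞 K) (𝓞 L) c ∈ v.asIdeal := by
  have hmax : v.asIdeal.IsMaximal := v.isMaximal
  have hpm : (v.asIdeal.under (𝓞 K)).IsMaximal := by
    exact Ideal.isMaximal_comap_of_isIntegral_of_isMaximal v.asIdeal
  let := Ideal.Quotient.field v.asIdeal
  let := Ideal.Quotient.field (v.asIdeal.under (𝓞 K))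
  have : Finite (𝓞 L ⧸ v.asIdeal) := Ideal.finiteQuotientOfFreeOfNeBot v.asIdeal v.ne_bot
  have : FiniteDimensional (𝓞 K ⧸ v.asIdeal.under (𝓞 K)) (𝓞 L ⧸ v.asIdeal) :=
    Module.Finite.of_finite
  have key := (IsGalois.mem_range_algebraMap_iff_fixed (F := 𝓞 K ⧸ v.asIdeal.under (𝓞 K))
    (E := 𝓞 L ⧸ v.asIdeal) (Ideal.Quotient.mk _ a)).2 ?_
  · obtain ⟨c, hc⟩ := key
    obtain ⟨c, rfl⟩ := Ideal.Quotient.mk_surjective c
    refine ⟨c, ?_⟩
    rw [← Ideal.Quotient.eq]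
    exact hc.symm
  · intro g
    obtain ⟨σ, hσ⟩ := Ideal.Quotient.stabilizerHom_surjective (L ≃ₐ[K] L)
      (v.asIdeal.under (𝓞 K)) v.asIdeal g
    rw [← hσ]
    rw [Ideal.Quotient.stabilizerHom_apply]
    have h1 := h (σ : L ≃ₐ[K] L) σ.2
    rw [← Ideal.Quotient.eq] at h1
    exact h1

omit [NumberField K] [NumberField L] in
theorem e3_csmul (σ : L ≃ₐ[K] L) (y : 𝓞 L) : ((σ • y : 𝓞 L) : L) = σ (y : L) := rfl

omit [NumberField K] [NumberField L] in
theorem e3_smul_pow (σ : L ≃ₐ[K] L) (I : Ideal (𝓞 L)) (n : ℕ) : σ • I ^ n = (σ • I) ^ n :=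
  smul_pow' σ I n

/-- `2`-local bound. -/
theorem e3_local2 [IsGalois K L] (v : HeightOneSpectrum (𝓞 L)) (h2 : (2 : 𝓞 L) ∈ v.asIdeal)
    (h2' : (2 : 𝓞 L) ∉ v.asIdeal ^ 2) :
    (e3_LocG v).relIndex (VV L ⊓ XX K L) ≠ 0 ∧
      (e3_LocG v).relIndex (VV L ⊓ XX K L) ≤ Nat.card (𝓞 K ⧸ v.asIdeal.under (𝓞 K)) := by
  classical
  have hprime := v.isPrime
  have h1 : (1 : 𝓞 L) ∉ v.asIdeal := fun h => v.isPrime.ne_top ((Ideal.eq_top_iff_one _).2 h)
  have h5 : (5 : 𝓞 L) ∉ v.asIdeal := by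
    intro h5
    apply h1
    have e : (1 : 𝓞 L) = 5 - 2 * 2 := by ring
    rw [e]
    exact sub_mem h5 (Ideal.mul_mem_right _ _ h2)
  have h4 : (2 : 𝓞 L) * 2 ∈ v.asIdeal ^ 2 := by rw [pow_two]; exact Ideal.mul_mem_mul h2 h2
  have hle : v.asIdeal ^ 2 ≤ v.asIdeal := Ideal.pow_le_self (by norm_num)
  have key : ∀ x : Lˣ, x ∈ VV L ⊓ XX K L → ∃ (c : 𝓞 K) (t : L) (y : 𝓞 L), t ≠ 0 ∧
      (x : L) * t ^ 2 = (y : L) ∧
        y - (1 + 2 * algebraMap (𝓞 K) (𝓞 L) c) ∈ v.asIdeal ^ 2 := by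
    rintro x ⟨hxV, hxX⟩
    obtain ⟨t, y, a, ht, e, hy⟩ := e3_form2 v h2 h2' (x : L) (hxV v h5)
    obtain ⟨c, hc⟩ := e3_fixed K L v a (by
      intro σ hσ
      obtain ⟨s, hs, hsx⟩ := hxX σ
      refine e3_wd v h2 h2' (x : L) (s * σ t) t (σ • y) y (σ • a) a ?_ e ?_ hy
      · rw [e3_csmul, ← e, map_mul, map_pow, hsx]; ring
      · have h := (Ideal.smul_mem_pointwise_smul_iff (a := σ)).2 hy
        rw [e3_smul_pow, hσ] at h
        have e2 : σ • (y - (1 + 2 * a)) = σ • y - (1 + 2 * σ • a) := by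
          have : σ • (y - (1 + 2 * a)) = MulSemiringAction.toRingHom (L ≃ₐ[K] L) (𝓞 L) σ
            (y - (1 + 2 * a)) := rfl
          rw [this]
          rw [map_sub, map_add, map_mul, map_one, map_ofNat]
          rfl
        rwa [e2] at h)
    refine ⟨c, t, y, ht, e, ?_⟩
    have e3 : y - (1 + 2 * algebraMap (𝓞 K) (𝓞 L) c) =
      (y - (1 + 2 * a)) + 2 * (a - algebraMap (𝓞 K) (𝓞 L) c) := by ring
    rw [e3]
    refine add_mem hy ?_
    rw [pow_two]
    exact Ideal.mul_mem_mul h2 hc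
  choose! c t y ht e hy using key
  have hpK : (v.asIdeal.under (𝓞 K)) ≠ ⊥ := by
    intro h
    exact v.ne_bot (Ideal.eq_bot_of_comap_eq_bot h)
  have hfin : Finite (𝓞 K ⧸ v.asIdeal.under (𝓞 K)) :=
    Ideal.finiteQuotientOfFreeOfNeBot _ hpK
  refine e3_relIndex_le _ _ (fun x => Ideal.Quotient.mk (v.asIdeal.under (𝓞 K)) (c x)) ?_
  intro x hx x' hx' h
  have hc : algebraMap (𝓞 K) (𝓞 L) (c x) - algebraMap (𝓞 K) (𝓞 L) (c x') ∈ v.asIdeal := by
    rw [← map_sub]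
    exact Ideal.Quotient.eq.1 h
  have hyn : ∀ x, x ∈ VV L ⊓ XX K L → y x - 1 ∈ v.asIdeal := by
    intro x hx
    have e4 : y x - 1 = (y x - (1 + 2 * algebraMap (𝓞 K) (𝓞 L) (c x))) +
      2 * algebraMap (𝓞 K) (𝓞 L) (c x) := by ring
    rw [e4]
    exact add_mem (hle (hy x hx)) (Ideal.mul_mem_right _ _ h2)
  have hyn' : ∀ x, x ∈ VV L ⊓ XX K L → y x ∉ v.asIdeal := by
    intro x hx h
    apply h1
    have e5 : (1 : 𝓞 L) = y x - (y x - 1) := by ring
    rw [e5]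
    exact sub_mem h (hyn x hx)
  refine ⟨(x : L) * t x * t x', y x * y x', 1, ?_, ?_, ?_, ?_, ?_⟩
  · exact mul_ne_zero (mul_ne_zero x.ne_zero (ht x hx)) (ht x' hx')
  · intro hm
    rcases (Ideal.IsPrime.mem_or_mem v.isPrime hm) with h | h
    · exact hyn' _ hx h
    · exact hyn' _ hx' h
  · rw [e3_cmul, ← e x hx, ← e x' hx']
    have := x.ne_zero
    rw [Units.val_mul, Units.val_inv_eq_inv_val]
    field_simp
  · intro _
    set C := algebraMap (𝓞 K) (𝓞 L) (c x) with hC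
    set C' := algebraMap (𝓞 K) (𝓞 L) (c x') with hC'
    have e6 : y x * y x' - 1 ^ 2 = y x * (y x' - (1 + 2 * C')) + (1 + 2 * C') * (y x - (1 + 2 * C))
      + (2 * 2) * (C * C' + C') + 2 * (C - C') := by ring
    rw [e6]
    refine add_mem (add_mem (add_mem (Ideal.mul_mem_left _ _ (hy x' hx'))
      (Ideal.mul_mem_left _ _ (hy x hx))) (Ideal.mul_mem_right _ _ h4)) ?_
    rw [pow_two]
    exact Ideal.mul_mem_mul h2 hc
  · intro h; exact absurd h h5

/-- Transport of the local condition by the Galois group. -/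
theorem e3_transport [IsGalois K L] (v w : HeightOneSpectrum (𝓞 L))
    (h : v.asIdeal.under (𝓞 K) = w.asIdeal.under (𝓞 K)) (x : Lˣ) (hx : x ∈ XX K L)
    (hv : e3_Loc v.asIdeal (x : L)) : e3_Loc w.asIdeal (x : L) := by
  have hpv := v.isPrime
  have hpw := w.isPrime
  obtain ⟨σ, hσ⟩ := Algebra.IsInvariant.exists_smul_of_under_eq (𝓞 K) (𝓞 L) (L ≃ₐ[K] L)
    v.asIdeal w.asIdeal h
  obtain ⟨t, y, z, ht, hy, e, h2, h5⟩ := hv
  obtain ⟨s, hs, hsx⟩ := hx σ
  have e2 : σ • y - (σ • z) ^ 2 = σ • (y - z ^ 2) := by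
    have : σ • (y - z ^ 2) = MulSemiringAction.toRingHom (L ≃ₐ[K] L) (𝓞 L) σ (y - z ^ 2) := rfl
    rw [this, map_sub, map_pow]
    rfl
  have hm : ∀ m : ℕ, ((m : 𝓞 L) ∈ σ • v.asIdeal ↔ (m : 𝓞 L) ∈ v.asIdeal) := by
    intro m
    have e1 : σ • (m : 𝓞 L) = (m : 𝓞 L) := by
      have : σ • (m : 𝓞 L) = MulSemiringAction.toRingHom (L ≃ₐ[K] L) (𝓞 L) σ (m : 𝓞 L) := rfl
      rw [this, map_natCast]
    conv_lhs => rw [← e1]
    exact Ideal.smul_mem_pointwise_smul_iff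
  rw [hσ]
  refine ⟨s * σ t, σ • y, σ • z, mul_ne_zero hs ((map_ne_zero σ).2 ht), ?_, ?_, ?_, ?_⟩
  · rw [Ideal.smul_mem_pointwise_smul_iff]; exact hy
  · rw [e3_csmul, ← e, map_mul, map_pow, hsx]; ring
  · intro h
    have h' : (2 : 𝓞 L) ∈ v.asIdeal := by
      have := (hm 2).1 (by exact_mod_cast h)
      exact_mod_cast this
    rw [e2, ← e3_smul_pow]
    exact Ideal.smul_mem_pointwise_smul_iff.2 (h2 h')
  · intro h
    have h' : (5 : 𝓞 L) ∈ v.asIdeal := by
      have := (hm 5).1 (by exact_mod_cast h)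
      exact_mod_cast this
    rw [e2]
    exact Ideal.smul_mem_pointwise_smul_iff.2 (h5 h')

/-- Product of norms of distinct primes above `m`. -/
theorem e3_count (hdeg : Module.finrank ℚ K = 2) (m : ℕ) (hm : m ≠ 0)
    (S : Finset (HeightOneSpectrum (𝓞 K))) (hS : ∀ v ∈ S, (m : 𝓞 K) ∈ v.asIdeal) :
    ∏ v ∈ S, Ideal.absNorm v.asIdeal ≤ m ^ 2 := by
  classical
  have h1 : ∏ v ∈ S, v.asIdeal ∣ Ideal.span {(m : 𝓞 K)} := by
    have : ∏ v ∈ S, v.asIdeal = ∏ p ∈ S.image (fun v => v.asIdeal), p := by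
      rw [Finset.prod_image]
      intro v _ w _ h
      exact HeightOneSpectrum.ext h
    rw [this]
    apply Finset.prod_primes_dvd
    · intro a ha
      rw [Finset.mem_image] at ha
      obtain ⟨v, hv, rfl⟩ := ha
      exact v.prime
    · intro a ha
      rw [Finset.mem_image] at ha
      obtain ⟨v, hv, rfl⟩ := ha
      rw [Ideal.dvd_span_singleton]
      exact hS v hv
  have h2 := map_dvd Ideal.absNorm h1
  rw [map_prod, Ideal.absNorm_span_natCast, RingOfIntegers.rank, hdeg] at h2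
  exact Nat.le_of_dvd (by positivity) h2

/-- `2` is a uniformizer at all primes of `L` above `2`. -/
theorem e3_two (hK : Odd2 K) (hL : Unram K L) (v : HeightOneSpectrum (𝓞 L))
    (h2 : (2 : 𝓞 L) ∈ v.asIdeal) : (2 : 𝓞 L) ∉ v.asIdeal ^ 2 := by
  have hprime := v.isPrime
  have h2K : (2 : 𝓞 K) ∈ v.asIdeal.under (𝓞 K) := by
    rw [Ideal.under_def, Ideal.mem_comap, map_ofNat]; exact h2
  have h1 : v.asIdeal.ramificationIdx ℤ = 1 := by
    rw [Ideal.ramificationIdx_tower (R := ℤ) (S := 𝓞 K) (v.asIdeal.under (𝓞 K)) v.asIdeal,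
      hK _ inferInstance h2K, hL _ v.isPrime v.ne_bot]
  have h2Z : (2 : ℤ) ∈ v.asIdeal.under ℤ := by
    rw [Ideal.under_def, Ideal.mem_comap, map_ofNat]; exact h2
  have hp : Ideal.span {(2 : ℤ)} = v.asIdeal.under ℤ := by
    have hmax : (Ideal.span {(2 : ℤ)}).IsMaximal :=
      PrincipalIdealRing.isMaximal_of_irreducible (Int.prime_two.irreducible)
    apply hmax.eq_of_le
    · exact (inferInstance : (v.asIdeal.under ℤ).IsPrime).ne_top
    · rw [Ideal.span_singleton_le_iff_mem]; exact h2Z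
  have hpb : v.asIdeal.under ℤ ≠ ⊥ := by
    rw [← hp]; simp
  rw [← Ideal.ramificationIdx'_eq_ramificationIdx (v.asIdeal.under ℤ) v.asIdeal hpb] at h1
  intro h
  have h3 := (Ideal.ramificationIdx'_ne_one_iff (p := v.asIdeal.under ℤ) (P := v.asIdeal)
    Ideal.map_comap_le).2 (by
      rw [← hp, Ideal.map_span, Set.image_singleton, map_ofNat, Ideal.span_singleton_le_iff_mem]
      exact h)
  exact h3 h1

end gal

theorem e3_below (K L : Type) [Field K] [NumberField K] [Field L] [NumberField L] [Algebra K L]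
    (w : HeightOneSpectrum (𝓞 L)) :
    ∃ v : HeightOneSpectrum (𝓞 K), v.asIdeal = w.asIdeal.under (𝓞 K) := by
  refine ⟨⟨w.asIdeal.under (𝓞 K), ?_, ?_⟩, rfl⟩
  · exact w.isPrime.under _
  · intro h
    exact w.ne_bot (Ideal.eq_bot_of_comap_eq_bot h)

theorem e3_above (K L : Type) [Field K] [NumberField K] [Field L] [NumberField L] [Algebra K L]
    (v : HeightOneSpectrum (𝓞 K)) :
    ∃ w : HeightOneSpectrum (𝓞 L), w.asIdeal.under (𝓞 K) = v.asIdeal := by
  have := v.isPrime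
  obtain ⟨⟨P, hP, hPv⟩⟩ := v.asIdeal.nonempty_primesOver (S := 𝓞 L)
  refine ⟨⟨P, hP, ?_⟩, hPv.over.symm⟩
  rintro rfl
  apply v.ne_bot
  rw [hPv.over]
  exact Ideal.under_bot (A := 𝓞 K) (B := 𝓞 L)

theorem e3_finset (K : Type) [Field K] [NumberField K] (m : ℕ) (hm : m ≠ 0) :
    ∃ S : Finset (HeightOneSpectrum (𝓞 K)), ∀ v, v ∈ S ↔ (m : 𝓞 K) ∈ v.asIdeal := by
  have h : Ideal.span {(m : 𝓞 K)} ≠ 0 := by
    rw [Ideal.zero_eq_bot, Ne, Ideal.span_singleton_eq_bot]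
    exact_mod_cast hm
  refine ⟨(Ideal.finite_factors h).toFinset, fun v => ?_⟩
  rw [Set.Finite.mem_toFinset, Set.mem_ofPred_eq, Ideal.dvd_span_singleton]

/-- Galois-invariant classes with even valuations off `5` are determined by local data of size `64`.

Proof. For each of the primes `𝔭 ∣ 2` of `K` choose `P ∣ 𝔭` in `L`; `x ∈ V = VV ⊓ XX` is even at `P`,
so `x t² = y` with `y ∉ P` integral; `y ≡ z² (mod P)` (perfect residue field) and as `2` is
unramified in `L` (`Odd2 L` follows from `Odd2 K` and `Unram K L`), `y/z² ≡ 1 + 2a mod P²`-locally,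
the class `λ_P(x) = a mod P` is well defined (a `P`-unit square `≡ 1 mod P` is `≡ 1 mod 4`-locally)
and multiplicative; since `σx = x·□` for `σ` in the decomposition group, `λ_P(x)` is fixed by it,
so `λ_P(x) ∈ k(𝔭)` (the decomposition group surjects onto `Gal(k(P)/k(𝔭))`,
`Ideal.Quotient.stabilizerHom_surjective`). `∏_{𝔭∣2} |k(𝔭)| = 4` (`2` unramified in the
quadratic field `K`). For each of the two primes `𝔩 ∣ 5` of `K` choose `P ∣ 𝔩`: `x 5^j t² = y`, `y ∉ P`,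
record `j mod 2` and whether `y` is a square mod `P` (`k(P) = F₅`): 4 possibilities each. Total
`4·4² = 64`. If all data of `x` are trivial then `LocSq x` (transport to all other primes above
`𝔭`, `𝔩` with `σ`, using `σx = x·□`; at the other primes evenness suffices), so `x` is a square by
`hmax`. -/
theorem VL_card (K L : Type) [Field K] [NumberField K] [Field L] [NumberField L]
    [Algebra K L] (hK : BaseField K) (hL : Good K L)
    (hmax : ∀ x : L, x ≠ 0 → LocSq x → IsSquare x) :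
    (SqG L).relIndex (VV L ⊓ XX K L) ≠ 0 ∧ (SqG L).relIndex (VV L ⊓ XX K L) ≤ 64 := by
  classical
  have hgal := hL.gal
  obtain ⟨S2, hS2⟩ := e3_finset K 2 (by norm_num)
  obtain ⟨S5, hS5⟩ := e3_finset K 5 (by norm_num)
  choose F hF using e3_above K L
  set V := VV L ⊓ XX K L with hV
  have hup : ∀ (m : ℕ) (v : HeightOneSpectrum (𝓞 K)),
      (m : 𝓞 K) ∈ v.asIdeal ↔ (m : 𝓞 L) ∈ (F v).asIdeal := by
    intro m v
    rw [← hF v, Ideal.under_def, Ideal.mem_comap, map_natCast]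
  -- bound at 2
  have b2 := e3_relIndex_finset S2 V (fun v => e3_LocG (F v)) (fun v => Ideal.absNorm v.asIdeal)
    (by
      intro v hv
      have h2 : (2 : 𝓞 L) ∈ (F v).asIdeal := by
        have := (hup 2 v).1 ((hS2 v).1 hv)
        exact_mod_cast this
      have h := e3_local2 K L (F v) h2 (e3_two K L hK.odd2 hL.unram (F v) h2)
      rw [hF v] at h
      exact h)
  have b5 := e3_relIndex_finset S5 V (fun v => e3_LocG (F v)) (fun v => 4)
    (by
      intro v hv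
      have h5 : (5 : 𝓞 L) ∈ (F v).asIdeal := by
        have := (hup 5 v).1 ((hS5 v).1 hv)
        exact_mod_cast this
      exact e3_local5 (F v) h5 V)
  have c2 := e3_count K hK.deg 2 (by norm_num) S2 (fun v hv => (hS2 v).1 hv)
  have c5 := e3_count K hK.deg 5 (by norm_num) S5 (fun v hv => (hS5 v).1 hv)
  have c5' : S5.card ≤ 2 := by
    have : ∏ v ∈ S5, Ideal.absNorm v.asIdeal = 5 ^ S5.card := by
      rw [Finset.prod_congr rfl (fun v hv => (hK.split5 v.asIdeal v.isPrime (by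
        have := (hS5 v).1 hv
        exact_mod_cast this)).1), Finset.prod_const]
    rw [this] at c5
    exact (Nat.pow_le_pow_iff_right (by norm_num)).1 c5
  set H := (⨅ v ∈ S2, e3_LocG (F v)) ⊓ (⨅ v ∈ S5, e3_LocG (F v)) with hH
  have hH0 : H.relIndex V ≠ 0 := Subgroup.relIndex_inf_ne_zero b2.1 b5.1
  have hH1 : H.relIndex V ≤ 64 := by
    refine (Subgroup.relIndex_inf_le).trans ((Nat.mul_le_mul b2.2 b5.2).trans ?_)
    rw [Finset.prod_const]
    calc (∏ v ∈ S2, Ideal.absNorm v.asIdeal) * 4 ^ S5.card ≤ 2 ^ 2 * 4 ^ 2 :=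
          Nat.mul_le_mul c2 (Nat.pow_le_pow_right (by norm_num) c5')
      _ = 64 := by norm_num
  have hle : H ⊓ V ≤ SqG L := by
    rintro x ⟨⟨hx2, hx5⟩, hxV, hxX⟩
    have hloc : LocSq (x : L) := by
      intro P hP hP0
      set w : HeightOneSpectrum (𝓞 L) := ⟨P, hP, hP0⟩ with hw
      obtain ⟨v, hv⟩ := e3_below K L w
      by_cases h2 : (2 : 𝓞 L) ∈ P
      · have hvS : v ∈ S2 := by
          rw [hS2, hv, Ideal.under_def, Ideal.mem_comap, map_natCast]
          exact_mod_cast h2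
        have h1 : x ∈ e3_LocG (F v) := by
          have h0 : x ∈ ⨅ v ∈ S2, e3_LocG (F v) := hx2
          simp only [Subgroup.mem_iInf] at h0
          exact h0 v hvS
        exact e3_transport K L (F v) w ((hF v).trans hv) x hxX h1
      · by_cases h5 : (5 : 𝓞 L) ∈ P
        · have hvS : v ∈ S5 := by
            rw [hS5, hv, Ideal.under_def, Ideal.mem_comap, map_natCast]
            exact_mod_cast h5
          have h1 : x ∈ e3_LocG (F v) := by
            have h0 : x ∈ ⨅ v ∈ S5, e3_LocG (F v) := hx5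
            simp only [Subgroup.mem_iInf] at h0
            exact h0 v hvS
          exact e3_transport K L (F v) w ((hF v).trans hv) x hxX h1
        · obtain ⟨t, y, ht, hy, e⟩ := e3_even_rep w (x : L) (hxV w h5)
          exact ⟨t, y, 0, ht, hy, e, fun h => absurd h h2, fun h => absurd h h5⟩
    obtain ⟨r, hr⟩ := hmax (x : L) x.ne_zero hloc
    have hr0 : r ≠ 0 := by
      rintro rfl
      simp at hr
    refine ⟨Units.mk0 r hr0, ?_⟩
    ext
    simp only [powMonoidHom_apply, Units.val_pow_eq_pow_val, Units.val_mk0]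
    rw [hr, pow_two]
  have e1 : (H ⊓ V).relIndex V = H.relIndex V := Subgroup.inf_relIndex_right H V
  have hne : (SqG L).relIndex V ≠ 0 := by
    intro h
    exact hH0 (e1 ▸ Subgroup.relIndex_eq_zero_of_le_left hle h)
  refine ⟨hne, ?_⟩
  have h3 := Subgroup.relIndex_le_of_le_left (L := V) hle (by rw [e1]; exact hH0)
  rw [e1] at h3
  exact h3.trans hH1

end Crest.Agent.HB
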