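import Crest.Agent.HB.RelDefs

/-! Row 32 (S0042), chunk T7d. -/
set_option autoImplicit false

open NumberField IsDedekindDomain
open scoped nonZeroDivisors

namespace Crest.Agent.HB

/-- Index bound from a separating function. -/
theorem t7d_index_le {G : Type*} [Group G] (H : Subgroup G) {T : Type*} [Finite T] (f : G → T)
    (hf : ∀ x y, f x = f y → x⁻¹ * y ∈ H) : H.index ≠ 0 ∧ H.index ≤ Nat.card T := by
  have hinj : Function.Injective (fun q : G ⧸ H => f q.out) := by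
    intro a b hab
    have h := hf _ _ hab
    rw [← QuotientGroup.eq] at h
    rwa [QuotientGroup.out_eq', QuotientGroup.out_eq'] at h
  have hfin : Finite (G ⧸ H) := Finite.of_injective _ hinj
  refine ⟨?_, ?_⟩
  · have h2 : H.FiniteIndex := Subgroup.finiteIndex_of_finite_quotient
    exact h2.index_ne_zero
  · exact Nat.card_le_card_of_injective _ hinj

/-- integer valuation (additive, sign as in `exp`). -/
noncomputable def t7d_lv {L : Type*} [Field L] [NumberField L] (v : HeightOneSpectrum (𝓞 L))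
    (x : L) : ℤ := WithZero.log (v.valuation L x)

theorem t7d_lv_mul {L : Type*} [Field L] [NumberField L] (v : HeightOneSpectrum (𝓞 L))
    {x y : L} (hx : x ≠ 0) (hy : y ≠ 0) : t7d_lv v (x * y) = t7d_lv v x + t7d_lv v y := by
  unfold t7d_lv
  rw [map_mul, WithZero.log_mul]
  · exact (Valuation.ne_zero_iff _).2 hx
  · exact (Valuation.ne_zero_iff _).2 hy

theorem t7d_lv_inv {L : Type*} [Field L] [NumberField L] (v : HeightOneSpectrum (𝓞 L))
    (x : L) : t7d_lv v x⁻¹ = -t7d_lv v x := by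
  unfold t7d_lv
  rw [map_inv₀, WithZero.log_inv]

theorem t7d_even_iff {L : Type*} [Field L] [NumberField L] (v : HeightOneSpectrum (𝓞 L))
    {x : L} (hx : x ≠ 0) : EvenAt v x ↔ Even (t7d_lv v x) := by
  constructor
  · rintro ⟨t, ht, h⟩
    have h1 : t7d_lv v (x * t ^ 2) = 0 := by
      unfold t7d_lv
      rw [h, WithZero.log_one]
    rw [pow_two, t7d_lv_mul v hx (mul_ne_zero ht ht), t7d_lv_mul v ht ht] at h1
    exact ⟨-t7d_lv v t, by linarith⟩
  · rintro ⟨n, hn⟩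
    obtain ⟨t, ht⟩ := v.valuation_surjective L (WithZero.exp (-n))
    have ht0 : t ≠ 0 := by
      rintro rfl
      rw [map_zero] at ht
      exact WithZero.exp_ne_zero ht.symm
    refine ⟨t, ht0, ?_⟩
    have hvx : v.valuation L x = WithZero.exp (n + n) := by
      rw [← hn]
      unfold t7d_lv
      rw [WithZero.exp_log]
      exact (Valuation.ne_zero_iff _).2 hx
    rw [map_mul, map_pow, ht, hvx, pow_two, ← WithZero.exp_add, ← WithZero.exp_add,
      WithZero.exp_eq_one]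
    ring

theorem t7d_evenAt_equiv {K L : Type*} [Field K] [NumberField K] [Field L] [NumberField L]
    [Algebra K L] (σ : L ≃ₐ[K] L) (w w' : HeightOneSpectrum (𝓞 L))
    (h : ∀ a b : 𝓞 L, σ (a : L) = (b : L) → b ∈ w'.asIdeal → a ∈ w.asIdeal) {x : L}
    (hx : EvenAt w x) : EvenAt w' (σ x) := by
  obtain ⟨t, ht, h1⟩ := hx
  refine ⟨σ t, by simpa using ht, ?_⟩
  rw [← map_pow, ← map_mul]
  obtain ⟨n, d, hnd⟩ := w.exists_primeCompl_mul_eq_of_integer (x * t ^ 2) h1.le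
  have hn : w.valuation L (algebraMap (𝓞 L) L n) = 1 := by
    rw [← hnd, map_mul, h1, one_mul, HeightOneSpectrum.valuation_eq_one_iff_notMem]
    exact d.2
  rw [HeightOneSpectrum.valuation_eq_one_iff_notMem] at hn
  -- images
  have hint : ∀ a : 𝓞 L, ∃ b : 𝓞 L, σ (a : L) = (b : L) := by
    intro a
    exact ⟨⟨σ (a : L), (a.2.map σ.toAlgHom.toRingHom.toIntAlgHom)⟩, rfl⟩
  obtain ⟨n', hn'⟩ := hint n
  obtain ⟨d', hd'⟩ := hint d
  have hn1 : n' ∉ w'.asIdeal := fun hc => hn (h n n' hn' hc)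
  have hd1 : d' ∉ w'.asIdeal := fun hc => d.2 (h d d' hd' hc)
  have h2 : σ (x * t ^ 2) * algebraMap (𝓞 L) L d' = algebraMap (𝓞 L) L n' := by
    have := congrArg σ hnd
    rw [map_mul] at this
    rw [← show σ (algebraMap (𝓞 L) L d) = algebraMap (𝓞 L) L d' from hd',
      ← show σ (algebraMap (𝓞 L) L n) = algebraMap (𝓞 L) L n' from hn']
    exact this
  have h3 := congrArg (w'.valuation L) h2
  rw [map_mul, (HeightOneSpectrum.valuation_eq_one_iff_notMem w').2 hd1,
    (HeightOneSpectrum.valuation_eq_one_iff_notMem w').2 hn1, mul_one] at h3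
  exact h3

theorem t7d_finite {L : Type*} [Field L] [NumberField L] {x : L} (hx : x ≠ 0) :
    {w : HeightOneSpectrum (𝓞 L) | ¬ EvenAt w x}.Finite := by
  apply Set.Finite.subset ((HeightOneSpectrum.Support.finite (𝓞 L) x).union
    (HeightOneSpectrum.Support.finite (𝓞 L) x⁻¹))
  intro w hw
  by_contra hc
  apply hw
  rw [Set.mem_union, not_or] at hc
  have h1 : w.valuation L x ≤ 1 := not_lt.1 hc.1
  have h2 : w.valuation L x⁻¹ ≤ 1 := not_lt.1 hc.2
  refine ⟨1, one_ne_zero, ?_⟩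
  rw [one_pow, mul_one]
  apply le_antisymm h1
  have h4 : w.valuation L x * w.valuation L x⁻¹ = 1 := by
    rw [← map_mul, mul_inv_cancel₀ hx, map_one]
  calc (1 : WithZero (Multiplicative ℤ)) = w.valuation L x * w.valuation L x⁻¹ := h4.symm
    _ ≤ w.valuation L x * 1 := by gcongr
    _ = w.valuation L x := mul_one _

/-- Restricting the primes. -/
noncomputable def t7d_under {K L : Type*} [Field K] [NumberField K] [Field L] [NumberField L]
    [Algebra K L] (w : HeightOneSpectrum (𝓞 L)) : HeightOneSpectrum (𝓞 K) where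
  asIdeal := w.asIdeal.under (𝓞 K)
  isPrime := inferInstance
  ne_bot := by
    have h : w.asIdeal.under (𝓞 K) ≠ ⊥ := by
      intro h
      exact w.ne_bot (Ideal.eq_bot_of_comap_eq_bot h)
    exact h

theorem t7d_lv_unram {K L : Type} [Field K] [NumberField K] [Field L] [NumberField L]
    [Algebra K L] (hu : Unram K L) (w : HeightOneSpectrum (𝓞 L)) (y : K) :
    t7d_lv w (algebraMap K L y) = t7d_lv (t7d_under w : HeightOneSpectrum (𝓞 K)) y := by
  unfold t7d_lv
  have hlies : w.asIdeal.LiesOver (t7d_under w : HeightOneSpectrum (𝓞 K)).asIdeal :=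
    ⟨rfl⟩
  have h := HeightOneSpectrum.valuation_liesOver L (t7d_under w : HeightOneSpectrum (𝓞 K)) w y
  have he : (t7d_under w : HeightOneSpectrum (𝓞 K)).asIdeal.ramificationIdx' w.asIdeal = 1 := by
    rw [Ideal.ramificationIdx'_eq_ramificationIdx _ _
      (t7d_under w : HeightOneSpectrum (𝓞 K)).ne_bot]
    exact hu w.asIdeal w.isPrime w.ne_bot
  rw [he, pow_one] at h
  rw [← h]

theorem t7d_five {K L : Type*} [Field K] [NumberField K] [Field L] [NumberField L]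
    [Algebra K L] (w : HeightOneSpectrum (𝓞 L)) :
    (5 : 𝓞 K) ∈ (t7d_under w : HeightOneSpectrum (𝓞 K)).asIdeal ↔ (5 : 𝓞 L) ∈ w.asIdeal := by
  change algebraMap (𝓞 K) (𝓞 L) 5 ∈ w.asIdeal ↔ _
  rw [map_ofNat]

/-- transitivity of the Galois group: parities only depend on the prime below. -/
theorem t7d_transitive {K L : Type} [Field K] [NumberField K] [Field L] [NumberField L]
    [Algebra K L] [IsGalois K L] {x : Lˣ} (hx : x ∈ XX K L) {w w' : HeightOneSpectrum (𝓞 L)}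
    (hw : (t7d_under w : HeightOneSpectrum (𝓞 K)) = t7d_under w') (h : EvenAt w (x : L)) :
    EvenAt w' (x : L) := by
  have h1 : w.asIdeal ∈ (t7d_under w : HeightOneSpectrum (𝓞 K)).asIdeal.primesOver (𝓞 L) :=
    ⟨w.isPrime, ⟨rfl⟩⟩
  have h2 : w'.asIdeal ∈ (t7d_under w : HeightOneSpectrum (𝓞 K)).asIdeal.primesOver (𝓞 L) := by
    rw [hw]
    exact ⟨w'.isPrime, ⟨rfl⟩⟩
  obtain ⟨σ, hσ⟩ := Ideal.exists_comap_galRestrict_eq (𝓞 K) K L (𝓞 L) h2 h1
  have h3 : EvenAt w' (σ (x : L)) := by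
    apply t7d_evenAt_equiv σ w w' _ h
    intro a b hab hb
    rw [← hσ, Ideal.mem_comap]
    have h4 : galRestrict (𝓞 K) K L (𝓞 L) σ a = b := by
      apply RingOfIntegers.ext
      rw [← hab]
      exact algebraMap_galRestrict_apply (𝓞 K) σ a
    rw [h4]
    exact hb
  obtain ⟨t, ht, h5⟩ := hx σ
  obtain ⟨u, hu, h6⟩ := h3
  refine ⟨t * u, mul_ne_zero ht hu, ?_⟩
  rw [← h6, h5]
  congr 1
  ring

/-- Exponent of `v` in an ideal. -/
noncomputable def t7d_cnt {K : Type*} [Field K] [NumberField K] (v : HeightOneSpectrum (𝓞 K))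
    (I : Ideal (𝓞 K)) : ℤ :=
  FractionalIdeal.count K v (I : FractionalIdeal (𝓞 K)⁰ K)

theorem t7d_cnt_mul {K : Type*} [Field K] [NumberField K] (v : HeightOneSpectrum (𝓞 K))
    {I J : Ideal (𝓞 K)} (hI : I ≠ ⊥) (hJ : J ≠ ⊥) :
    t7d_cnt v (I * J) = t7d_cnt v I + t7d_cnt v J := by
  unfold t7d_cnt
  rw [FractionalIdeal.coeIdeal_mul, FractionalIdeal.count_mul]
  · exact FractionalIdeal.coeIdeal_ne_zero.2 hI
  · exact FractionalIdeal.coeIdeal_ne_zero.2 hJ

theorem t7d_cnt_span {K : Type*} [Field K] [NumberField K] (v : HeightOneSpectrum (𝓞 K))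
    {r : 𝓞 K} (hr : r ≠ 0) : t7d_cnt v (Ideal.span {r}) = -t7d_lv v (r : K) := by
  classical
  unfold t7d_cnt t7d_lv
  rw [FractionalIdeal.count_coe K v (by simpa using hr)]
  have h : v.valuation K (r : K) = v.intValuation r := HeightOneSpectrum.valuation_of_algebraMap v r
  rw [h, HeightOneSpectrum.intValuation_if_neg v hr, WithZero.log_exp, neg_neg]

theorem t7d_cnt_prime {K : Type*} [Field K] [NumberField K] (v w : HeightOneSpectrum (𝓞 K)) :
    t7d_cnt v w.asIdeal = open Classical in if w = v then 1 else 0 := by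
  classical
  unfold t7d_cnt
  rw [FractionalIdeal.count_maximal]

theorem t7d_prod_ne {K : Type*} [Field K] [NumberField K]
    (S : Finset (HeightOneSpectrum (𝓞 K))) : (∏ w ∈ S, w.asIdeal) ≠ ⊥ := by
  have : ∀ w ∈ S, w.asIdeal ≠ 0 := fun w _ => w.ne_bot
  exact Finset.prod_ne_zero_iff.2 this

theorem t7d_cnt_prod {K : Type*} [Field K] [NumberField K] (v : HeightOneSpectrum (𝓞 K))
    (S : Finset (HeightOneSpectrum (𝓞 K))) :
    (∏ w ∈ S, w.asIdeal) ≠ ⊥ ∧
    t7d_cnt v (∏ w ∈ S, w.asIdeal) = open Classical in if v ∈ S then 1 else 0 := by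
  classical
  induction S using Finset.induction with
  | empty =>
    refine ⟨?_, ?_⟩
    · rw [Finset.prod_empty, Ideal.one_eq_top]
      exact top_ne_bot
    · unfold t7d_cnt
      rw [Finset.prod_empty, Ideal.one_eq_top, FractionalIdeal.coeIdeal_top,
        FractionalIdeal.count_one]
      simp
  | insert w S hw ih =>
    rw [Finset.prod_insert hw]
    refine ⟨mul_ne_zero w.ne_bot ih.1, ?_⟩
    rw [t7d_cnt_mul v w.ne_bot ih.1, ih.2, t7d_cnt_prime]
    by_cases h1 : w = v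
    · subst h1
      simp [hw]
    · have h2 : v ≠ w := fun h => h1 h.symm
      simp [h1, h2]

/-- elements of `WW` are represented by ideals with even exponents away from `5`. -/
theorem t7d_WW {K : Type} [Field K] [NumberField K] {c : ClassGroup (𝓞 K)} (hc : c ∈ WW K) :
    ∃ b : (Ideal (𝓞 K))⁰, ClassGroup.mk0 b = c ∧
      ∀ v : HeightOneSpectrum (𝓞 K), (5 : 𝓞 K) ∉ v.asIdeal → Even (t7d_cnt v (b : Ideal (𝓞 K))) := by
  have hne : ∀ b : (Ideal (𝓞 K))⁰, (b : Ideal (𝓞 K)) ≠ ⊥ := fun b => nonZeroDivisors.coe_ne_zero b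
  have hmul : ∀ {c c' : ClassGroup (𝓞 K)},
      (∃ b : (Ideal (𝓞 K))⁰, ClassGroup.mk0 b = c ∧
      ∀ v : HeightOneSpectrum (𝓞 K), (5 : 𝓞 K) ∉ v.asIdeal → Even (t7d_cnt v (b : Ideal (𝓞 K)))) →
      (∃ b : (Ideal (𝓞 K))⁰, ClassGroup.mk0 b = c' ∧
      ∀ v : HeightOneSpectrum (𝓞 K), (5 : 𝓞 K) ∉ v.asIdeal → Even (t7d_cnt v (b : Ideal (𝓞 K)))) →
      (∃ b : (Ideal (𝓞 K))⁰, ClassGroup.mk0 b = c * c' ∧
      ∀ v : HeightOneSpectrum (𝓞 K), (5 : 𝓞 K) ∉ v.asIdeal → Even (t7d_cnt v (b : Ideal (𝓞 K)))) := by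
    rintro c c' ⟨b, hb, h1⟩ ⟨b', hb', h2⟩
    refine ⟨b * b', by rw [map_mul, hb, hb'], ?_⟩
    intro v hv
    rw [Submonoid.coe_mul, t7d_cnt_mul v (hne b) (hne b')]
    exact (h1 v hv).add (h2 v hv)
  have hsq : ∀ c : ClassGroup (𝓞 K),
      (∃ b : (Ideal (𝓞 K))⁰, ClassGroup.mk0 b = c ^ 2 ∧
      ∀ v : HeightOneSpectrum (𝓞 K), (5 : 𝓞 K) ∉ v.asIdeal → Even (t7d_cnt v (b : Ideal (𝓞 K)))) := by
    intro c
    obtain ⟨b, rfl⟩ := ClassGroup.mk0_surjective c
    refine ⟨b * b, by rw [map_mul, pow_two], ?_⟩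
    intro v _
    rw [Submonoid.coe_mul, t7d_cnt_mul v (hne b) (hne b)]
    exact ⟨_, rfl⟩
  let Q : Subgroup (ClassGroup (𝓞 K)) :=
    { carrier := {c | ∃ b : (Ideal (𝓞 K))⁰, ClassGroup.mk0 b = c ∧
        ∀ v : HeightOneSpectrum (𝓞 K), (5 : 𝓞 K) ∉ v.asIdeal →
          Even (t7d_cnt v (b : Ideal (𝓞 K)))}
      mul_mem' := fun h1 h2 => hmul h1 h2
      one_mem' := by
        have := hsq 1
        rw [one_pow] at this
        exact this
      inv_mem' := by
        intro c h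
        have h1 := hmul (hsq c⁻¹) h
        have h2 : c⁻¹ ^ 2 * c = c⁻¹ := by
          rw [pow_two, mul_assoc, inv_mul_cancel, mul_one]
        rw [h2] at h1
        exact h1 }
  have hle : WW K ≤ Q := by
    unfold WW
    apply sup_le
    · rintro _ ⟨c, rfl⟩
      exact hsq c
    · rw [Subgroup.closure_le]
      rintro c ⟨𝔮, hp, h5, rfl⟩
      refine ⟨𝔮, rfl, ?_⟩
      intro v hv
      have h1 := t7d_cnt_prime v ⟨(𝔮 : Ideal (𝓞 K)), hp, hne 𝔮⟩
      change Even (t7d_cnt v (⟨(𝔮 : Ideal (𝓞 K)), hp, hne 𝔮⟩ : HeightOneSpectrum (𝓞 K)).asIdeal)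
      rw [h1, if_neg]
      · exact Even.zero
      · intro h
        apply hv
        rw [← h]
        exact h5
  exact hle hc

/-- `[XX : Kˣ Lˣ² (VV ⊓ XX)] ≤ [Cl(K) : WW]`.

Proof. For `x ∈ XX` the parity of `v_𝔔(x)` depends only on the prime `𝔮` of `K` below `𝔔`
(transitivity and `σx = x·□`). `x ↦ [∏ 𝔮] ∈ Cl/WW`, product over the (finitely many) `𝔮 ∤ 5` with odd
parity, is a homomorphism. If it is trivial on `x` then some `y ∈ Kˣ` has the same parities as `x` at
all `𝔮 ∤ 5` (`L/K` unramified: `v_𝔔(y) = v_𝔮(y)`), so `x/y ∈ VV ⊓ XX`. -/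
theorem XX_index (K L : Type) [Field K] [NumberField K] [Field L] [NumberField L]
    [Algebra K L] (hL : Good K L) :
    (KSq K L ⊔ (VV L ⊓ XX K L)).relIndex (XX K L) ≠ 0 ∧
    (KSq K L ⊔ (VV L ⊓ XX K L)).relIndex (XX K L) ≤ (WW K).index := by
  classical
  have hgal : IsGalois K L := hL.gal
  have hfin : ∀ x : XX K L, {v : HeightOneSpectrum (𝓞 K) | (5 : 𝓞 K) ∉ v.asIdeal ∧
      ∃ w : HeightOneSpectrum (𝓞 L), t7d_under w = v ∧ ¬ EvenAt w ((x : Lˣ) : L)}.Finite := by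
    intro x
    apply Set.Finite.subset ((t7d_finite (x : Lˣ).ne_zero).image
      (fun w => (t7d_under w : HeightOneSpectrum (𝓞 K))))
    rintro v ⟨_, w, hw, hx⟩
    exact ⟨w, hx, hw⟩
  let S : XX K L → Finset (HeightOneSpectrum (𝓞 K)) := fun x => (hfin x).toFinset
  have hS : ∀ (x : XX K L) (v : HeightOneSpectrum (𝓞 K)), v ∈ S x ↔ ((5 : 𝓞 K) ∉ v.asIdeal ∧
      ∃ w : HeightOneSpectrum (𝓞 L), t7d_under w = v ∧ ¬ EvenAt w ((x : Lˣ) : L)) := by
    intro x v
    exact Set.Finite.mem_toFinset _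
  have hS' : ∀ (x : XX K L) (w : HeightOneSpectrum (𝓞 L)), (5 : 𝓞 L) ∉ w.asIdeal →
      ((t7d_under w : HeightOneSpectrum (𝓞 K)) ∈ S x ↔ ¬ Even (t7d_lv w ((x : Lˣ) : L))) := by
    intro x w h5
    rw [hS, ← t7d_even_iff w (x : Lˣ).ne_zero]
    constructor
    · rintro ⟨_, w', hw', hx'⟩ hx
      exact hx' (t7d_transitive x.2 hw'.symm hx)
    · intro hx
      exact ⟨fun h => h5 ((t7d_five w).1 h), w, rfl, hx⟩
  have hne : ∀ b : (Ideal (𝓞 K))⁰, (b : Ideal (𝓞 K)) ≠ ⊥ := fun b => nonZeroDivisors.coe_ne_zero b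
  let I : XX K L → (Ideal (𝓞 K))⁰ := fun x => ⟨∏ w ∈ S x, w.asIdeal,
    mem_nonZeroDivisors_iff_ne_zero.2 (t7d_prod_ne (S x))⟩
  let f : XX K L → ClassGroup (𝓞 K) ⧸ WW K := fun x => QuotientGroup.mk (ClassGroup.mk0 (I x))
  have hfinT : Finite (ClassGroup (𝓞 K) ⧸ WW K) := inferInstance
  apply t7d_index_le ((KSq K L ⊔ (VV L ⊓ XX K L)).subgroupOf (XX K L)) f
  intro x y hxy
  rw [Subgroup.mem_subgroupOf]
  -- equality of classes modulo WW
  have h1 : (ClassGroup.mk0 (I x))⁻¹ * ClassGroup.mk0 (I y) ∈ WW K := QuotientGroup.eq.1 hxy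
  obtain ⟨b, hb, hbev⟩ := t7d_WW h1
  have h2 : ClassGroup.mk0 (I x * b) = ClassGroup.mk0 (I y) := by
    rw [map_mul, hb, mul_inv_cancel_left]
  rw [ClassGroup.mk0_eq_mk0_iff] at h2
  obtain ⟨α, β, hα, hβ, hαβ⟩ := h2
  rw [Submonoid.coe_mul] at hαβ
  have hα' : Ideal.span {α} ≠ ⊥ := by simpa using hα
  have hβ' : Ideal.span {β} ≠ ⊥ := by simpa using hβ
  have hαK : (α : K) ≠ 0 := RingOfIntegers.coe_ne_zero_iff.2 hα
  have hβK : (β : K) ≠ 0 := RingOfIntegers.coe_ne_zero_iff.2 hβ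
  -- parities
  have hcnt : ∀ v : HeightOneSpectrum (𝓞 K),
      -t7d_lv v (α : K) + ((if v ∈ S x then 1 else 0) + t7d_cnt v (b : Ideal (𝓞 K))) =
      -t7d_lv v (β : K) + (if v ∈ S y then 1 else 0) := by
    intro v
    have h3 := congrArg (t7d_cnt v) hαβ
    rw [t7d_cnt_mul v hα' (mul_ne_zero (hne (I x)) (hne b)), t7d_cnt_mul v hβ' (hne (I y)),
      t7d_cnt_mul v (hne (I x)) (hne b), t7d_cnt_span v hα, t7d_cnt_span v hβ] at h3
    have h4 : t7d_cnt v (I x : Ideal (𝓞 K)) = if v ∈ S x then 1 else 0 :=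
      (t7d_cnt_prod v (S x)).2
    have h5 : t7d_cnt v (I y : Ideal (𝓞 K)) = if v ∈ S y then 1 else 0 :=
      (t7d_cnt_prod v (S y)).2
    rw [h4, h5] at h3
    exact h3
  -- the element of `K`
  set y₀ : K := (α : K) * (β : K) with hy₀
  have hy₀0 : y₀ ≠ 0 := mul_ne_zero hαK hβK
  have hyL : algebraMap K L y₀ ≠ 0 := (map_ne_zero _).2 hy₀0
  let u : Lˣ := Units.map (algebraMap K L : K →* L) (Units.mk0 y₀ hy₀0)
  have hu : (u : L) = algebraMap K L y₀ := rfl
  have huX : u ∈ XX K L := by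
    intro σ
    refine ⟨1, one_ne_zero, ?_⟩
    rw [hu, AlgEquiv.commutes]
    ring
  have hz : (x : Lˣ)⁻¹ * y * u⁻¹ ∈ VV L ⊓ XX K L := by
    refine ⟨?_, (XX K L).mul_mem ((XX K L).mul_mem ((XX K L).inv_mem x.2) y.2)
      ((XX K L).inv_mem huX)⟩
    intro w h5
    rw [t7d_even_iff w (Units.ne_zero _)]
    have e1 : (((x : Lˣ)⁻¹ * y * u⁻¹ : Lˣ) : L) = ((x : Lˣ) : L)⁻¹ * ((y : Lˣ) : L) *
        (algebraMap K L y₀)⁻¹ := by
      push_cast
      rw [hu]
    rw [e1, t7d_lv_mul w (mul_ne_zero (inv_ne_zero (x : Lˣ).ne_zero) (y : Lˣ).ne_zero)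
      (inv_ne_zero hyL), t7d_lv_mul w (inv_ne_zero (x : Lˣ).ne_zero) (y : Lˣ).ne_zero,
      t7d_lv_inv, t7d_lv_inv, t7d_lv_unram hL.unram, hy₀, t7d_lv_mul _ hαK hβK]
    have h6 := hcnt (t7d_under w)
    have h7 := hS' x w h5
    have h8 := hS' y w h5
    have h9 := hbev (t7d_under w) (fun h => h5 ((t7d_five w).1 h))
    generalize t7d_lv w ((x : Lˣ) : L) = a1 at *
    generalize t7d_lv w ((y : Lˣ) : L) = a2 at *
    generalize t7d_lv (t7d_under w : HeightOneSpectrum (𝓞 K)) (α : K) = a3 at *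
    generalize t7d_lv (t7d_under w : HeightOneSpectrum (𝓞 K)) (β : K) = a4 at *
    generalize t7d_cnt (t7d_under w : HeightOneSpectrum (𝓞 K)) (b : Ideal (𝓞 K)) = a5 at *
    by_cases hx1 : (t7d_under w : HeightOneSpectrum (𝓞 K)) ∈ S x <;>
    by_cases hy1 : (t7d_under w : HeightOneSpectrum (𝓞 K)) ∈ S y <;>
    simp only [hx1, hy1, if_true, if_false, true_iff, false_iff, not_not] at h6 h7 h8 <;>
    simp only [Int.even_iff] at * <;>
    omega
  have hfinal : ((x⁻¹ * y : XX K L) : Lˣ) = u * ((x : Lˣ)⁻¹ * y * u⁻¹) := by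
    rw [Subgroup.coe_mul, Subgroup.coe_inv]
    rw [mul_comm ((x : Lˣ)⁻¹ * y) u⁻¹, mul_inv_cancel_left]
  rw [hfinal]
  apply Subgroup.mul_mem
  · apply Subgroup.mem_sup_left
    unfold KSq
    apply Subgroup.mem_sup_left
    exact ⟨Units.mk0 y₀ hy₀0, rfl⟩
  · exact Subgroup.mem_sup_right hz

/-- `(Kˣ ∩ Lˣ²)/Kˣ²` embeds in `Hom(Gal(L/K), ±1)` by `x ↦ (σ ↦ σ(√x)/√x)`. -/
theorem kummer_kernel (K L : Type) [Field K] [NumberField K] [Field L] [NumberField L]
    [Algebra K L] [IsGalois K L] :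
    (SqG K).relIndex ((SqG L).comap (Units.map (algebraMap K L : K →* L))) ≠ 0 ∧
    (SqG K).relIndex ((SqG L).comap (Units.map (algebraMap K L : K →* L)))
      ≤ Nat.card ((L ≃ₐ[K] L) →* ℤˣ) := by
  classical
  set C := (SqG L).comap (Units.map (algebraMap K L : K →* L)) with hC
  -- square roots
  have hroot : ∀ x : C, ∃ s : Lˣ, s ^ 2 = Units.map (algebraMap K L : K →* L) (x : Kˣ) := by
    intro x
    have hx : Units.map (algebraMap K L : K →* L) (x : Kˣ) ∈ SqG L := x.2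
    obtain ⟨s, hs⟩ := hx
    exact ⟨s, hs⟩
  choose s hs using hroot
  have hsL : ∀ x : C, ((s x : Lˣ) : L) ^ 2 = algebraMap K L ((x : Kˣ) : K) := by
    intro x
    have := congrArg (fun u : Lˣ => (u : L)) (hs x)
    simpa using this
  have hsign : ∀ (x : C) (σ : L ≃ₐ[K] L), σ (s x : L) = s x ∨ σ (s x : L) = -(s x : L) := by
    intro x σ
    apply sq_eq_sq_iff_eq_or_eq_neg.1
    rw [← map_pow, hsL x, AlgEquiv.commutes]
  have hs0 : ∀ x : C, (s x : L) ≠ 0 := fun x => (s x).ne_zero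
  have hne : ∀ x : C, (s x : L) ≠ -(s x : L) := by
    intro x h
    have h2 : (2 : L) * (s x : L) = 0 := by linear_combination h
    rcases mul_eq_zero.1 h2 with h3 | h3
    · exact two_ne_zero h3
    · exact hs0 x h3
  -- the character
  let χ : C → ((L ≃ₐ[K] L) →* ℤˣ) := fun x =>
    { toFun := fun σ => if σ (s x : L) = s x then 1 else -1
      map_one' := by simp
      map_mul' := by
        intro σ τ
        have hστ : (σ * τ) (s x : L) = σ (τ (s x : L)) := rfl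
        rcases hsign x σ with h1 | h1 <;> rcases hsign x τ with h2 | h2
        · rw [if_pos h1, if_pos h2, hστ, h2, h1, if_pos rfl, mul_one]
        · have h3 : τ (s x : L) ≠ s x := by rw [h2]; exact (hne x).symm
          rw [if_pos h1, if_neg h3, hστ, h2, map_neg, h1, if_neg (hne x).symm, one_mul]
        · have h3 : σ (s x : L) ≠ s x := by rw [h1]; exact (hne x).symm
          rw [if_neg h3, if_pos h2, hστ, h2, h1, if_neg (hne x).symm, mul_one]
        · have h3 : σ (s x : L) ≠ s x := by rw [h1]; exact (hne x).symm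
          have h4 : τ (s x : L) ≠ s x := by rw [h2]; exact (hne x).symm
          rw [if_neg h3, if_neg h4, hστ, h2, map_neg, h1, neg_neg, if_pos rfl]
          simp }
  have hχ : ∀ (x : C) (σ : L ≃ₐ[K] L), χ x σ = if σ (s x : L) = s x then 1 else -1 :=
    fun _ _ => rfl
  have hfin : Finite ((L ≃ₐ[K] L) →* ℤˣ) := by
    apply Finite.of_injective (fun (f : (L ≃ₐ[K] L) →* ℤˣ) => (f : (L ≃ₐ[K] L) → ℤˣ))
    exact DFunLike.coe_injective
  have key := t7d_index_le ((SqG K).subgroupOf C) χ (by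
    intro x y hxy
    rw [Subgroup.mem_subgroupOf]
    -- `t = s y / s x` is fixed by the Galois group
    have hfix : ∀ σ : L ≃ₐ[K] L, σ ((s y : L) / (s x : L)) = (s y : L) / (s x : L) := by
      intro σ
      have h := congrArg (fun f : (L ≃ₐ[K] L) →* ℤˣ => f σ) hxy
      simp only [hχ] at h
      rw [map_div₀]
      rcases hsign x σ with h1 | h1 <;> rcases hsign y σ with h2 | h2
      · rw [h1, h2]
      · rw [if_pos h1, if_neg (by rw [h2]; exact (hne y).symm)] at h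
        exact absurd h (by decide)
      · rw [if_neg (by rw [h1]; exact (hne x).symm), if_pos h2] at h
        exact absurd h (by decide)
      · rw [h1, h2, neg_div_neg_eq]
    have hmem : ((s y : L) / (s x : L)) ∈ Set.range (algebraMap K L) := by
      rw [IsGalois.mem_range_algebraMap_iff_fixed]
      exact hfix
    obtain ⟨t, ht⟩ := hmem
    have ht0 : t ≠ 0 := by
      rintro rfl
      rw [map_zero] at ht
      exact (div_ne_zero (hs0 y) (hs0 x)) ht.symm
    refine ⟨Units.mk0 t ht0, ?_⟩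
    apply Units.ext
    apply (algebraMap K L).injective
    have hx0 : algebraMap K L ((x : Kˣ) : K) ≠ 0 := by
      rw [← hsL x]
      exact pow_ne_zero _ (hs0 x)
    simp only [powMonoidHom_apply, Units.val_pow_eq_pow_val, Units.val_mk0, map_pow, ht,
      Subgroup.coe_mul, Subgroup.coe_inv, Units.val_mul, Units.val_inv_eq_inv_val, map_mul,
      map_inv₀, div_pow, hsL]
    field_simp)
  exact key

end Crest.Agent.HB
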