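import Crest.Agent.HB.RelE1
import Crest.Agent.HB.RelE2
import Crest.Agent.HB.RelE3
import Crest.Agent.HB.RelE4

/-! Row 32 (S0042), chunk T7: the bound `r ≤ d + 3`. -/
set_option autoImplicit false

open NumberField IsDedekindDomain
open scoped nonZeroDivisors

namespace Crest.Agent.HB

theorem SqG_le_XX (K L : Type) [Field K] [Field L] [Algebra K L] : SqG L ≤ XX K L := by
  rintro _ ⟨y, rfl⟩ σ
  refine ⟨σ (y : L) / y, div_ne_zero (by simp) (by simp), ?_⟩
  have : (y : L) ≠ 0 := y.ne_zero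
  simp only [powMonoidHom_apply, Units.val_pow_eq_pow_val, map_pow]
  field_simp

theorem SqG_le_VV (L : Type) [Field L] [NumberField L] : SqG L ≤ VV L := by
  rintro _ ⟨y, rfl⟩ v _
  refine ⟨(y : L)⁻¹, inv_ne_zero y.ne_zero, ?_⟩
  have : (y : L) ≠ 0 := y.ne_zero
  have h : ((powMonoidHom 2 y : Lˣ) : L) * (y : L)⁻¹ ^ 2 = 1 := by
    simp only [powMonoidHom_apply, Units.val_pow_eq_pow_val]
    field_simp
  rw [h, map_one]

theorem KSq_le_XX (K L : Type) [Field K] [Field L] [Algebra K L] : KSq K L ≤ XX K L := by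
  refine sup_le ?_ (SqG_le_XX K L)
  rintro _ ⟨y, rfl⟩ σ
  exact ⟨1, one_ne_zero, by simp⟩

/-- A `K`-valuation unit is an `L`-valuation unit. -/
theorem evenAt_up (K L : Type) [Field K] [NumberField K] [Field L] [NumberField L] [Algebra K L]
    (x : K) (w : HeightOneSpectrum (𝓞 L)) (v : HeightOneSpectrum (𝓞 K))
    (hv : v.asIdeal = w.asIdeal.under (𝓞 K)) (h : EvenAt v x) : EvenAt w (algebraMap K L x) := by
  obtain ⟨t, ht, h⟩ := h
  refine ⟨algebraMap K L t, by simpa using ht, ?_⟩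
  rw [← map_pow, ← map_mul]
  generalize x * t ^ 2 = y at h
  -- `y` is a unit at `v`: write `y = a / b` with `a, b ∉ v`
  have hy0 : y ≠ 0 := by rintro rfl; simp at h
  obtain ⟨a, b, ha, hb, hab⟩ : ∃ a b : 𝓞 K, a ∉ v.asIdeal ∧ b ∉ v.asIdeal ∧
      y = (algebraMap (𝓞 K) K a) / (algebraMap (𝓞 K) K b) := by
    obtain ⟨a, ⟨b, hb⟩, hab⟩ := HeightOneSpectrum.exists_primeCompl_mul_eq_of_integer v y h.le
    have hb1 : v.intValuation b = 1 := (v.intValuation_eq_one_iff_mem_primeCompl b).2 hb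
    have hb' : b ∉ v.asIdeal := hb
    have hb0 : algebraMap (𝓞 K) K b ≠ 0 := by
      intro h0
      apply hb'
      have : b = 0 := by
        apply FaithfulSMul.algebraMap_injective (𝓞 K) K
        simpa using h0
      rw [this]; exact Ideal.zero_mem _
    refine ⟨a, b, ?_, hb', ?_⟩
    · have : v.intValuation a = 1 := by
        have e1 : v.valuation K (algebraMap (𝓞 K) K a) = v.intValuation a :=
          v.valuation_of_algebraMap a
        have e2 : v.valuation K (algebraMap (𝓞 K) K b) = v.intValuation b :=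
          v.valuation_of_algebraMap b
        have hab' : y * (algebraMap (𝓞 K) K) b = (algebraMap (𝓞 K) K) a := hab
        rw [← e1, ← hab', map_mul, h, e2, hb1, one_mul]
      exact (v.intValuation_eq_one_iff_mem_primeCompl a).1 this
    · rw [eq_div_iff hb0]; exact hab
  have ha' : algebraMap (𝓞 K) (𝓞 L) a ∉ w.asIdeal := by
    rw [hv] at ha; exact ha
  have hb' : algebraMap (𝓞 K) (𝓞 L) b ∉ w.asIdeal := by
    rw [hv] at hb; exact hb
  have e1 : algebraMap K L (algebraMap (𝓞 K) K a) =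
      algebraMap (𝓞 L) L (algebraMap (𝓞 K) (𝓞 L) a) := rfl
  have e2 : algebraMap K L (algebraMap (𝓞 K) K b) =
      algebraMap (𝓞 L) L (algebraMap (𝓞 K) (𝓞 L) b) := rfl
  rw [hab, map_div₀, e1, e2, map_div₀, HeightOneSpectrum.valuation_of_algebraMap,
    HeightOneSpectrum.valuation_of_algebraMap]
  have k1 : w.intValuation (algebraMap (𝓞 K) (𝓞 L) a) = 1 := by
    by_contra hne
    exact ha' (by
      have := (w.intValuation_lt_one_iff_mem _).1 (lt_of_le_of_ne (w.intValuation_le_one _) hne)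
      exact this)
  have k2 : w.intValuation (algebraMap (𝓞 K) (𝓞 L) b) = 1 := by
    by_contra hne
    exact hb' (by
      have := (w.intValuation_lt_one_iff_mem _).1 (lt_of_le_of_ne (w.intValuation_le_one _) hne)
      exact this)
  rw [k1, k2, div_one]

/-- For `w` a prime of `L` the prime of `K` below. -/
theorem exists_below (K L : Type) [Field K] [NumberField K] [Field L] [NumberField L] [Algebra K L]
    (w : HeightOneSpectrum (𝓞 L)) :
    ∃ v : HeightOneSpectrum (𝓞 K), v.asIdeal = w.asIdeal.under (𝓞 K) := by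
  refine ⟨⟨w.asIdeal.under (𝓞 K), ?_, ?_⟩, rfl⟩
  · exact w.isPrime.under _
  · intro h
    exact w.ne_bot (Ideal.eq_bot_of_comap_eq_bot h)

theorem VV_map_le (K L : Type) [Field K] [NumberField K] [Field L] [NumberField L] [Algebra K L] :
    (VV K).map (Units.map (algebraMap K L : K →* L)) ≤ VV L := by
  rintro _ ⟨x, hx, rfl⟩ w hw
  obtain ⟨v, hv⟩ := exists_below K L w
  have h5 : (5 : 𝓞 K) ∉ v.asIdeal := by
    rw [hv]
    intro h
    apply hw
    have : algebraMap (𝓞 K) (𝓞 L) 5 ∈ w.asIdeal := h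
    rwa [map_ofNat] at this
  exact evenAt_up K L (x : K) w v hv (hx v h5)

theorem rel_bound (K L : Type) [Field K] [NumberField K] [Field L] [NumberField L]
    [Algebra K L] (hK : BaseField K) (hL : Good K L)
    (hmax : ∀ x : L, x ≠ 0 → LocSq x → IsSquare x) {d : ℕ}
    (hd : Nat.card ((L ≃ₐ[K] L) →* ℤˣ) = 2 ^ d) :
    (B2 (L ≃ₐ[K] L)).relIndex (Z2 (L ≃ₐ[K] L)) ≤ 2 ^ (d + 3) := by
  have : IsGalois K L := hL.gal
  set φ : Kˣ →* Lˣ := Units.map (algebraMap K L : K →* L) with hφ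
  set S := SqG L with hS
  set B := KSq K L with hB
  set V := VV L ⊓ XX K L with hV
  set A := XX K L with hA
  obtain ⟨hz0, hz⟩ := XX_index K L hL
  obtain ⟨hk0, hk⟩ := kummer_kernel K L
  obtain ⟨hv0, hv⟩ := VL_card K L hK hL hmax
  have h8 := VK_card K hK
  have ha0 : 0 < (WW K).index := by
    have : Finite (ClassGroup (𝓞 K)) := inferInstance
    exact Nat.pos_of_ne_zero Subgroup.FiniteIndex.index_ne_zero
  have hSV : S ≤ V := le_inf (SqG_le_VV L) (SqG_le_XX K L)
  have hSB : S ≤ B := le_sup_right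
  have hBA : B ≤ A := KSq_le_XX K L
  have hVA : V ≤ A := inf_le_right
  -- [A:B] = [V : B ⊓ V] [A : B ⊔ V]
  have e1 : B.relIndex A = B.relIndex V * (B ⊔ V).relIndex A := by
    rw [← Subgroup.relIndex_mul_relIndex B (B ⊔ V) A le_sup_left (sup_le hBA hVA),
      Subgroup.relIndex_sup_left]
  have e2 : S.relIndex V = S.relIndex (B ⊓ V) * B.relIndex V := by
    rw [← Subgroup.inf_relIndex_right B V,
      Subgroup.relIndex_mul_relIndex S (B ⊓ V) V (le_inf hSB hSV) inf_le_right]
  have hu0 : S.relIndex (B ⊓ V) ≠ 0 := fun h => hv0 (by rw [e2, h, zero_mul])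
  have hw0 : B.relIndex V ≠ 0 := fun h => hv0 (by rw [e2, h, mul_zero])
  -- lower bound for `[B ⊓ V : S]`
  have hmap : (VV K).map φ ≤ B ⊓ V := by
    refine le_inf ?_ (le_inf (VV_map_le K L) ?_)
    · exact le_trans (Subgroup.map_le_range φ (VV K)) le_sup_left
    · refine le_trans ?_ (KSq_le_XX K L)
      exact le_trans (Subgroup.map_le_range φ (VV K)) le_sup_left
  have e3 : (S.comap φ).relIndex (VV K) ≤ S.relIndex (B ⊓ V) := by
    rw [Subgroup.relIndex_comap]
    exact Subgroup.relIndex_le_of_le_right hmap hu0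
  have hSK : SqG K ≤ S.comap φ := by
    rintro _ ⟨y, rfl⟩
    exact ⟨φ y, by simp⟩
  have e4 : (SqG K).relIndex (VV K) ≤ 2 ^ d * (S.comap φ).relIndex (VV K) := by
    have h1 : (SqG K).relIndex (S.comap φ ⊓ VV K) * (S.comap φ ⊓ VV K).relIndex (VV K) =
        (SqG K).relIndex (VV K) :=
      Subgroup.relIndex_mul_relIndex (SqG K) (S.comap φ ⊓ VV K) (VV K)
        (le_inf hSK (SqG_le_VV K)) inf_le_right
    rw [Subgroup.inf_relIndex_right] at h1
    rw [← h1]
    refine Nat.mul_le_mul_right _ ?_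
    refine le_trans (Subgroup.relIndex_le_of_le_right inf_le_left hk0) ?_
    rw [← hd]; exact hk
  have hfin : B.relIndex A ≠ 0 := by
    rw [e1]; exact mul_ne_zero hw0 hz0
  refine le_trans (cocycle_index K L hK hL hfin) ?_
  -- arithmetic
  have h9 : 8 * (WW K).index ≤ 2 ^ d * S.relIndex (B ⊓ V) :=
    le_trans h8 (le_trans e4 (Nat.mul_le_mul_left _ e3))
  have h10 : S.relIndex (B ⊓ V) * B.relIndex V ≤ 64 := by rw [← e2]; exact hv
  have h11 : 8 * ((WW K).index * B.relIndex V) ≤ 8 * (2 ^ (d + 3)) := by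
    calc 8 * ((WW K).index * B.relIndex V) = (8 * (WW K).index) * B.relIndex V := by ring
      _ ≤ (2 ^ d * S.relIndex (B ⊓ V)) * B.relIndex V := Nat.mul_le_mul_right _ h9
      _ = 2 ^ d * (S.relIndex (B ⊓ V) * B.relIndex V) := by ring
      _ ≤ 2 ^ d * 64 := Nat.mul_le_mul_left _ h10
      _ = 8 * (2 ^ (d + 3)) := by ring
  have h12 : (WW K).index * B.relIndex V ≤ 2 ^ (d + 3) := by omega
  calc B.relIndex A = B.relIndex V * (B ⊔ V).relIndex A := e1
    _ ≤ B.relIndex V * (WW K).index := Nat.mul_le_mul_left _ hz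
    _ = (WW K).index * B.relIndex V := mul_comm _ _
    _ ≤ 2 ^ (d + 3) := h12

end Crest.Agent.HB
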