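import Crest.Agent.HB.RelDefs

/-! Row 32 (S0042): counts of fractional ideals, even valuations and squares. -/
set_option autoImplicit false

open NumberField IsDedekindDomain
open scoped nonZeroDivisors

namespace Crest.Agent.HB

open FractionalIdeal

/-- valuation in terms of `FractionalIdeal.count`. -/
theorem valuation_eq_exp_count {L : Type*} [Field L] [NumberField L]
    (v : HeightOneSpectrum (𝓞 L)) (x : L) (hx : x ≠ 0) :
    v.valuation L x = WithZero.exp (-(count L v (spanSingleton (𝓞 L)⁰ x))) := by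
  classical
  obtain ⟨a, b, hb, rfl⟩ := IsFractionRing.div_surjective (A := 𝓞 L) x
  have hb0 : b ≠ 0 := nonZeroDivisors.ne_zero hb
  have ha0 : a ≠ 0 := by
    rintro rfl
    simp at hx
  have key : ∀ c : 𝓞 L, c ≠ 0 → v.valuation L (algebraMap (𝓞 L) L c) =
      WithZero.exp (-(count L v (spanSingleton (𝓞 L)⁰ (algebraMap (𝓞 L) L c)))) := by
    intro c hc
    rw [← coeIdeal_span_singleton]
    have h : Ideal.span {c} ≠ 0 := by
      rw [Ne, Ideal.zero_eq_bot, Ideal.span_singleton_eq_bot]; exact hc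
    rw [count_coe L v h]
    have e : v.valuation L (algebraMap (𝓞 L) L c) = v.intValuation c := v.valuation_of_algebraMap c
    rw [e, v.intValuation_if_neg hc]
  have e1 : spanSingleton (𝓞 L)⁰ (algebraMap (𝓞 L) L a / algebraMap (𝓞 L) L b) *
      spanSingleton (𝓞 L)⁰ (algebraMap (𝓞 L) L b) = spanSingleton (𝓞 L)⁰ (algebraMap (𝓞 L) L a) := by
    rw [spanSingleton_mul_spanSingleton, div_mul_cancel₀]
    simpa using hb0
  have hbL : algebraMap (𝓞 L) L b ≠ 0 := by simpa using hb0
  have e2 : count L v (spanSingleton (𝓞 L)⁰ (algebraMap (𝓞 L) L a / algebraMap (𝓞 L) L b)) +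
      count L v (spanSingleton (𝓞 L)⁰ (algebraMap (𝓞 L) L b)) =
      count L v (spanSingleton (𝓞 L)⁰ (algebraMap (𝓞 L) L a)) := by
    rw [← count_mul L v _ _, e1]
    · exact spanSingleton_ne_zero_iff.2 hx
    · exact spanSingleton_ne_zero_iff.2 hbL
  rw [map_div₀, key a ha0, key b hb0, ← e2, ← WithZero.exp_sub]
  congr 1
  ring

theorem evenAt_iff {L : Type*} [Field L] [NumberField L]
    (v : HeightOneSpectrum (𝓞 L)) (x : L) (hx : x ≠ 0) :
    EvenAt v x ↔ Even (count L v (spanSingleton (𝓞 L)⁰ x)) := by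
  constructor
  · rintro ⟨t, ht, h⟩
    rw [map_mul, map_pow, valuation_eq_exp_count v x hx, valuation_eq_exp_count v t ht,
      ← WithZero.exp_nsmul, ← WithZero.exp_add, ← WithZero.exp_zero, WithZero.exp_inj] at h
    refine ⟨-(count L v (spanSingleton (𝓞 L)⁰ t)), ?_⟩
    rw [nsmul_eq_mul] at h
    push_cast at h
    linarith
  · rintro ⟨k, hk⟩
    obtain ⟨π, hπ⟩ := v.valuation_exists_uniformizer L
    have hπ0 : π ≠ 0 := by
      rintro rfl
      rw [map_zero] at hπ
      exact WithZero.coe_ne_zero hπ.symm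
    refine ⟨π ^ (-k), zpow_ne_zero _ hπ0, ?_⟩
    rw [map_mul, map_pow, map_zpow₀, hπ, valuation_eq_exp_count v x hx, hk,
      ← WithZero.exp_zsmul, ← WithZero.exp_nsmul, ← WithZero.exp_add, ← WithZero.exp_zero]
    congr 1
    simp only [smul_eq_mul, nsmul_eq_mul]
    push_cast
    ring

/-- A fractional ideal with all counts even is a square. -/
theorem exists_sq_of_even {L : Type*} [Field L] [NumberField L]
    (I : (FractionalIdeal (𝓞 L)⁰ L)ˣ)
    (h : ∀ v : HeightOneSpectrum (𝓞 L), Even (count L v (I : FractionalIdeal (𝓞 L)⁰ L))) :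
    ∃ J : (FractionalIdeal (𝓞 L)⁰ L)ˣ, J ^ 2 = I := by
  classical
  choose k hk using h
  have hfin : ∀ᶠ v : HeightOneSpectrum (𝓞 L) in Filter.cofinite, k v = 0 := by
    filter_upwards [finite_factors (K := L) (I : FractionalIdeal (𝓞 L)⁰ L)] with v hv
    have := hk v
    omega
  set F : FractionalIdeal (𝓞 L)⁰ L := ∏ᶠ v : HeightOneSpectrum (𝓞 L),
    (v.asIdeal : FractionalIdeal (𝓞 L)⁰ L) ^ k v with hF
  have hsupp : (Function.mulSupport fun v : HeightOneSpectrum (𝓞 L) =>
      (v.asIdeal : FractionalIdeal (𝓞 L)⁰ L) ^ k v).Finite := by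
    refine Set.Finite.subset (Filter.eventually_cofinite.1 hfin) ?_
    intro v hv h0
    apply hv
    simp [h0]
  have h2 : F * F = I := by
    rw [← finprod_heightOneSpectrum_factorization' L (I := (I : FractionalIdeal (𝓞 L)⁰ L)) I.ne_zero,
      hF, ← finprod_mul_distrib hsupp hsupp]
    apply finprod_congr
    intro v
    rw [hk v, zpow_add₀]
    exact coeIdeal_ne_zero.mpr v.ne_bot
  have hF0 : F ≠ 0 := by
    rintro h0
    rw [h0, zero_mul] at h2
    exact I.ne_zero h2.symm
  refine ⟨Units.mk0 F hF0, ?_⟩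
  apply Units.ext
  rw [Units.val_pow_eq_pow_val, Units.val_mk0, sq]
  exact h2

end Crest.Agent.HB
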