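import Crest.Agent.HB.NFDefs

/-! Row 32 (S0042), T7: subgroups of `Lˣ` used in the bound for the number of relations. -/
set_option autoImplicit false

open NumberField IsDedekindDomain
open scoped nonZeroDivisors

namespace Crest.Agent.HB

/-- Squares in `Lˣ`. -/
def SqG (L : Type) [Field L] : Subgroup Lˣ := (powMonoidHom 2 : Lˣ →* Lˣ).range

/-- `Kˣ · Lˣ²`. -/
def KSq (K L : Type) [Field K] [Field L] [Algebra K L] : Subgroup Lˣ :=
  (Units.map (algebraMap K L : K →* L)).range ⊔ SqG L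

/-- `x ∈ Lˣ` whose class modulo squares is invariant under `Gal(L/K)`. -/
def XX (K L : Type) [Field K] [Field L] [Algebra K L] : Subgroup Lˣ where
  carrier := {x | ∀ σ : L ≃ₐ[K] L, ∃ t : L, t ≠ 0 ∧ σ (x : L) = x * t ^ 2}
  mul_mem' := by
    intro a b ha hb σ
    obtain ⟨t, ht, h⟩ := ha σ
    obtain ⟨t', ht', h'⟩ := hb σ
    exact ⟨t * t', mul_ne_zero ht ht', by push_cast; rw [map_mul, h, h']; ring⟩
  one_mem' := by intro σ; exact ⟨1, one_ne_zero, by simp⟩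
  inv_mem' := by
    intro a ha σ
    obtain ⟨t, ht, h⟩ := ha σ
    refine ⟨t⁻¹, inv_ne_zero ht, ?_⟩
    rw [Units.val_inv_eq_inv_val, map_inv₀, h, mul_inv, inv_pow]

/-- `x ∈ Lˣ` with even valuation at all primes not above `5`. -/
def VV (L : Type) [Field L] [NumberField L] : Subgroup Lˣ where
  carrier := {x | ∀ v : HeightOneSpectrum (𝓞 L), (5 : 𝓞 L) ∉ v.asIdeal → EvenAt v (x : L)}
  mul_mem' := by
    intro a b ha hb v hv
    obtain ⟨t, ht, h⟩ := ha v hv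
    obtain ⟨t', ht', h'⟩ := hb v hv
    refine ⟨t * t', mul_ne_zero ht ht', ?_⟩
    have : ((a * b : Lˣ) : L) * (t * t') ^ 2 = ((a : L) * t ^ 2) * ((b : L) * t' ^ 2) := by
      push_cast; ring
    rw [this, map_mul, h, h', mul_one]
  one_mem' := by intro v _; exact ⟨1, one_ne_zero, by simp⟩
  inv_mem' := by
    intro a ha v hv
    obtain ⟨t, ht, h⟩ := ha v hv
    refine ⟨t⁻¹, inv_ne_zero ht, ?_⟩
    have : ((a⁻¹ : Lˣ) : L) * t⁻¹ ^ 2 = ((a : L) * t ^ 2)⁻¹ := by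
      rw [Units.val_inv_eq_inv_val, mul_inv, inv_pow]
    rw [this, map_inv₀, h, inv_one]

/-- Squares and classes of the primes above `5` in the class group. -/
noncomputable def WW (K : Type) [Field K] [NumberField K] : Subgroup (ClassGroup (𝓞 K)) :=
  (powMonoidHom 2 : ClassGroup (𝓞 K) →* ClassGroup (𝓞 K)).range ⊔
    Subgroup.closure {c | ∃ 𝔮 : (Ideal (𝓞 K))⁰, (𝔮 : Ideal (𝓞 K)).IsPrime ∧
      (5 : 𝓞 K) ∈ (𝔮 : Ideal (𝓞 K)) ∧ c = ClassGroup.mk0 𝔮}

end Crest.Agent.HB
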