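import Crest.Agent.HB.RelDefs
import Crest.Agent.HB.FactC

/-! Row 32 (S0042), chunk T7a. -/
set_option autoImplicit false

open NumberField IsDedekindDomain
open scoped nonZeroDivisors

namespace Crest.Agent.HB

/-- The element `x ∈ XX` attached to a cocycle (Hilbert 90). -/
theorem RelE1_exists_x (K L : Type) [Field K] [NumberField K] [Field L] [NumberField L]
    [Algebra K L] (hK : BaseField K) (hL : Good K L)
    (c : (L ≃ₐ[K] L) → (L ≃ₐ[K] L) → ZMod 2) (hc : c ∈ Z2 (L ≃ₐ[K] L)) :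
    ∃ (a : (L ≃ₐ[K] L) → L) (x : Lˣ), (∀ σ, a σ ≠ 0) ∧
      (∀ σ τ, a σ * σ (a τ) = (if c σ τ = 0 then (1 : L) else -1) * a (σ * τ)) ∧
      (∀ σ, σ (x : L) = x * a σ ^ 2) := by
  have : IsGalois K L := hL.gal
  obtain ⟨n, hn⟩ := hL.pow
  obtain ⟨a, ha0, ha⟩ := factC K L hn hK.cplx hL.unram c hc
  have : FiniteDimensional K L := by
    apply FiniteDimensional.of_finrank_pos
    rw [hn]; positivity
  obtain ⟨x, hx⟩ := groupCohomology.isMulCoboundary₁_of_isMulCocycle₁_of_aut_to_units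
    (K := K) (L := L) (fun σ => (Units.mk0 (a σ) (ha0 σ)) ^ 2) (by
      intro σ τ
      apply Units.ext
      have h1 := ha σ τ
      have h2 : ((if c σ τ = 0 then (1 : L) else -1)) ^ 2 = 1 := by
        split_ifs <;> ring
      have h3 : (a σ * σ (a τ)) ^ 2 = a (σ * τ) ^ 2 := by
        rw [h1, mul_pow, h2, one_mul]
      simp only [Units.val_pow_eq_pow_val, Units.val_mk0, Units.val_mul, AlgEquiv.smul_units_def,
        Units.coe_map, MonoidHom.coe_coe, map_pow]
      rw [← h3]; ring)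
  refine ⟨a, x, ha0, ha, fun σ => ?_⟩
  have h := hx σ
  have h' := congrArg (Units.val) (div_eq_iff_eq_mul.1 h)
  simp only [Units.val_pow_eq_pow_val, Units.val_mk0, Units.val_mul, AlgEquiv.smul_units_def,
        Units.coe_map, MonoidHom.coe_coe] at h'
  rw [mul_comm]
  exact h'

/-- For `c ∈ Z2 G` take `a` from `factC`; `a_σ²` is a 1-cocycle, so by Hilbert 90
`a_σ² = σ(x)/x`, `x ∈ XX`. `c ↦ x mod KSq` is a well defined homomorphism `Z2 → XX/KSq`
whose kernel is contained in `B2` (if `x = y z²`, `y ∈ K`, then `a_σ = ±σ(z)/z`). -/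
theorem cocycle_index (K L : Type) [Field K] [NumberField K] [Field L] [NumberField L]
    [Algebra K L] (hK : BaseField K) (hL : Good K L)
    (hfin : (KSq K L).relIndex (XX K L) ≠ 0) :
    (B2 (L ≃ₐ[K] L)).relIndex (Z2 (L ≃ₐ[K] L)) ≤ (KSq K L).relIndex (XX K L) := by
  classical
  choose! a x ha0 ha hx using RelE1_exists_x K L hK hL
  have hxX : ∀ c ∈ Z2 (L ≃ₐ[K] L), x c ∈ XX K L := fun c hc σ =>
    ⟨a c σ, ha0 c hc σ, hx c hc σ⟩
  have key : ∀ c ∈ Z2 (L ≃ₐ[K] L), ∀ c' ∈ Z2 (L ≃ₐ[K] L), (x c)⁻¹ * x c' ∈ KSq K L →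
      -c + c' ∈ B2 (L ≃ₐ[K] L) := by
    intro c hc c' hc' hm
    obtain ⟨y, ⟨y, rfl⟩, _, ⟨z, rfl⟩, hyz⟩ := Subgroup.mem_sup.1 hm
    have hz0 : (z : L) ≠ 0 := z.ne_zero
    have hy0 : algebraMap K L y ≠ 0 := by simp
    have hxc0 : (x c : L) ≠ 0 := (x c).ne_zero
    have hyz' : algebraMap K L (y : K) * (z : L) ^ 2 = (x c : L)⁻¹ * x c' := by
      have := congrArg (Units.val) hyz
      simpa using this
    have hxx : (x c' : L) = x c * (algebraMap K L (y : K) * (z : L) ^ 2) := by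
      rw [hyz']; field_simp
    -- `b_σ = a'_σ / a_σ`
    have hb : ∀ σ : L ≃ₐ[K] L, a c' σ ^ 2 * (z : L) ^ 2 = a c σ ^ 2 * (σ (z : L)) ^ 2 := by
      intro σ
      have h1 := hx c hc σ
      have h2 := hx c' hc' σ
      rw [hxx, map_mul, map_mul, h1, map_pow, AlgEquiv.commutes] at h2
      have h3 : (x c : L) * algebraMap K L (y : K) ≠ 0 := mul_ne_zero hxc0 hy0
      apply mul_left_cancel₀ h3
      linear_combination -h2
    have hb' : ∀ σ : L ≃ₐ[K] L, a c' σ * (z : L) = a c σ * σ (z : L) ∨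
        a c' σ * (z : L) = -(a c σ * σ (z : L)) := by
      intro σ
      have := hb σ
      rw [← mul_pow, ← mul_pow] at this
      exact sq_eq_sq_iff_eq_or_eq_neg.1 this
    refine ⟨fun σ => if a c' σ * (z : L) = a c σ * σ (z : L) then 0 else 1, ?_⟩
    intro σ τ
    have s1 := ha c hc σ τ
    have s2 := ha c' hc' σ τ
    have z1 : ∀ u : ZMod 2, u = 0 ∨ u = 1 := by decide
    have hne : ∀ ρ : L ≃ₐ[K] L, a c ρ * ρ (z : L) ≠ 0 := fun ρ =>
      mul_ne_zero (ha0 c hc ρ) (by simpa using hz0)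
    have hchar : ∀ w : L, w ≠ 0 → ¬ (w = -w) := by
      intro w hw h
      have : (2 : L) * w = 0 := by linear_combination h
      rcases mul_eq_zero.1 this with h2 | h2
      · exact two_ne_zero h2
      · exact hw h2
    -- the sign function
    have hε : ∀ ρ : L ≃ₐ[K] L, ∃ ε : ZMod 2,
        ε = (if a c' ρ * (z : L) = a c ρ * ρ (z : L) then 0 else 1) ∧
        a c' ρ * (z : L) = (if ε = 0 then (1 : L) else -1) * (a c ρ * ρ (z : L)) := by
      intro ρ
      refine ⟨_, rfl, ?_⟩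
      by_cases h : a c' ρ * (z : L) = a c ρ * ρ (z : L)
      · simp [h]
      · simp only [if_neg h, one_ne_zero, if_false]
        rcases hb' ρ with h' | h'
        · exact absurd h' h
        · rw [h']; ring
    obtain ⟨e1, he1, h1⟩ := hε σ
    obtain ⟨e2, he2, h2⟩ := hε τ
    obtain ⟨e3, he3, h3⟩ := hε (σ * τ)
    show -(c σ τ) + c' σ τ = (if a c' σ * (z : L) = a c σ * σ (z : L) then 0 else 1) +
      (if a c' τ * (z : L) = a c τ * τ (z : L) then 0 else 1) +
      (if a c' (σ * τ) * (z : L) = a c (σ * τ) * (σ * τ) (z : L) then 0 else 1)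
    rw [← he1, ← he2, ← he3]
    -- multiply the relations
    have hσz : σ (z : L) ≠ 0 := by simpa using hz0
    have hτσ : (σ * τ) (z : L) = σ (τ (z : L)) := rfl
    have h2' : σ (a c' τ) * σ (z : L) =
        (if e2 = 0 then (1 : L) else -1) * (σ (a c τ) * σ (τ (z : L))) := by
      have := congrArg σ h2
      simp only [map_mul] at this
      rw [this]
      congr 1
      split_ifs <;> simp
    -- `(sign c') * a'_{στ} z * σ z = ...`
    have big : (if c' σ τ = 0 then (1 : L) else -1) * (if e3 = 0 then (1 : L) else -1) *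
        (a c (σ * τ) * (σ * τ) (z : L)) =
        (if e1 = 0 then (1 : L) else -1) * (if e2 = 0 then (1 : L) else -1) *
        (if c σ τ = 0 then (1 : L) else -1) * (a c (σ * τ) * (σ * τ) (z : L)) := by
      apply mul_right_cancel₀ hσz
      have t1 : (if c' σ τ = 0 then (1 : L) else -1) * a c' (σ * τ) * ((z : L) * σ (z : L)) =
          (a c' σ * z) * (σ (a c' τ) * σ (z : L)) := by
        rw [← s2]; ring
      rw [h1, h2'] at t1
      have t2 : (if c' σ τ = 0 then (1 : L) else -1) * a c' (σ * τ) * ((z : L) * σ (z : L)) =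
        (if c' σ τ = 0 then (1 : L) else -1) * (a c' (σ * τ) * z) * σ (z : L) := by ring
      rw [t2, h3] at t1
      have t3 : (if e1 = 0 then (1 : L) else -1) * (a c σ * σ (z : L)) *
        ((if e2 = 0 then (1 : L) else -1) * (σ (a c τ) * σ (τ (z : L)))) =
        (if e1 = 0 then (1 : L) else -1) * (if e2 = 0 then (1 : L) else -1) *
          (a c σ * σ (a c τ)) * (σ (τ (z : L))) * σ (z : L) := by ring
      rw [t3, s1] at t1
      rw [hτσ] at t1 ⊢
      linear_combination t1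
    have big' := mul_right_cancel₀ (hne (σ * τ)) big
    have h11 : ¬ ((1 : L) = -1) := hchar 1 one_ne_zero
    have h11' : ¬ ((-1 : L) = 1) := fun h => h11 h.symm
    have d2 : ∀ u : ZMod 2, (u = 0) = (u = 0) := fun _ => rfl
    rcases z1 (c σ τ) with hc1 | hc1 <;> rcases z1 (c' σ τ) with hc2 | hc2 <;>
    rcases z1 e1 with k1 | k1 <;> rcases z1 e2 with k2 | k2 <;> rcases z1 e3 with k3 | k3 <;>
    rw [hc1, hc2, k1, k2, k3] at big' <;> rw [hc1, hc2, k1, k2, k3] <;>
    first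
      | decide
      | (exfalso; simp at big'; first | exact h11 big' | exact h11' big')
  -- injectivity of the induced map
  have hfin' : Finite (XX K L ⧸ (KSq K L).subgroupOf (XX K L)) := by
    apply Nat.finite_of_card_ne_zero
    exact hfin
  show Nat.card (Z2 (L ≃ₐ[K] L) ⧸ (B2 (L ≃ₐ[K] L)).addSubgroupOf (Z2 (L ≃ₐ[K] L))) ≤
    Nat.card (XX K L ⧸ (KSq K L).subgroupOf (XX K L))
  let F : (Z2 (L ≃ₐ[K] L) ⧸ (B2 (L ≃ₐ[K] L)).addSubgroupOf (Z2 (L ≃ₐ[K] L))) →
      (XX K L ⧸ (KSq K L).subgroupOf (XX K L)) := fun q =>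
    QuotientGroup.mk ⟨x (q.out : Z2 (L ≃ₐ[K] L)), hxX _ (q.out : Z2 (L ≃ₐ[K] L)).2⟩
  refine Nat.card_le_card_of_injective F ?_
  intro q q' hqq
  have h := QuotientGroup.eq.1 hqq
  rw [Subgroup.mem_subgroupOf] at h
  have h' : (x (q.out : Z2 (L ≃ₐ[K] L)))⁻¹ * x (q'.out : Z2 (L ≃ₐ[K] L)) ∈ KSq K L := h
  have h2 := key _ (q.out : Z2 (L ≃ₐ[K] L)).2 _ (q'.out : Z2 (L ≃ₐ[K] L)).2 h'
  rw [← q.out_eq, ← q'.out_eq]
  apply QuotientAddGroup.eq.2
  rw [AddSubgroup.mem_addSubgroupOf]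
  exact h2

end Crest.Agent.HB
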