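import Crest.Agent.HB.NFDefs

/-! Row 32 (S0042), chunk T2 helpers: Euler products over ideals in sieve form. -/
set_option autoImplicit false

open NumberField IsDedekindDomain Filter Topology
open scoped nonZeroDivisors

namespace Crest.Agent.HB

namespace Sieve

variable {R : Type*} [CommRing R] [IsDedekindDomain R]

/-- prime as a nonzero ideal -/
noncomputable def pr (v : HeightOneSpectrum R) : (Ideal R)⁰ :=
  ⟨v.asIdeal, mem_nonZeroDivisors_of_ne_zero v.ne_bot⟩

@[simp] lemma coe_pr (v : HeightOneSpectrum R) : ((pr v : (Ideal R)⁰) : Ideal R) = v.asIdeal := rfl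

/-- ideals coprime to `T` -/
def cop (T : Finset (HeightOneSpectrum R)) : Set (Ideal R)⁰ :=
  {I | ∀ v ∈ T, ¬ v.asIdeal ∣ (I : Ideal R)}

/-- sieved sum -/
noncomputable def F (f : (Ideal R)⁰ → ℝ) (T : Finset (HeightOneSpectrum R)) : ℝ :=
  ∑' I : (Ideal R)⁰, (cop T).indicator f I

lemma dvd_prime_mul {v w : HeightOneSpectrum R} (hvw : v ≠ w) (I : Ideal R) :
    v.asIdeal ∣ w.asIdeal * I ↔ v.asIdeal ∣ I := by
  constructor
  · intro h
    rcases v.prime.dvd_or_dvd h with h1 | h1
    · exfalso
      apply hvw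
      have h2 : w.asIdeal ≤ v.asIdeal := Ideal.dvd_iff_le.1 h1
      have h3 := w.isMaximal.eq_of_le v.isPrime.ne_top h2
      exact HeightOneSpectrum.ext h3.symm
    · exact h1
  · intro h
    exact Dvd.dvd.mul_left h _

open scoped Classical in
lemma F_insert {f : (Ideal R)⁰ → ℝ} (hmul : ∀ I J, f (I * J) = f I * f J) (hf : Summable f)
    {T : Finset (HeightOneSpectrum R)} {v : HeightOneSpectrum R} (hv : v ∉ T) :
    F f (insert v T) = (1 - f (pr v)) * F f T := by
  have h1 : F f T - F f (insert v T) = f (pr v) * F f T := by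
    unfold F
    rw [← (hf.indicator (cop T)).tsum_sub (hf.indicator (cop (insert v T))), ← tsum_mul_left]
    have hinj : Function.Injective fun J : (Ideal R)⁰ => pr v * J := by
      intro a b hab
      exact mul_left_cancel hab
    rw [← hinj.tsum_eq]
    · refine tsum_congr fun J => ?_
      have e1 : ∀ w ∈ T, (w.asIdeal ∣ ((pr v * J : (Ideal R)⁰) : Ideal R) ↔
          w.asIdeal ∣ (J : Ideal R)) := by
        intro w hw
        rw [Submonoid.coe_mul, coe_pr]
        exact dvd_prime_mul (fun h : w = v => hv (h ▸ hw)) _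
      have e2 : v.asIdeal ∣ ((pr v * J : (Ideal R)⁰) : Ideal R) := by
        rw [Submonoid.coe_mul, coe_pr]
        exact dvd_mul_right _ _
      have e3 : pr v * J ∉ cop (insert v T) :=
        fun h => h v (Finset.mem_insert_self _ _) e2
      have e4 : pr v * J ∈ cop T ↔ J ∈ cop T :=
        forall₂_congr fun w hw => not_congr (e1 w hw)
      rw [Set.indicator_of_notMem e3, sub_zero]
      by_cases hJ : J ∈ cop T
      · rw [Set.indicator_of_mem hJ, Set.indicator_of_mem (e4.2 hJ), hmul]
      · rw [Set.indicator_of_notMem hJ, Set.indicator_of_notMem (fun h => hJ (e4.1 h)), mul_zero]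
    · intro I hI
      rw [Function.mem_support] at hI
      by_cases hvI : v.asIdeal ∣ (I : Ideal R)
      · obtain ⟨J, hJ⟩ := hvI
        have hJ0 : J ≠ 0 := by
          rintro rfl
          rw [mul_zero] at hJ
          exact nonZeroDivisors.coe_ne_zero I hJ
        refine ⟨⟨J, mem_nonZeroDivisors_of_ne_zero hJ0⟩, ?_⟩
        apply Subtype.ext
        simp [hJ]
      · exfalso
        apply hI
        have : I ∈ cop (insert v T) ↔ I ∈ cop T := by
          unfold cop
          rw [Set.mem_ofPred_eq, Set.mem_ofPred_eq, Finset.forall_mem_insert]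
          tauto
        by_cases hI' : I ∈ cop T
        · rw [Set.indicator_of_mem hI', Set.indicator_of_mem (this.2 hI'), sub_self]
        · rw [Set.indicator_of_notMem hI', Set.indicator_of_notMem (fun h => hI' (this.1 h)),
            sub_self]
  linarith

lemma prod_mul_tsum {f : (Ideal R)⁰ → ℝ} (hmul : ∀ I J, f (I * J) = f I * f J) (hf : Summable f)
    (T : Finset (HeightOneSpectrum R)) :
    (∏ v ∈ T, (1 - f (pr v))) * ∑' I, f I = F f T := by
  classical
  induction T using Finset.induction_on with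
  | empty => simp [F, cop]
  | insert v T hv ih =>
    rw [Finset.prod_insert hv, F_insert hmul hf hv, ← ih]
    ring

lemma exists_prime_dvd {I : (Ideal R)⁰} (hI : I ≠ 1) :
    ∃ v : HeightOneSpectrum R, v.asIdeal ∣ (I : Ideal R) := by
  have h1 : (I : Ideal R) ≠ ⊤ := by
    intro h
    apply hI
    apply Subtype.ext
    rw [h, ← Ideal.one_eq_top]
    rfl
  obtain ⟨M, hM, hle⟩ := Ideal.exists_le_maximal _ h1
  have hM0 : M ≠ ⊥ := by
    rintro rfl
    exact nonZeroDivisors.coe_ne_zero I (le_bot_iff.1 hle)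
  exact ⟨⟨M, hM.isPrime, hM0⟩, Ideal.dvd_iff_le.2 hle⟩

lemma tendsto_F {f : (Ideal R)⁰ → ℝ} (hf : Summable f) {ι : Type*} {l : Filter ι}
    (T : ι → Finset (HeightOneSpectrum R)) (hT : ∀ v, ∀ᶠ i in l, v ∈ T i) :
    Tendsto (fun i => F f (T i)) l (𝓝 (f 1)) := by
  classical
  have h1 : f 1 = ∑' I : (Ideal R)⁰, ({1} : Set (Ideal R)⁰).indicator f I := by
    rw [tsum_eq_single 1]
    · simp
    · intro b hb
      simp [hb]
  rw [h1]
  unfold F
  refine tendsto_tsum_of_dominated_convergence hf.norm ?_ ?_
  · intro I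
    by_cases hI : I = 1
    · subst hI
      rw [Set.indicator_of_mem (Set.mem_singleton _)]
      refine tendsto_const_nhds.congr' (Eventually.of_forall fun i => ?_)
      simp only
      rw [Set.indicator_of_mem]
      intro v _ hv
      have h2 : (1 : Ideal R) ≤ v.asIdeal := Ideal.dvd_iff_le.1 hv
      rw [Ideal.one_eq_top, top_le_iff] at h2
      exact v.isPrime.ne_top h2
    · rw [Set.indicator_of_notMem (by simpa using hI)]
      obtain ⟨v, hv⟩ := exists_prime_dvd hI
      refine tendsto_const_nhds.congr' ?_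
      filter_upwards [hT v] with i hi
      rw [Set.indicator_of_notMem]
      intro h
      exact h v hi hv
  · refine Eventually.of_forall fun i I => ?_
    rw [Set.indicator_apply]
    split_ifs
    · exact le_rfl
    · simp

/-- Euler product in the form `L · ∏_{v ∈ T} (1 - f v) → 1`. -/
lemma tendsto_euler {f : (Ideal R)⁰ → ℝ} (hmul : ∀ I J, f (I * J) = f I * f J) (h1 : f 1 = 1)
    (hf : Summable f) {ι : Type*} {l : Filter ι}
    (T : ι → Finset (HeightOneSpectrum R)) (hT : ∀ v, ∀ᶠ i in l, v ∈ T i) :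
    Tendsto (fun i => (∏ v ∈ T i, (1 - f (pr v))) * ∑' I, f I) l (𝓝 1) := by
  have := tendsto_F hf T hT
  rw [h1] at this
  refine this.congr fun i => ?_
  rw [prod_mul_tsum hmul hf]

end Sieve

end Crest.Agent.HB
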