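import Crest.Agent.HB.NFDefs

/-! Row 32 (S0042), chunk T2 helpers: the Dedekind zeta function as a sum over ideals. -/
set_option autoImplicit false

open NumberField IsDedekindDomain Filter Topology Ideal
open scoped nonZeroDivisors

namespace Crest.Agent.HB

namespace ZetaSum

variable (K : Type*) [Field K] [NumberField K]

/-- number of ideals of norm `n` -/
noncomputable def an (n : ℕ) : ℕ := Nat.card {I : Ideal (𝓞 K) // absNorm I = n}

lemma lseries_summable {s : ℝ} (hs : 1 < s) :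
    LSeriesSummable (fun n => ((an K n : ℝ) : ℂ)) (s : ℂ) := by
  refine LSeriesSummable_of_sum_norm_bigO_and_nonneg (r := 1) ?_ (fun n => Nat.cast_nonneg _)
    zero_le_one (by simpa using hs)
  have h1 := (Ideal.tendsto_norm_le_div_atTop₀ K).comp tendsto_natCast_atTop_atTop
  have h2 : (fun n : ℕ => ∑ k ∈ Finset.Icc 1 n, (an K k : ℝ)) =O[atTop] fun n => (n : ℝ) := by
    have h3 : (fun n : ℕ => (∑ k ∈ Finset.Icc 1 n, (an K k : ℝ)) / n) =O[atTop] fun _ => (1 : ℝ) := by
      refine Tendsto.isBigO_one ℝ (h1.congr fun n => ?_)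
      simp only [Function.comp_apply, Nat.cast_le, ← Nat.cast_sum]
      congr
      rw [← add_left_inj 1, ← card_norm_le_eq_card_norm_le_add_one,
        show Finset.Icc 1 n = Finset.Ioc 0 n from Finset.Icc_succ_left_eq_Ioc _ _,
        show 1 = an K 0 by simp [an, Ideal.absNorm_eq_zero_iff],
        Finset.sum_Ioc_add_eq_sum_Icc (n.zero_le)]
      unfold an
      rw [← Finset.card_preimage_eq_sum_card_image_eq (fun k _ ↦ finite_setOfPred_absNorm_eq k)]
      simp [Set.coe_eq_subtype]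
    have h4 := h3.mul (Asymptotics.isBigO_refl (fun n : ℕ => (n : ℝ)) atTop)
    refine (h4.congr' ?_ ?_)
    · filter_upwards [eventually_ne_atTop 0] with n hn
      have : (n : ℝ) ≠ 0 := by exact_mod_cast hn
      field_simp
    · filter_upwards with n
      rw [one_mul]
  simpa using h2

lemma term_eq (s : ℝ) (n : ℕ) :
    LSeries.term (fun n => ((an K n : ℝ) : ℂ)) (s : ℂ) n =
      (((if n = 0 then 0 else (an K n : ℝ) * (n : ℝ) ^ (-s)) : ℝ) : ℂ) := by
  rw [LSeries.term_def]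
  split_ifs with h
  · simp
  · rw [Complex.ofReal_mul, Complex.ofReal_cpow (Nat.cast_nonneg n), Complex.ofReal_neg,
      Complex.cpow_neg, div_eq_mul_inv]
    simp

lemma summable_an {s : ℝ} (hs : 1 < s) :
    Summable fun n : ℕ => if n = 0 then 0 else (an K n : ℝ) * (n : ℝ) ^ (-s) := by
  have h := lseries_summable K hs
  unfold LSeriesSummable at h
  rw [show LSeries.term (fun n => ((an K n : ℝ) : ℂ)) (s : ℂ) = fun n =>
    (((if n = 0 then 0 else (an K n : ℝ) * (n : ℝ) ^ (-s)) : ℝ) : ℂ) from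
    funext fun n => term_eq K s n] at h
  exact Complex.summable_ofReal.1 h

lemma card_fiber {n : ℕ} (hn : n ≠ 0) :
    Nat.card {I : (Ideal (𝓞 K))⁰ // absNorm (I : Ideal (𝓞 K)) = n} = an K n := by
  unfold an
  refine Nat.card_congr
    { toFun := fun I => ⟨I.1.1, I.2⟩
      invFun := fun I => ⟨⟨I.1, mem_nonZeroDivisors_of_ne_zero ?_⟩, I.2⟩
      left_inv := fun I => rfl
      right_inv := fun I => rfl }
  intro h
  have := I.2
  rw [h, Ideal.zero_eq_bot, absNorm_bot] at this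
  exact hn this.symm

lemma card_fiber_zero :
    IsEmpty {I : (Ideal (𝓞 K))⁰ // absNorm (I : Ideal (𝓞 K)) = 0} := by
  refine ⟨fun I => ?_⟩
  have := I.2
  rw [absNorm_eq_zero_iff] at this
  exact nonZeroDivisors.coe_ne_zero I.1 this

lemma hasSum_ideals {s : ℝ} (hs : 1 < s) :
    HasSum (fun I : (Ideal (𝓞 K))⁰ => (absNorm (I : Ideal (𝓞 K)) : ℝ) ^ (-s))
      (∑' n : ℕ, if n = 0 then 0 else (an K n : ℝ) * (n : ℝ) ^ (-s)) := by
  let N : (Ideal (𝓞 K))⁰ → ℕ := fun I => absNorm (I : Ideal (𝓞 K))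
  have hfib : ∀ n : ℕ, HasSum (fun I : {I : (Ideal (𝓞 K))⁰ // N I = n} => ((N I.1 : ℝ)) ^ (-s))
      (if n = 0 then 0 else (an K n : ℝ) * (n : ℝ) ^ (-s)) := by
    intro n
    have hfin : Finite {I : (Ideal (𝓞 K))⁰ // N I = n} := by
      have : Finite {I : Ideal (𝓞 K) // absNorm I = n} := finite_setOfPred_absNorm_eq n
      exact Finite.of_injective (fun I => (⟨I.1.1, I.2⟩ : {I : Ideal (𝓞 K) // absNorm I = n}))
        (fun a b hab => by
          apply Subtype.ext; apply Subtype.ext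
          exact congrArg (fun x : {I : Ideal (𝓞 K) // absNorm I = n} => x.1) hab)
    have := Fintype.ofFinite {I : (Ideal (𝓞 K))⁰ // N I = n}
    have h1 : (fun I : {I : (Ideal (𝓞 K))⁰ // N I = n} => ((N I.1 : ℝ)) ^ (-s)) =
        fun _ => (n : ℝ) ^ (-s) := by
      funext I
      rw [I.2]
    rw [h1]
    have h2 := hasSum_fintype (fun _ : {I : (Ideal (𝓞 K))⁰ // N I = n} => (n : ℝ) ^ (-s))
    convert h2 using 1
    rw [Finset.sum_const, Finset.card_univ, ← Nat.card_eq_fintype_card, nsmul_eq_mul]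
    split_ifs with hn
    · subst hn
      have := card_fiber_zero K
      rw [Nat.card_of_isEmpty]
      simp
    · rw [card_fiber K hn]
  have hsum := summable_an K hs
  have hsig : HasSum (fun p : (Σ n, {I : (Ideal (𝓞 K))⁰ // N I = n}) => ((N p.2.1 : ℝ)) ^ (-s))
      (∑' n : ℕ, if n = 0 then 0 else (an K n : ℝ) * (n : ℝ) ^ (-s)) := by
    have hs1 : Summable (fun p : (Σ n, {I : (Ideal (𝓞 K))⁰ // N I = n}) =>
        ((N p.2.1 : ℝ)) ^ (-s)) := by
      rw [summable_sigma_of_nonneg (fun p => by positivity)]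
      refine ⟨fun n => (hfib n).summable, ?_⟩
      refine hsum.congr fun n => ?_
      exact (hfib n).tsum_eq.symm
    have h2 := hs1.hasSum.sigma hfib
    have h3 := h2.tsum_eq
    rw [h3]
    exact hs1.hasSum
  exact ((Equiv.sigmaFiberEquiv N).hasSum_iff (f := fun I => ((N I : ℝ)) ^ (-s))).1 hsig

lemma summable_ideals {s : ℝ} (hs : 1 < s) :
    Summable fun I : (Ideal (𝓞 K))⁰ => (absNorm (I : Ideal (𝓞 K)) : ℝ) ^ (-s) :=
  (hasSum_ideals K hs).summable

lemma zeta_eq {s : ℝ} (hs : 1 < s) :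
    dedekindZeta K (s : ℂ) =
      ((∑' I : (Ideal (𝓞 K))⁰, (absNorm (I : Ideal (𝓞 K)) : ℝ) ^ (-s) : ℝ) : ℂ) := by
  rw [(hasSum_ideals K hs).tsum_eq]
  unfold dedekindZeta LSeries
  rw [Complex.ofReal_tsum]
  refine tsum_congr fun n => ?_
  rw [← term_eq K s n]
  rfl

/-- `(s-1) ζ_K(s) → ρ > 0`. -/
lemma tendsto_residue :
    Tendsto (fun s : ℝ => (s - 1) * ∑' I : (Ideal (𝓞 K))⁰,
      (absNorm (I : Ideal (𝓞 K)) : ℝ) ^ (-s)) (𝓝[>] 1) (𝓝 (dedekindZeta_residue K)) := by
  have h := tendsto_sub_one_mul_dedekindZeta_nhdsGT K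
  have h2 : Tendsto (fun s : ℝ => (((s - 1) * ∑' I : (Ideal (𝓞 K))⁰,
      (absNorm (I : Ideal (𝓞 K)) : ℝ) ^ (-s) : ℝ) : ℂ)) (𝓝[>] 1)
      (𝓝 ((dedekindZeta_residue K : ℝ) : ℂ)) := by
    refine h.congr' ?_
    filter_upwards [self_mem_nhdsWithin] with s hs
    rw [zeta_eq K hs]
    push_cast
    ring
  have h3 := (Complex.continuous_re.tendsto _).comp h2
  rw [Complex.ofReal_re] at h3
  refine h3.congr fun s => ?_
  simp only [Function.comp_apply, Complex.ofReal_re]

end ZetaSum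

end Crest.Agent.HB
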