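import Crest.Agent.HB.LBound
import Crest.Agent.HB.Sieve
import Crest.Agent.HB.ZetaSum

/-! Row 32 (S0042), chunk T2: the "second inequality" for an unramified quadratic extension. -/
set_option autoImplicit false

open NumberField IsDedekindDomain Filter Topology
open scoped nonZeroDivisors

namespace Crest.Agent.HB

namespace SI

open Sieve

section K

variable {K : Type*} [Field K] [NumberField K]

/-- norm as a real number -/
noncomputable def nm (I : (Ideal (𝓞 K))⁰) : ℝ := (Ideal.absNorm (I : Ideal (𝓞 K)) : ℝ)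

lemma nm_one : nm (1 : (Ideal (𝓞 K))⁰) = 1 := by simp [nm]

lemma nm_mul (I J : (Ideal (𝓞 K))⁰) : nm (I * J) = nm I * nm J := by
  simp [nm]

lemma nm_ge_one (I : (Ideal (𝓞 K))⁰) : 1 ≤ nm I := by
  unfold nm
  have : Ideal.absNorm (I : Ideal (𝓞 K)) ≠ 0 := by
    rw [Ne, Ideal.absNorm_eq_zero_iff]
    exact nonZeroDivisors.coe_ne_zero I
  exact_mod_cast Nat.one_le_iff_ne_zero.2 this

lemma nm_pr (v : HeightOneSpectrum (𝓞 K)) : 1 < nm (pr v) := by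
  unfold nm
  rw [coe_pr]
  exact_mod_cast Nat.lt_of_le_of_ne (Nat.one_le_iff_ne_zero.2 (by
    rw [Ne, Ideal.absNorm_eq_zero_iff]; exact v.ne_bot)) (by
    intro h
    rw [eq_comm, Ideal.absNorm_eq_one_iff] at h
    exact v.isPrime.ne_top h)

/-- twisted norm -/
noncomputable def fc (χ : (Ideal (𝓞 K))⁰ →* ℤˣ) (s : ℝ) (I : (Ideal (𝓞 K))⁰) : ℝ :=
  ((χ I : ℤˣ) : ℤ) * nm I ^ (-s)

lemma fc_mul (χ : (Ideal (𝓞 K))⁰ →* ℤˣ) (s : ℝ) (I J : (Ideal (𝓞 K))⁰) :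
    fc χ s (I * J) = fc χ s I * fc χ s J := by
  unfold fc
  rw [map_mul, nm_mul, Real.mul_rpow (by linarith [nm_ge_one I]) (by linarith [nm_ge_one J])]
  push_cast
  ring

lemma fc_one (χ : (Ideal (𝓞 K))⁰ →* ℤˣ) (s : ℝ) : fc χ s 1 = 1 := by
  unfold fc
  rw [nm_one, map_one]
  simp

lemma summable_nm {s : ℝ} (hs : 1 < s) : Summable fun I : (Ideal (𝓞 K))⁰ => nm I ^ (-s) :=
  ZetaSum.summable_ideals K hs

lemma abs_unit (u : ℤˣ) : |((u : ℤ) : ℝ)| = 1 := by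
  rcases Int.units_eq_one_or u with h | h <;> simp [h]

lemma summable_fc (χ : (Ideal (𝓞 K))⁰ →* ℤˣ) {s : ℝ} (hs : 1 < s) : Summable (fc χ s) := by
  refine Summable.of_norm ((summable_nm hs).congr fun I => ?_)
  unfold fc
  rw [norm_mul, Real.norm_eq_abs, abs_unit, one_mul, Real.norm_of_nonneg]
  exact Real.rpow_nonneg (by linarith [nm_ge_one I]) _

open scoped Classical in
/-- restriction to ideals all of whose prime factors satisfy `c` -/
noncomputable def fs (c : HeightOneSpectrum (𝓞 K) → Prop) (s : ℝ) (I : (Ideal (𝓞 K))⁰) : ℝ :=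
  if (∀ v : HeightOneSpectrum (𝓞 K), v.asIdeal ∣ (I : Ideal (𝓞 K)) → c v) then nm I ^ (-s) else 0

lemma fs_mul (c : HeightOneSpectrum (𝓞 K) → Prop) (s : ℝ) (I J : (Ideal (𝓞 K))⁰) :
    fs c s (I * J) = fs c s I * fs c s J := by
  classical
  have h : (∀ v : HeightOneSpectrum (𝓞 K), v.asIdeal ∣ ((I * J : (Ideal (𝓞 K))⁰) : Ideal (𝓞 K)) → c v) ↔
      (∀ v : HeightOneSpectrum (𝓞 K), v.asIdeal ∣ (I : Ideal (𝓞 K)) → c v) ∧
      (∀ v : HeightOneSpectrum (𝓞 K), v.asIdeal ∣ (J : Ideal (𝓞 K)) → c v) := by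
    rw [Submonoid.coe_mul]
    constructor
    · intro h
      exact ⟨fun v hv => h v (hv.mul_right _), fun v hv => h v (Dvd.dvd.mul_left hv _)⟩
    · rintro ⟨h1, h2⟩ v hv
      rcases v.prime.dvd_or_dvd hv with h3 | h3
      · exact h1 v h3
      · exact h2 v h3
  unfold fs
  rw [if_congr h rfl rfl, nm_mul, Real.mul_rpow (by linarith [nm_ge_one I])
    (by linarith [nm_ge_one J])]
  split_ifs <;> simp_all

lemma fs_one (c : HeightOneSpectrum (𝓞 K) → Prop) (s : ℝ) : fs c s 1 = 1 := by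
  classical
  unfold fs
  rw [if_pos, nm_one, Real.one_rpow]
  intro v hv
  exfalso
  have h2 : (1 : Ideal (𝓞 K)) ≤ v.asIdeal := Ideal.dvd_iff_le.1 hv
  rw [Ideal.one_eq_top, top_le_iff] at h2
  exact v.isPrime.ne_top h2

lemma fs_nonneg (c : HeightOneSpectrum (𝓞 K) → Prop) (s : ℝ) (I : (Ideal (𝓞 K))⁰) :
    0 ≤ fs c s I := by
  unfold fs
  have := nm_ge_one I
  split_ifs
  · exact Real.rpow_nonneg (by linarith) _
  · exact le_rfl

lemma fs_le (c : HeightOneSpectrum (𝓞 K) → Prop) (s : ℝ) (I : (Ideal (𝓞 K))⁰) :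
    fs c s I ≤ nm I ^ (-s) := by
  unfold fs
  have := nm_ge_one I
  split_ifs
  · exact le_rfl
  · exact Real.rpow_nonneg (by linarith) _

lemma summable_fs (c : HeightOneSpectrum (𝓞 K) → Prop) {s : ℝ} (hs : 1 < s) :
    Summable (fs c s) :=
  Summable.of_nonneg_of_le (fs_nonneg c s) (fs_le c s) (summable_nm hs)

lemma fs_pr (c : HeightOneSpectrum (𝓞 K) → Prop) (s : ℝ) (v : HeightOneSpectrum (𝓞 K)) :
    (c v → fs c s (pr v) = nm (pr v) ^ (-s)) ∧ (¬ c v → fs c s (pr v) = 0) := by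
  unfold fs
  constructor
  · intro hc
    rw [if_pos]
    intro w hw
    rw [coe_pr] at hw
    have h1 : v.asIdeal ≤ w.asIdeal := Ideal.dvd_iff_le.1 hw
    have h2 := v.isMaximal.eq_of_le w.isPrime.ne_top h1
    rwa [← HeightOneSpectrum.ext h2]
  · intro hc
    rw [if_neg]
    intro h
    exact hc (h v (by rw [coe_pr]))

lemma rpow_lt_one_pr {s : ℝ} (hs : 0 < s) (v : HeightOneSpectrum (𝓞 K)) :
    0 < nm (pr v) ^ (-s) ∧ nm (pr v) ^ (-s) < 1 := by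
  have h := nm_pr v
  exact ⟨Real.rpow_pos_of_pos (by linarith) _, Real.rpow_lt_one_of_one_lt_of_neg h (by linarith)⟩

end K

lemma le_of_tendsto_prod {ι : Type*} {l : Filter ι} [l.NeBot] {a d : ι → ℝ} {A D : ℝ}
    (hA : 0 ≤ A) (hd0 : ∀ i, 0 ≤ d i) (h : ∀ i, d i ≤ a i)
    (ha : Tendsto (fun i => a i * A) l (𝓝 1)) (hd : Tendsto (fun i => d i * D) l (𝓝 1)) :
    A ≤ D := by
  have hD : 0 < D := by
    have h1 : ∀ᶠ i in l, 0 < d i * D := hd.eventually (lt_mem_nhds one_pos)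
    obtain ⟨i, hi⟩ := h1.exists
    by_contra hcon
    push Not at hcon
    nlinarith [hd0 i]
  have h2 : Tendsto (fun i => (d i * D) * (A / D)) l (𝓝 (1 * (A / D))) := hd.mul_const _
  rw [one_mul] at h2
  have h3 : ∀ i, (d i * D) * (A / D) ≤ a i * A := by
    intro i
    have : (d i * D) * (A / D) = d i * A := by field_simp
    rw [this]
    exact mul_le_mul_of_nonneg_right (h i) hA
  have h4 := le_of_tendsto_of_tendsto' h2 ha h3
  rwa [div_le_one hD] at h4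

lemma local_B {x e₁ e₂ : ℝ} (hx0 : 0 < x) (hx1 : x < 1) (h₁ : e₁ = 1 ∨ e₁ = -1)
    (h₂ : e₂ = 1 ∨ e₂ = -1) :
    0 ≤ (1 - x) * (1 - e₁ * x) * (1 - e₂ * x) * (1 - e₁ * e₂ * x) ∧
    (1 - x) * (1 - e₁ * x) * (1 - e₂ * x) * (1 - e₁ * e₂ * x) ≤ 1 := by
  have hy : 0 ≤ 1 - x := by linarith
  have hy1 : 1 - x ≤ 1 := by linarith
  have hz : 0 ≤ 1 - x ^ 2 := by nlinarith
  have hz1 : 1 - x ^ 2 ≤ 1 := by nlinarith
  rcases h₁ with rfl | rfl <;> rcases h₂ with rfl | rfl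
  · have e : (1 - x) * (1 - 1 * x) * (1 - 1 * x) * (1 - 1 * 1 * x) = (1 - x) ^ 4 := by ring
    rw [e]
    exact ⟨by positivity, pow_le_one₀ hy hy1⟩
  · have e : (1 - x) * (1 - 1 * x) * (1 - -1 * x) * (1 - 1 * -1 * x) = (1 - x ^ 2) ^ 2 := by ring
    rw [e]
    exact ⟨by positivity, pow_le_one₀ hz hz1⟩
  · have e : (1 - x) * (1 - -1 * x) * (1 - 1 * x) * (1 - -1 * 1 * x) = (1 - x ^ 2) ^ 2 := by ring
    rw [e]
    exact ⟨by positivity, pow_le_one₀ hz hz1⟩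
  · have e : (1 - x) * (1 - -1 * x) * (1 - -1 * x) * (1 - -1 * -1 * x) = (1 - x ^ 2) ^ 2 := by ring
    rw [e]
    exact ⟨by positivity, pow_le_one₀ hz hz1⟩

lemma unit_cases (u : ℤˣ) : ((u : ℤ) : ℝ) = 1 ∨ ((u : ℤ) : ℝ) = -1 := by
  rcases Int.units_eq_one_or u with h | h <;> simp [h]

lemma ineqB {K : Type*} [Field K] [NumberField K] (χ₁ χ₂ : (Ideal (𝓞 K))⁰ →* ℤˣ)
    (c : HeightOneSpectrum (𝓞 K) → Prop) (hc₁ : ∀ v, c v → χ₁ (pr v) = 1)
    (hc₂ : ∀ v, c v → χ₂ (pr v) = 1) {s : ℝ} (hs : 1 < s) :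
    (∑' I, fs c s I) ^ 4 ≤ (∑' I, fc (1 : (Ideal (𝓞 K))⁰ →* ℤˣ) s I) * (∑' I, fc χ₁ s I) * (∑' I, fc χ₂ s I) *
      (∑' I, fc (χ₁ * χ₂) s I) := by
  have hT : ∀ v : HeightOneSpectrum (𝓞 K), ∀ᶠ T : Finset (HeightOneSpectrum (𝓞 K)) in atTop,
      v ∈ T := fun v => by
    filter_upwards [eventually_ge_atTop {v}] with T hT
    exact hT (Finset.mem_singleton_self v)
  have t0 := tendsto_euler (f := fc 1 s) (fc_mul (1 : (Ideal (𝓞 K))⁰ →* ℤˣ) s) (fc_one _ s) (summable_fc _ hs)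
    (fun T => T) hT
  have t1 := tendsto_euler (fc_mul χ₁ s) (fc_one _ s) (summable_fc _ hs) (fun T => T) hT
  have t2 := tendsto_euler (fc_mul χ₂ s) (fc_one _ s) (summable_fc _ hs) (fun T => T) hT
  have t3 := tendsto_euler (fc_mul (χ₁ * χ₂) s) (fc_one _ s) (summable_fc _ hs) (fun T => T) hT
  have t4 := tendsto_euler (fs_mul c s) (fs_one _ s) (summable_fs c hs) (fun T => T) hT
  have key : ∀ v : HeightOneSpectrum (𝓞 K),
      0 ≤ (1 - fc 1 s (pr v)) * (1 - fc χ₁ s (pr v)) * (1 - fc χ₂ s (pr v)) *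
        (1 - fc (χ₁ * χ₂) s (pr v)) ∧
      (1 - fc 1 s (pr v)) * (1 - fc χ₁ s (pr v)) * (1 - fc χ₂ s (pr v)) *
        (1 - fc (χ₁ * χ₂) s (pr v)) ≤ (1 - fs c s (pr v)) ^ 4 := by
    intro v
    obtain ⟨hx0, hx1⟩ := rpow_lt_one_pr (K := K) (show (0 : ℝ) < s by linarith) v
    have e0 : fc 1 s (pr v) = nm (pr v) ^ (-s) := by simp [fc]
    have e1 : fc χ₁ s (pr v) = ((χ₁ (pr v) : ℤˣ) : ℤ) * nm (pr v) ^ (-s) := rfl
    have e2 : fc χ₂ s (pr v) = ((χ₂ (pr v) : ℤˣ) : ℤ) * nm (pr v) ^ (-s) := rfl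
    have e3 : fc (χ₁ * χ₂) s (pr v) =
        (((χ₁ (pr v) : ℤˣ) : ℤ) : ℝ) * ((χ₂ (pr v) : ℤˣ) : ℤ) * nm (pr v) ^ (-s) := by
      simp [fc]
    rw [e0, e1, e2, e3]
    have hB := local_B hx0 hx1 (unit_cases (χ₁ (pr v))) (unit_cases (χ₂ (pr v)))
    refine ⟨hB.1, ?_⟩
    by_cases hcv : c v
    · rw [(fs_pr c s v).1 hcv, hc₁ v hcv, hc₂ v hcv]
      apply le_of_eq
      push_cast
      ring
    · rw [(fs_pr c s v).2 hcv]
      simpa using hB.2
  refine le_of_tendsto_prod (l := (atTop : Filter (Finset (HeightOneSpectrum (𝓞 K)))))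
    (a := fun T : Finset (HeightOneSpectrum (𝓞 K)) => (∏ v ∈ T, (1 - fs c s (pr v))) ^ 4)
    (d := fun T : Finset (HeightOneSpectrum (𝓞 K)) => ∏ v ∈ T, ((1 - fc 1 s (pr v)) * (1 - fc χ₁ s (pr v)) *
      (1 - fc χ₂ s (pr v)) * (1 - fc (χ₁ * χ₂) s (pr v)))) (by positivity) ?_ ?_ ?_ ?_
  · intro T
    exact Finset.prod_nonneg fun v _ => (key v).1
  · intro T
    rw [← Finset.prod_pow]
    exact Finset.prod_le_prod (fun v _ => (key v).1) (fun v _ => (key v).2)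
  · have := t4.pow 4
    rw [one_pow] at this
    refine this.congr fun T => ?_
    rw [mul_pow]
  · have := ((t0.mul t1).mul t2).mul t3
    rw [one_mul, one_mul, one_mul] at this
    refine this.congr fun T => ?_
    rw [Finset.prod_mul_distrib, Finset.prod_mul_distrib, Finset.prod_mul_distrib]
    ring

section KK

variable {k k' : Type} [Field k] [NumberField k] [Field k'] [NumberField k'] [Algebra k k']

lemma ov_finite (v : HeightOneSpectrum (𝓞 k)) :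
    {w : HeightOneSpectrum (𝓞 k') | w.asIdeal.LiesOver v.asIdeal}.Finite := by
  have h := IsDedekindDomain.primesOver_finite v.asIdeal (𝓞 k')
  refine (h.preimage (f := HeightOneSpectrum.asIdeal) ?_).subset ?_
  · intro a _ b _ hab
    exact HeightOneSpectrum.ext hab
  · intro w hw
    exact ⟨w.isPrime, hw⟩

/-- primes of `k'` over `v` -/
noncomputable def ov (k' : Type) [Field k'] [NumberField k'] [Algebra k k']
    (v : HeightOneSpectrum (𝓞 k)) : Finset (HeightOneSpectrum (𝓞 k')) :=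
  (ov_finite (k' := k') v).toFinset

lemma mem_ov {v : HeightOneSpectrum (𝓞 k)} {w : HeightOneSpectrum (𝓞 k')} :
    w ∈ ov k' v ↔ w.asIdeal.LiesOver v.asIdeal := by
  unfold ov
  rw [Set.Finite.mem_toFinset]
  rfl

/-- the equivalence with `primesOver` -/
noncomputable def ovEquiv (v : HeightOneSpectrum (𝓞 k)) :
    {w : HeightOneSpectrum (𝓞 k') // w ∈ ov k' v} ≃ v.asIdeal.primesOver (𝓞 k') where
  toFun w := ⟨w.1.asIdeal, w.1.isPrime, mem_ov.1 w.2⟩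
  invFun P := ⟨⟨P.1, P.2.1, by
    intro h
    have h2 := P.2.2
    rw [h] at h2
    have h3 : v.asIdeal = Ideal.under (𝓞 k) (⊥ : Ideal (𝓞 k')) := h2.over
    rw [Ideal.under_bot] at h3
    exact v.ne_bot h3⟩, mem_ov.2 P.2.2⟩
  left_inv w := by apply Subtype.ext; rfl
  right_inv P := by apply Subtype.ext; rfl

lemma sum_inertia (h2 : Module.finrank k k' = 2) (hunr : Unram k k')
    (v : HeightOneSpectrum (𝓞 k)) :
    ∑ w ∈ ov k' v, w.asIdeal.inertiaDeg (𝓞 k) = 2 := by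
  classical
  have hfin : Finite (v.asIdeal.primesOver (𝓞 k')) :=
    IsDedekindDomain.primesOver_finite v.asIdeal (𝓞 k')
  have hF : Fintype (v.asIdeal.primesOver (𝓞 k')) := Fintype.ofFinite _
  have h := Ideal.sum_ramification_inertia_eq_finrank v.asIdeal (𝓞 k')
  rw [← IsFractionRing.finrank_eq (𝓞 k) k (𝓞 k') k', h2] at h
  rw [← h, ← Finset.sum_coe_sort]
  refine Fintype.sum_equiv (ovEquiv v) _ _ fun w => ?_
  have : (((ovEquiv v) w).1).ramificationIdx (𝓞 k) = 1 := by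
    refine hunr _ w.1.isPrime w.1.ne_bot
  rw [this, one_mul]
  rfl

lemma absNorm_of_ov {v : HeightOneSpectrum (𝓞 k)} {w : HeightOneSpectrum (𝓞 k')}
    (hw : w ∈ ov k' v) : nm (pr w) = nm (pr v) ^ (w.asIdeal.inertiaDeg (𝓞 k)) := by
  have := mem_ov.1 hw
  have h := Ideal.absNorm_pow_inertiaDeg v.asIdeal w.asIdeal
  unfold nm
  rw [coe_pr, coe_pr, ← h]
  push_cast
  rfl

open scoped Classical in
lemma finset_cases {α : Type*} (O : Finset α) (f : α → ℕ) (hf : ∀ w ∈ O, 1 ≤ f w)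
    (h : ∑ w ∈ O, f w = 2) :
    (∃ w, O = {w} ∧ f w = 2) ∨ (∃ w₁ w₂, w₁ ≠ w₂ ∧ O = {w₁, w₂} ∧ f w₁ = 1 ∧ f w₂ = 1) := by
  have hc : O.card ≤ 2 := by
    rw [← h, Finset.card_eq_sum_ones]
    exact Finset.sum_le_sum hf
  interval_cases hO : O.card
  · rw [Finset.card_eq_zero] at hO
    subst hO
    simp at h
  · rw [Finset.card_eq_one] at hO
    obtain ⟨w, rfl⟩ := hO
    left
    exact ⟨w, rfl, by simpa using h⟩
  · rw [Finset.card_eq_two] at hO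
    obtain ⟨w₁, w₂, hne, rfl⟩ := hO
    right
    rw [Finset.sum_pair hne] at h
    have h1 := hf w₁ (by simp)
    have h2 := hf w₂ (by simp)
    exact ⟨w₁, w₂, hne, rfl, by omega, by omega⟩

/-- `v` splits in `k'` -/
def spl (k' : Type) [Field k'] [NumberField k'] [Algebra k k']
    (v : HeightOneSpectrum (𝓞 k)) : Prop :=
  ∃ P P' : Ideal (𝓞 k'), P ≠ P' ∧ P.IsPrime ∧ P'.IsPrime ∧
        P.LiesOver v.asIdeal ∧ P'.LiesOver v.asIdeal

lemma exists_ov {v : HeightOneSpectrum (𝓞 k)} {P : Ideal (𝓞 k')} (hP : P.IsPrime)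
    (hl : P.LiesOver v.asIdeal) : ∃ w ∈ ov k' v, w.asIdeal = P :=
  ⟨((ovEquiv (k' := k') v).symm ⟨P, hP, hl⟩).1, ((ovEquiv (k' := k') v).symm ⟨P, hP, hl⟩).2, rfl⟩

open scoped Classical in
lemma local_A (h2 : Module.finrank k k' = 2) (hunr : Unram k k') {s : ℝ} (hs : 0 < s)
    (v : HeightOneSpectrum (𝓞 k)) :
    (1 - nm (pr v) ^ (-(2 * s))) * (1 - fs (spl k') s (pr v)) ^ 2 ≤
      ∏ w ∈ ov k' v, (1 - nm (pr w) ^ (-s)) := by
  obtain ⟨hx0, hx1⟩ := rpow_lt_one_pr hs v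
  have hn : 0 ≤ nm (pr v) := by linarith [nm_pr v]
  have hsq : nm (pr v) ^ (-(2 * s)) = (nm (pr v) ^ (-s)) ^ 2 := by
    rw [← Real.rpow_natCast, ← Real.rpow_mul hn]
    congr 1
    push_cast
    ring
  rcases finset_cases (ov k' v) (fun w => w.asIdeal.inertiaDeg (𝓞 k)) (fun w hw => by
      have := w.isPrime
      exact Ideal.inertiaDeg_pos w.asIdeal (𝓞 k)) (sum_inertia h2 hunr v) with
    ⟨w, hO, hf⟩ | ⟨w₁, w₂, hne, hO, hf1, hf2⟩
  · have hw : w ∈ ov k' v := by rw [hO]; simp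
    have hns : ¬ spl k' v := by
      rintro ⟨P, P', hPP, hP, hP', hl, hl'⟩
      apply hPP
      obtain ⟨w1, m1, e1⟩ := exists_ov hP hl
      obtain ⟨w2, m2, e2⟩ := exists_ov hP' hl'
      rw [hO, Finset.mem_singleton] at m1 m2
      rw [← e1, ← e2, m1, m2]
    rw [(fs_pr _ s v).2 hns, hO, Finset.prod_singleton, absNorm_of_ov hw, hf, sub_zero, one_pow,
      mul_one, hsq]
    rw [← Real.rpow_natCast (nm (pr v)), ← Real.rpow_mul hn, ← Real.rpow_natCast (nm (pr v) ^ (-s)),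
      ← Real.rpow_mul hn]
    apply le_of_eq
    congr 2
    push_cast
    ring
  · have hw1 : w₁ ∈ ov k' v := by rw [hO]; simp
    have hw2 : w₂ ∈ ov k' v := by rw [hO]; simp
    have hs' : spl k' v := ⟨w₁.asIdeal, w₂.asIdeal, fun h => hne (HeightOneSpectrum.ext h),
      w₁.isPrime, w₂.isPrime, mem_ov.1 hw1, mem_ov.1 hw2⟩
    rw [(fs_pr _ s v).1 hs', hO, Finset.prod_pair hne, absNorm_of_ov hw1, absNorm_of_ov hw2, hf1,
      hf2, pow_one, hsq]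
    nlinarith [sq_nonneg (1 - nm (pr v) ^ (-s)), sq_nonneg (nm (pr v) ^ (-s)),
      mul_nonneg (sq_nonneg (1 - nm (pr v) ^ (-s))) (sq_nonneg (nm (pr v) ^ (-s)))]

lemma exists_under (w : HeightOneSpectrum (𝓞 k')) :
    ∃ v : HeightOneSpectrum (𝓞 k), w ∈ ov k' v := by
  refine ⟨⟨w.asIdeal.under (𝓞 k), ?_, ?_⟩, ?_⟩
  · have := w.isPrime
    infer_instance
  · intro h
    exact w.ne_bot (Ideal.eq_bot_of_comap_eq_bot h)
  · rw [mem_ov]
    exact ⟨rfl⟩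

lemma ov_disjoint : Set.PairwiseDisjoint Set.univ (ov (k := k) k') := by
  intro v _ v' _ hvv
  rw [Function.onFun, Finset.disjoint_left]
  intro w hw hw'
  rw [mem_ov] at hw hw'
  exact hvv (HeightOneSpectrum.ext (hw.over.trans hw'.over.symm))

lemma fc_one_eq {K : Type*} [Field K] [NumberField K] (s : ℝ) (I : (Ideal (𝓞 K))⁰) :
    fc (1 : (Ideal (𝓞 K))⁰ →* ℤˣ) s I = nm I ^ (-s) := by
  simp [fc]

lemma ineqA (h2 : Module.finrank k k' = 2) (hunr : Unram k k') {s : ℝ} (hs : 1 < s) :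
    (∑' J : (Ideal (𝓞 k'))⁰, nm J ^ (-s)) ≤
      (∑' I : (Ideal (𝓞 k))⁰, nm I ^ (-(2 * s))) * (∑' I, fs (spl (k := k) k') s I) ^ 2 := by
  classical
  have hT : ∀ v : HeightOneSpectrum (𝓞 k), ∀ᶠ T : Finset (HeightOneSpectrum (𝓞 k)) in atTop,
      v ∈ T := fun v => by
    filter_upwards [eventually_ge_atTop {v}] with T hT
    exact hT (Finset.mem_singleton_self v)
  have hT' : ∀ w : HeightOneSpectrum (𝓞 k'), ∀ᶠ T : Finset (HeightOneSpectrum (𝓞 k)) in atTop,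
      w ∈ T.biUnion (ov k') := fun w => by
    obtain ⟨v, hv⟩ := exists_under (k := k) w
    filter_upwards [hT v] with T hT
    exact Finset.mem_biUnion.2 ⟨v, hT, hv⟩
  have t1 := tendsto_euler (f := fc 1 s) (fc_mul (1 : (Ideal (𝓞 k'))⁰ →* ℤˣ) s) (fc_one _ s)
    (summable_fc _ hs)
    (fun T : Finset (HeightOneSpectrum (𝓞 k)) => T.biUnion (ov k')) hT'
  have t2 := tendsto_euler (f := fc 1 (2 * s)) (fc_mul (1 : (Ideal (𝓞 k))⁰ →* ℤˣ) (2 * s))
    (fc_one _ _) (summable_fc _ (by linarith)) (fun T => T) hT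
  have t3 := tendsto_euler (fs_mul (spl (k := k) k') s) (fs_one _ s) (summable_fs _ hs)
    (fun T => T) hT
  simp only [fc_one_eq] at t1 t2
  have hx : ∀ v : HeightOneSpectrum (𝓞 k),
      0 ≤ (1 - nm (pr v) ^ (-(2 * s))) * (1 - fs (spl k') s (pr v)) ^ 2 := by
    intro v
    have := (rpow_lt_one_pr (K := k) (show (0 : ℝ) < 2 * s by linarith) v).2
    exact mul_nonneg (by linarith) (sq_nonneg _)
  refine le_of_tendsto_prod (l := (atTop : Filter (Finset (HeightOneSpectrum (𝓞 k)))))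
    (a := fun T : Finset (HeightOneSpectrum (𝓞 k)) =>
      ∏ w ∈ T.biUnion (ov k'), (1 - nm (pr w) ^ (-s)))
    (d := fun T : Finset (HeightOneSpectrum (𝓞 k)) => ∏ v ∈ T,
      ((1 - nm (pr v) ^ (-(2 * s))) * (1 - fs (spl k') s (pr v)) ^ 2)) ?_ ?_ ?_ t1 ?_
  · exact tsum_nonneg fun J => Real.rpow_nonneg (by linarith [nm_ge_one J]) _
  · intro T
    exact Finset.prod_nonneg fun v _ => hx v
  · intro T
    rw [Finset.prod_biUnion (fun v _ v' _ h => ov_disjoint (Set.mem_univ v) (Set.mem_univ v') h)]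
    exact Finset.prod_le_prod (fun v _ => hx v) (fun v _ => local_A h2 hunr (by linarith) v)
  · have := t2.mul (t3.pow 2)
    rw [one_pow, one_mul] at this
    refine this.congr fun T => ?_
    rw [Finset.prod_mul_distrib, Finset.prod_pow]
    ring

end KK

end SI

open SI Sieve in
/-- Two nontrivial quadratic class group characters of `k` that are trivial on all primes which
split in the unramified quadratic extension `k'/k` are equal.

Proof. Suppose `ψ₁ ≠ ψ₂`, put `ψ₃ = ψ₁ ψ₂ ≠ 1`. For `s > 1` all four Dirichlet series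
`ζ_k(s) = L(s,1), L(s,ψ₁), L(s,ψ₂), L(s,ψ₃)` have Euler products (sum over nonzero ideals,
completely multiplicative bounded functions, absolute convergence), and the Euler factor at `𝔮` of
the product of the four is `(1-N𝔮^{-s})^{-4}` if `𝔮` splits and is
`(1-x)^{-4}` or `(1-x²)^{-2}`, in any case `≥ 1`, otherwise. On the other hand
`ζ_{k'}(s) = ∏_split (1-N𝔮^{-s})^{-2} ∏_inert (1-N𝔮^{-2s})^{-1} ≤ ζ_k(2) ∏_split (1-N𝔮^{-s})^{-2}`
(unramified quadratic: a prime has either two primes above it of the same norm or exactly one,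
of norm `N𝔮²`). So `(ζ_{k'}(s)/ζ_k(2))² ≤ ζ_k(s) L(s,ψ₁) L(s,ψ₂) L(s,ψ₃)`. As `s → 1+` the left side
is `≥ c/(s-1)²` and the right side `≤ C/(s-1)` by `L_bounded` and
`NumberField.tendsto_sub_one_mul_dedekindZeta_nhdsGT` (or the ideal counting asymptotics):
contradiction. -/
theorem second_ineq (k k' : Type) [Field k] [NumberField k] [Field k'] [NumberField k']
    [Algebra k k'] (h2 : Module.finrank k k' = 2) (hk : TotComplex k) (hunr : Unram k k')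
    (ψ₁ ψ₂ : ClassGroup (𝓞 k) →* ℤˣ) (h₁ : ψ₁ ≠ 1) (h₂ : ψ₂ ≠ 1)
    (hs : ∀ 𝔮 : (Ideal (𝓞 k))⁰, (𝔮 : Ideal (𝓞 k)).IsPrime →
      (∃ P P' : Ideal (𝓞 k'), P ≠ P' ∧ P.IsPrime ∧ P'.IsPrime ∧
        P.LiesOver (𝔮 : Ideal (𝓞 k)) ∧ P'.LiesOver (𝔮 : Ideal (𝓞 k))) →
      ψ₁ (ClassGroup.mk0 𝔮) = 1 ∧ ψ₂ (ClassGroup.mk0 𝔮) = 1) :
    ψ₁ = ψ₂ := by
  by_contra hne
  have h₃ : ψ₁ * ψ₂ ≠ 1 := by
    intro h
    apply hne
    ext x
    have h3 : ψ₁ x * ψ₂ x = 1 := by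
      have := DFunLike.congr_fun h x
      simpa using this
    rw [mul_eq_one_iff_eq_inv.1 h3, Int.units_inv_eq_self]
  obtain ⟨B₁, hB₁⟩ := L_bounded k hk ψ₁ h₁
  obtain ⟨B₂, hB₂⟩ := L_bounded k hk ψ₂ h₂
  obtain ⟨B₃, hB₃⟩ := L_bounded k hk (ψ₁ * ψ₂) h₃
  -- characters on ideals
  have hL : ∀ (ψ : ClassGroup (𝓞 k) →* ℤˣ) (s : ℝ),
      (∑' I : (Ideal (𝓞 k))⁰, (((ψ (ClassGroup.mk0 I) : ℤˣ) : ℤ) : ℝ) *
        (Ideal.absNorm (I : Ideal (𝓞 k)) : ℝ) ^ (-s)) =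
      ∑' I, fc (ψ.comp ClassGroup.mk0) s I := fun ψ s => rfl
  set Z : ℝ → ℝ := fun s => ∑' I : (Ideal (𝓞 k))⁰, nm I ^ (-s) with hZ
  set Z' : ℝ → ℝ := fun s => ∑' J : (Ideal (𝓞 k'))⁰, nm J ^ (-s) with hZ'
  have hZ'0 : ∀ s, 0 ≤ Z' s := fun s =>
    tsum_nonneg fun J => Real.rpow_nonneg (by linarith [nm_ge_one J]) _
  have hZ0 : ∀ s, 0 ≤ Z s := fun s =>
    tsum_nonneg fun J => Real.rpow_nonneg (by linarith [nm_ge_one J]) _
  have key : ∀ s : ℝ, 1 < s → s ≤ 2 → Z' s ^ 2 ≤ Z 2 ^ 2 * (Z s * (B₁ * B₂ * B₃)) := by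
    intro s hs1 hs2
    have hA := ineqA h2 hunr hs1
    have hB := ineqB (ψ₁.comp ClassGroup.mk0) (ψ₂.comp ClassGroup.mk0) (spl (k := k) k')
      (fun v hv => (hs (pr v) v.isPrime hv).1) (fun v hv => (hs (pr v) v.isPrime hv).2) hs1
    have b1 := hB₁ s hs1 hs2
    have b2 := hB₂ s hs1 hs2
    have b3 := hB₃ s hs1 hs2
    rw [hL] at b1 b2 b3
    have e3 : (ψ₁ * ψ₂).comp ClassGroup.mk0 = ψ₁.comp ClassGroup.mk0 * ψ₂.comp ClassGroup.mk0 := rfl
    rw [e3] at b3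
    have e0 : (∑' I, fc (1 : (Ideal (𝓞 k))⁰ →* ℤˣ) s I) = Z s := tsum_congr fun I => fc_one_eq s I
    rw [e0] at hB
    set S := ∑' I, fs (spl (k := k) k') s I with hS
    have hS0 : 0 ≤ S := tsum_nonneg fun I => fs_nonneg _ _ _
    set L₁ := ∑' I, fc (ψ₁.comp ClassGroup.mk0) s I
    set L₂ := ∑' I, fc (ψ₂.comp ClassGroup.mk0) s I
    set L₃ := ∑' I, fc (ψ₁.comp ClassGroup.mk0 * ψ₂.comp ClassGroup.mk0) s I
    have hB' : S ^ 4 ≤ Z s * (B₁ * B₂ * B₃) := by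
      refine hB.trans ((le_abs_self _).trans ?_)
      rw [abs_mul, abs_mul, abs_mul, abs_of_nonneg (hZ0 s), mul_assoc, mul_assoc]
      refine mul_le_mul_of_nonneg_left ?_ (hZ0 s)
      rw [← mul_assoc]
      have := mul_le_mul (mul_le_mul b1 b2 (abs_nonneg _) ((abs_nonneg _).trans b1)) b3
        (abs_nonneg _) (mul_nonneg ((abs_nonneg _).trans b1) ((abs_nonneg _).trans b2))
      exact this
    have hZ2 : (∑' I : (Ideal (𝓞 k))⁰, nm I ^ (-(2 * s))) ≤ Z 2 := by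
      refine Summable.tsum_le_tsum (fun I => ?_) (summable_nm (by linarith))
        (summable_nm (by norm_num))
      exact Real.rpow_le_rpow_of_exponent_le (nm_ge_one I) (by linarith)
    have hA' : Z' s ≤ Z 2 * S ^ 2 := hA.trans (mul_le_mul_of_nonneg_right hZ2 (sq_nonneg _))
    calc Z' s ^ 2 ≤ (Z 2 * S ^ 2) ^ 2 := pow_le_pow_left₀ (hZ'0 s) hA' 2
      _ = Z 2 ^ 2 * S ^ 4 := by ring
      _ ≤ Z 2 ^ 2 * (Z s * (B₁ * B₂ * B₃)) := mul_le_mul_of_nonneg_left hB' (sq_nonneg _)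
  have r1 : Tendsto (fun s : ℝ => (s - 1) * Z s) (𝓝[>] 1) (𝓝 (dedekindZeta_residue k)) :=
    ZetaSum.tendsto_residue k
  have r2 : Tendsto (fun s : ℝ => (s - 1) * Z' s) (𝓝[>] 1) (𝓝 (dedekindZeta_residue k')) :=
    ZetaSum.tendsto_residue k'
  have r3 : Tendsto (fun s : ℝ => s - 1) (𝓝[>] 1) (𝓝 0) := by
    have : Tendsto (fun s : ℝ => s - 1) (𝓝 1) (𝓝 (1 - 1)) := (continuous_sub_right 1).tendsto 1
    rw [sub_self] at this
    exact this.mono_left nhdsWithin_le_nhds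
  have r4 : Tendsto (fun s : ℝ => Z 2 ^ 2 * (B₁ * B₂ * B₃) * ((s - 1) * ((s - 1) * Z s)))
      (𝓝[>] 1) (𝓝 (Z 2 ^ 2 * (B₁ * B₂ * B₃) * (0 * dedekindZeta_residue k))) :=
    (r3.mul r1).const_mul _
  have r5 := r2.pow 2
  have hle := le_of_tendsto_of_tendsto r5 r4 (by
    filter_upwards [Ioc_mem_nhdsGT (show (1 : ℝ) < 2 by norm_num)] with s hs'
    have := key s hs'.1 hs'.2
    have h3 : 0 ≤ (s - 1) ^ 2 := sq_nonneg _
    calc ((s - 1) * Z' s) ^ 2 = (s - 1) ^ 2 * Z' s ^ 2 := by ring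
      _ ≤ (s - 1) ^ 2 * (Z 2 ^ 2 * (Z s * (B₁ * B₂ * B₃))) := mul_le_mul_of_nonneg_left this h3
      _ = Z 2 ^ 2 * (B₁ * B₂ * B₃) * ((s - 1) * ((s - 1) * Z s)) := by ring)
  rw [zero_mul, mul_zero] at hle
  have hpos := dedekindZeta_residue_pos k'
  have : 0 < dedekindZeta_residue k' ^ 2 := by positivity
  linarith

end Crest.Agent.HB
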