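import Crest.Agent.HB.SetsNF

/-! Row 32 (S0042), chunk S2: the word construction. -/
set_option autoImplicit false

open NumberField IsDedekindDomain
open scoped nonZeroDivisors

namespace Crest.Agent.HB

namespace SetsAux

lemma term_bound (x1 x2 y1 y2 z1 z2 : ℂ) (u v : ℝ) (hx1 : ‖x1‖ ≤ u) (hy1 : ‖y1‖ ≤ u)
    (hz1 : ‖z1‖ ≤ u) (hx2 : ‖x2‖ ≤ v) (hy2 : ‖y2‖ ≤ v) (hz2 : ‖z2‖ ≤ v) :
    ‖(y1 - x1) * (z2 - x2) - (y2 - x2) * (z1 - x1)‖ ≤ 8 * (u * v) := by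
  have hu : 0 ≤ u := (norm_nonneg _).trans hx1
  have hv : 0 ≤ v := (norm_nonneg _).trans hx2
  have h1 : ‖y1 - x1‖ ≤ 2 * u := (norm_sub_le _ _).trans (by linarith)
  have h2 : ‖z2 - x2‖ ≤ 2 * v := (norm_sub_le _ _).trans (by linarith)
  have h3 : ‖y2 - x2‖ ≤ 2 * v := (norm_sub_le _ _).trans (by linarith)
  have h4 : ‖z1 - x1‖ ≤ 2 * u := (norm_sub_le _ _).trans (by linarith)
  calc _ ≤ ‖(y1 - x1) * (z2 - x2)‖ + ‖(y2 - x2) * (z1 - x1)‖ := norm_sub_le _ _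
    _ = ‖y1 - x1‖ * ‖z2 - x2‖ + ‖y2 - x2‖ * ‖z1 - x1‖ := by rw [norm_mul, norm_mul]
    _ ≤ (2 * u) * (2 * v) + (2 * v) * (2 * u) := by
        gcongr
    _ = 8 * (u * v) := by ring

lemma exists_pow5 (K : ℝ) (hK : 1 ≤ K) : ∃ e : ℕ, K < 5 ^ e ∧ (5 : ℝ) ^ e ≤ 5 * K := by
  classical
  have hex : ∃ e : ℕ, K < 5 ^ e := pow_unbounded_of_one_lt K (by norm_num)
  refine ⟨Nat.find hex, Nat.find_spec hex, ?_⟩
  rcases Nat.eq_zero_or_pos (Nat.find hex) with h0 | hpos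
  · have := Nat.find_spec hex
    rw [h0, pow_zero] at this
    linarith
  · have h := Nat.find_min hex (m := Nat.find hex - 1) (by omega)
    push Not at h
    have h2 : Nat.find hex = (Nat.find hex - 1) + 1 := by omega
    rw [h2, pow_succ]
    linarith

/-- Abstract word construction: coordinates `X`. -/
def gpt {F : Type} [Field F] [NumberField F] {N : ℕ} (X : (T5 F → ℤ) → 𝓞 F)
    (w : T5 F → Fin N × Fin N) : Fin N ⊕ Fin N → 𝓞 F × 𝓞 F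
  | Sum.inl j => (X (fun P => lq (w P).1 j), X (fun P => lp (w P).1 j))
  | Sum.inr j => (X (fun P => lq (w P).2 j), 2 * X (fun P => lp (w P).2 j))

section

variable {F : Type} [Field F] [NumberField F] {N : ℕ} (X : (T5 F → ℤ) → 𝓞 F)
    (hX1 : ∀ a, ∀ P : T5 F, X a - (a P : 𝓞 F) ∈ (P : Ideal (𝓞 F)))

include hX1 in
lemma gpt_mod (w : T5 F → Fin N × Fin N) (P : T5 F) (j : Fin N ⊕ Fin N) :
    Ideal.Quotient.mk (P : Ideal (𝓞 F)) (gpt X w j).1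
      = ((lpt (w P) j).1 : 𝓞 F ⧸ (P : Ideal (𝓞 F))) ∧
    Ideal.Quotient.mk (P : Ideal (𝓞 F)) (gpt X w j).2
      = ((lpt (w P) j).2 : 𝓞 F ⧸ (P : Ideal (𝓞 F))) := by
  have key : ∀ a, Ideal.Quotient.mk (P : Ideal (𝓞 F)) (X a) = ((a P : ℤ) : 𝓞 F ⧸ (P : Ideal (𝓞 F))) := by
    intro a
    have h := hX1 a P
    rw [← Ideal.Quotient.eq_zero_iff_mem, map_sub, map_intCast, sub_eq_zero] at h
    exact h
  rcases j with j | j
  · exact ⟨key _, key _⟩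
  · refine ⟨key _, ?_⟩
    simp only [gpt, lpt, map_mul, key]
    push_cast
    rfl

include hX1 in
lemma KG_mod (w w' w'' : T5 F → Fin N × Fin N) (P : T5 F)
    (h : KG (gpt X w) (gpt X w') (gpt X w'') = 0) : ZZ (w P) (w' P) (w'' P) := by
  apply ZZ_of_dvd
  have h1 := congrArg (Ideal.Quotient.mk (P : Ideal (𝓞 F))) h
  rw [map_zero, KG_map] at h1
  have h2 : ((KG (lpt (w P)) (lpt (w' P)) (lpt (w'' P)) : ℤ) : 𝓞 F ⧸ (P : Ideal (𝓞 F))) = 0 := by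
    rw [← h1]
    have h3 := KG_map (Int.castRingHom (𝓞 F ⧸ (P : Ideal (𝓞 F)))) (lpt (w P)) (lpt (w' P))
      (lpt (w'' P))
    rw [eq_intCast] at h3
    rw [h3]
    congr 1 <;> funext j <;> simp only [eq_intCast, (gpt_mod X hX1 _ P j).1, (gpt_mod X hX1 _ P j).2]
  obtain ⟨hPp, hP5⟩ := (mem_T5 (P : Ideal (𝓞 F))).1 P.2
  -- an integer in `P` is divisible by 5
  by_contra hnd
  have hcop : IsCoprime (KG (lpt (w P)) (lpt (w' P)) (lpt (w'' P))) (5 : ℤ) := by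
    rw [isCoprime_comm]
    exact (Int.prime_iff_natAbs_prime.2 (by norm_num)).coprime_iff_not_dvd.2 hnd
  obtain ⟨a, b, hab⟩ := hcop
  have h3 : ((a * KG (lpt (w P)) (lpt (w' P)) (lpt (w'' P)) + b * 5 : ℤ) : 𝓞 F ⧸ (P : Ideal (𝓞 F))) = 1 := by
    rw [hab]; simp
  have h5 : ((5 : ℤ) : 𝓞 F ⧸ (P : Ideal (𝓞 F))) = 0 := by
    have h6 : ((5 : ℤ) : 𝓞 F ⧸ (P : Ideal (𝓞 F)))
        = Ideal.Quotient.mk (P : Ideal (𝓞 F)) ((5 : ℤ) : 𝓞 F) := by rw [map_intCast]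
    rw [h6, Ideal.Quotient.eq_zero_iff_mem]
    exact_mod_cast hP5
  rw [Int.cast_add, Int.cast_mul, Int.cast_mul, h2, h5, mul_zero, mul_zero, add_zero] at h3
  have := Ideal.Quotient.nontrivial_iff.2 hPp.ne_top
  exact zero_ne_one h3

variable (B : ℝ) (hX2 : ∀ a, ∀ φ : F →+* ℂ, ‖φ (X a : F)‖ ≤ B)

include hX2 in
lemma gpt_bound1 (w : T5 F → Fin N × Fin N) (φ : F →+* ℂ) (j : Fin N ⊕ Fin N) :
    ‖φ ((gpt X w j).1 : F)‖ ≤ B := by
  rcases j with j | j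
  · exact hX2 _ φ
  · exact hX2 _ φ

include hX2 in
lemma gpt_bound2 (w : T5 F → Fin N × Fin N) (φ : F →+* ℂ) (j : Fin N) :
    ‖φ ((gpt X w (Sum.inl j)).2 : F)‖ ≤ B := hX2 _ φ

include hX2 in
lemma gpt_bound3 (w : T5 F → Fin N × Fin N) (φ : F →+* ℂ) (j : Fin N) :
    ‖φ ((gpt X w (Sum.inr j)).2 : F)‖ ≤ 2 * B := by
  have h : ((gpt X w (Sum.inr j)).2 : F) = 2 * (X (fun P => lp (w P).2 j) : F) := by
    change (algebraMap (𝓞 F) F) (2 * X (fun P => lp (w P).2 j)) = _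
    rw [map_mul, map_ofNat]
  rw [h, map_mul, norm_mul]
  have h2 : ‖φ 2‖ = 2 := by
    rw [map_ofNat]; simp
  rw [h2]
  have := hX2 (fun P => lp (w P).2 j) φ
  linarith

include hX2 in
lemma KG_bound (w w' w'' : T5 F → Fin N × Fin N) (φ : F →+* ℂ) :
    ‖φ ((KG (gpt X w) (gpt X w') (gpt X w'') : 𝓞 F) : F)‖ ≤ 24 * N * B ^ 2 := by
  have h0 : φ ((KG (gpt X w) (gpt X w') (gpt X w'') : 𝓞 F) : F) =
      KG (fun j => (φ ((gpt X w j).1 : F), φ ((gpt X w j).2 : F)))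
        (fun j => (φ ((gpt X w' j).1 : F), φ ((gpt X w' j).2 : F)))
        (fun j => (φ ((gpt X w'' j).1 : F), φ ((gpt X w'' j).2 : F))) :=
    KG_map (φ.comp (algebraMap (𝓞 F) F)) (gpt X w) (gpt X w') (gpt X w'')
  rw [h0]
  unfold KG
  rw [Fintype.sum_sum_type]
  refine (norm_add_le _ _).trans ?_
  have h1 : ‖∑ j : Fin N, ((φ ((gpt X w' (Sum.inl j)).1 : F) - φ ((gpt X w (Sum.inl j)).1 : F)) *
      (φ ((gpt X w'' (Sum.inl j)).2 : F) - φ ((gpt X w (Sum.inl j)).2 : F)) -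
      (φ ((gpt X w' (Sum.inl j)).2 : F) - φ ((gpt X w (Sum.inl j)).2 : F)) *
      (φ ((gpt X w'' (Sum.inl j)).1 : F) - φ ((gpt X w (Sum.inl j)).1 : F)))‖
      ≤ N * (8 * (B * B)) := by
    refine (norm_sum_le _ _).trans ?_
    refine (Finset.sum_le_card_nsmul _ _ (8 * (B * B)) fun j _ => ?_).trans (by simp)
    apply term_bound <;> first | exact gpt_bound1 X B hX2 _ φ _ | exact gpt_bound2 X B hX2 _ φ _
  have h2 : ‖∑ j : Fin N, ((φ ((gpt X w' (Sum.inr j)).1 : F) - φ ((gpt X w (Sum.inr j)).1 : F)) *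
      (φ ((gpt X w'' (Sum.inr j)).2 : F) - φ ((gpt X w (Sum.inr j)).2 : F)) -
      (φ ((gpt X w' (Sum.inr j)).2 : F) - φ ((gpt X w (Sum.inr j)).2 : F)) *
      (φ ((gpt X w'' (Sum.inr j)).1 : F) - φ ((gpt X w (Sum.inr j)).1 : F)))‖
      ≤ N * (8 * (B * (2 * B))) := by
    refine (norm_sum_le _ _).trans ?_
    refine (Finset.sum_le_card_nsmul _ _ (8 * (B * (2 * B))) fun j _ => ?_).trans (by simp)
    apply term_bound <;> first | exact gpt_bound1 X B hX2 _ φ _ | exact gpt_bound3 X B hX2 _ φ _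
  refine (add_le_add h1 h2).trans (le_of_eq ?_)
  ring

include hX1 hX2 in
/-- The reduction of `gpt` modulo `P^e` is injective. -/
lemma gpt_inj (h5 : Split5 F) (P : Ideal (𝓞 F)) (hP : P ∈ T5 F) (e : ℕ)
    (f : 𝓞 F →+* ZMod (5 ^ e)) (hf : ∀ x, f x = 0 ↔ x ∈ P ^ e)
    (hlt : (2 * B) ^ Module.finrank ℚ F < (5 : ℝ) ^ e)
    (w w' : T5 F → Fin N × Fin N)
    (h : ∀ j, f (gpt X w j).1 = f (gpt X w' j).1) : w = w' := by
  have h1 : ∀ j, (gpt X w j).1 = (gpt X w' j).1 := by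
    intro j
    rw [← sub_eq_zero]
    refine eq_zero_of_mem h5 P hP e _ (2 * B) ?_ ?_ hlt
    · intro φ
      have : (((gpt X w j).1 - (gpt X w' j).1 : 𝓞 F) : F) =
        ((gpt X w j).1 : F) - ((gpt X w' j).1 : F) := by simp
      rw [this, map_sub]
      refine (norm_sub_le _ _).trans ?_
      have a1 := gpt_bound1 X B hX2 w φ j
      have a2 := gpt_bound1 X B hX2 w' φ j
      linarith
    · rw [← hf, map_sub, h j, sub_self]
  have h2 : ∀ (Q : T5 F) j, (lpt (w Q) j).1 = (lpt (w' Q) j).1 := by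
    intro Q j
    have e1 := (gpt_mod X hX1 w Q j).1
    have e2 := (gpt_mod X hX1 w' Q j).1
    rw [h1 j, e2] at e1
    obtain ⟨hQp, hQ5⟩ := (mem_T5 (Q : Ideal (𝓞 F))).1 Q.2
    have := Ideal.Quotient.nontrivial_iff.2 hQp.ne_top
    have v : ∀ u : T5 F → Fin N × Fin N, (lpt (u Q) j).1 = 0 ∨ (lpt (u Q) j).1 = 1 := by
      intro u
      rcases j with j | j <;> simp only [lpt, lq] <;> split_ifs <;> simp
    rcases v w with a | a <;> rcases v w' with b | b <;> rw [a, b] at e1 <;> rw [a, b] <;>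
      simp at e1
  funext Q
  refine Prod.ext ?_ ?_
  · have := h2 Q (Sum.inl (w Q).1)
    simp only [lpt, lq] at this
    by_contra hne
    simp [hne] at this
  · have := h2 Q (Sum.inr (w Q).2)
    simp only [lpt, lq] at this
    by_contra hne
    simp [hne] at this

end

end SetsAux

end Crest.Agent.HB
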