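import Crest.Agent.HB.Rel
import Crest.Agent.HB.Base

/-! Row 32 (S0042), chunk T9: the infinite tower. -/
set_option autoImplicit false

open NumberField IsDedekindDomain
open scoped nonZeroDivisors

namespace Crest.Agent.HB

theorem card_hom_pow (G : Type) [Group G] [Finite G] : ∃ d : ℕ, Nat.card (G →* ℤˣ) = 2 ^ d := by
  have : Finite (G →* ℤˣ) := Finite.of_injective (fun f : G →* ℤˣ => (f : G → ℤˣ))
    DFunLike.coe_injective
  have hp : IsPGroup 2 (G →* ℤˣ) := by
    intro f
    refine ⟨1, ?_⟩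
    ext g
    simp
  have : Fact (Nat.Prime 2) := ⟨Nat.prime_two⟩
  exact IsPGroup.iff_card.1 hp

theorem exists_locSq (K L : Type) [Field K] [NumberField K] [Field L] [NumberField L]
    [Algebra K L] (hK : BaseField K) (hL : Good K L)
    (h64 : 64 ≤ Nat.card ((L ≃ₐ[K] L) →* ℤˣ)) :
    ∃ x : L, LocSq x ∧ ¬ IsSquare x := by
  by_contra hcon
  push Not at hcon
  have : IsGalois K L := hL.gal
  obtain ⟨d, hd⟩ := card_hom_pow (L ≃ₐ[K] L)
  have hd6 : 6 ≤ d := by
    by_contra h
    push Not at h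
    rw [hd] at h64
    have : 2 ^ d ≤ 2 ^ 5 := Nat.pow_le_pow_right (by norm_num) (by omega)
    omega
  have hr := rel_bound K L hK hL (fun x _ hx => hcon x hx) hd
  obtain ⟨n, hn⟩ := hL.pow
  have hG : Nat.card (L ≃ₐ[K] L) = 2 ^ n := by
    rw [IsGalois.card_aut_eq_finrank, hn]
  have := golodShafarevich (L ≃ₐ[K] L) hG hd (by omega) hr
  nlinarith

theorem card_hom_mono (K L M : Type) [Field K] [NumberField K] [Field L] [NumberField L]
    [Field M] [NumberField M] [Algebra K L] [Algebra L M] [Algebra K M] [IsScalarTower K L M]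
    [IsGalois K L] [IsGalois K M] :
    Nat.card ((L ≃ₐ[K] L) →* ℤˣ) ≤ Nat.card ((M ≃ₐ[K] M) →* ℤˣ) := by
  have : Finite ((M ≃ₐ[K] M) →* ℤˣ) :=
    Finite.of_injective (fun f : (M ≃ₐ[K] M) →* ℤˣ => (f : (M ≃ₐ[K] M) → ℤˣ))
    DFunLike.coe_injective
  refine Nat.card_le_card_of_injective
    (fun f : (L ≃ₐ[K] L) →* ℤˣ => f.comp (AlgEquiv.restrictNormalHom L)) ?_
  intro f g hfg
  ext σ
  obtain ⟨τ, hτ⟩ := AlgEquiv.restrictNormalHom_surjective (F := K) (K₁ := L) (E := M) σ
  have := DFunLike.congr_fun hfg τ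
  simp only [MonoidHom.comp_apply] at this
  rw [hτ] at this
  rw [this]

/-- Good extensions of `K` of arbitrarily large degree (from `golodShafarevich`, `rel_bound`,
`extend_good`; `d² < 4(d+3)` is false for `d ≥ 6`). -/
theorem tower : ∃ (K : Type) (_ : Field K) (_ : NumberField K), BaseField K ∧
    ∀ N : ℕ, ∃ (L : Type) (_ : Field L) (_ : NumberField L) (_ : Algebra K L), Good K L ∧
      N ≤ Module.finrank K L := by
  obtain ⟨K, _, _, hK, L₀, _, _, _, hL₀, h64⟩ := base_exists
  refine ⟨K, _, _, hK, ?_⟩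
  suffices h : ∀ N : ℕ, ∃ (L : Type) (_ : Field L) (_ : NumberField L) (_ : Algebra K L),
      Good K L ∧ N ≤ Module.finrank K L ∧ 64 ≤ Nat.card ((L ≃ₐ[K] L) →* ℤˣ) by
    intro N
    obtain ⟨L, _, _, _, hL, hN, _⟩ := h N
    exact ⟨L, _, _, _, hL, hN⟩
  intro N
  induction N with
  | zero => exact ⟨L₀, _, _, _, hL₀, Nat.zero_le _, h64⟩
  | succ N ih =>
    obtain ⟨L, _, _, _, hL, hN, h64L⟩ := ih
    obtain ⟨x, hx, hns⟩ := exists_locSq K L hK hL h64L
    obtain ⟨M, _, _, _, _, _, hM, hlt⟩ := extend_good K L hK hL x hns hx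
    have : IsGalois K L := hL.gal
    have : IsGalois K M := hM.gal
    exact ⟨M, _, _, _, hM, by omega, le_trans h64L (card_hom_mono K L M)⟩

/-- The different of an unramified extension is trivial. -/
theorem natAbs_discr_of_unram (K F : Type) [Field K] [NumberField K] [Field F] [NumberField F]
    [Algebra K F] (h : Unram K F) :
    (discr F).natAbs = (discr K).natAbs ^ Module.finrank K F := by
  have h1 := natAbs_discr_eq_absNorm_differentIdeal_mul_natAbs_discr_pow K (𝒪 := 𝓞 K) F (𝓞 F)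
  have h2 : differentIdeal (𝓞 K) (𝓞 F) = ⊤ := by
    by_contra hne
    obtain ⟨P, hP, hle⟩ := Ideal.exists_le_maximal _ hne
    have hP0 : P ≠ ⊥ := by
      rintro rfl
      exact differentIdeal_ne_bot (le_bot_iff.1 hle)
    have hPp : P.IsPrime := hP.isPrime
    have h3 := h P hPp hP0
    have : Algebra.IsUnramifiedAt (𝓞 K) P := Ideal.ramificationIdx_eq_one_iff.1 h3
    exact (not_dvd_differentIdeal_iff.2 this) (Ideal.dvd_iff_le.2 hle)
  rw [h1, h2, Ideal.absNorm_top, one_mul]

/-- Number fields of every degree `2^{j+1}` with bounded root discriminant, totally complex, with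
`5` totally split: intermediate fields of the tower (a 2-group has subgroups of every order
dividing its order), `|d_F| = |d_K|^{[F:K]}` (different ideal trivial,
`NumberField.natAbs_discr_eq_absNorm_differentIdeal_mul_natAbs_discr_pow`). -/
theorem fields : ∃ C : ℕ, 1 ≤ C ∧ ∀ j : ℕ, ∃ (F : Type) (_ : Field F) (_ : NumberField F),
    Module.finrank ℚ F = 2 ^ (j + 1) ∧ TotComplex F ∧ Split5 F ∧
      (NumberField.discr F).natAbs ≤ C ^ (2 ^ (j + 1)) := by
  obtain ⟨K, _, _, hK, htow⟩ := tower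
  refine ⟨(discr K).natAbs, Int.natAbs_pos.2 (discr_ne_zero K), fun j => ?_⟩
  obtain ⟨L, _, _, _, hL, hN⟩ := htow (2 ^ j)
  have : IsGalois K L := hL.gal
  obtain ⟨n, hn⟩ := hL.pow
  have hjn : j ≤ n := by
    rw [hn] at hN
    exact (Nat.pow_le_pow_iff_right (by norm_num)).1 hN
  have hG : Nat.card (L ≃ₐ[K] L) = 2 ^ n := by
    rw [IsGalois.card_aut_eq_finrank, hn]
  have : Fact (Nat.Prime 2) := ⟨Nat.prime_two⟩
  obtain ⟨H, hH⟩ := Sylow.exists_subgroup_card_pow_prime (G := L ≃ₐ[K] L) 2 (n := n - j)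
    (by rw [hG]; exact Nat.pow_dvd_pow 2 (Nat.sub_le n j))
  let F : IntermediateField K L := IntermediateField.fixedField H
  have hFL : Module.finrank F L = 2 ^ (n - j) := by
    rw [IntermediateField.finrank_fixedField_eq_card, hH]
  have hKF : Module.finrank K F = 2 ^ j := by
    have h1 := Module.finrank_mul_finrank K F L
    rw [hFL, hn] at h1
    have h2 : 2 ^ n = 2 ^ j * 2 ^ (n - j) := by rw [← pow_add]; congr 1; omega
    rw [h2] at h1
    exact Nat.eq_of_mul_eq_mul_right (by positivity) h1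
  have hunr : Unram K F := unram_bot K F L hL.unram
  refine ⟨F, inferInstance, inferInstance, ?_, totComplex_up K F hK.cplx, split5_bot F L hL.split,
    ?_⟩
  · rw [← Module.finrank_mul_finrank ℚ K F, hK.deg, hKF]; ring
  · rw [natAbs_discr_of_unram K F hunr, hKF]
    refine Nat.pow_le_pow_right (Int.natAbs_pos.2 (discr_ne_zero K)) ?_
    exact Nat.pow_le_pow_right (by norm_num) (by omega)

end Crest.Agent.HB
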