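import Crest.Agent.HB.Cover
import Crest.Agent.HB.Tower
import Crest.Agent.HB.Defs
import Crest.Agent.HB.SetsW

/-! Row 32 (S0042), chunk S2: sets in `(ℤ/m)^{2D}` with few triangles of symplectic area zero. -/
set_option autoImplicit false

open NumberField IsDedekindDomain
open scoped nonZeroDivisors

namespace Crest.Agent.HB

/-- One field. `D = 2N`. Words `w : {primes above 5} → Fin N × Fin N`; letter point
`P_i ∈ ℤ^{2N}`: `q_j = [j = i]`, `p_j = [j < i]`, so `KK(P_i,P_k,P_l) = ±1` for distinct `i,k,l`, else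
`0`; a letter `(i,k)` gives the point `(P_i, P_k')`, `'` : second block with `p` doubled, so
`KK = K₁ + 2K₂ ∈ {-3..3}`, `≡ 0 mod 5` iff `K₁ = K₂ = 0`; for random letters this has
probability `≤ (3/N)²`.  By CRT and `cover` choose for `w` and every coordinate an element of `𝓞_F`
reducing to the letter coordinates at all `𝔩 ∣ 5`, with conjugates `≤ a₁ = A R` (for the `p` of the
second block: `2·` such an element).  Then `KK(x_w,x_w',x_w'') ∈ 𝓞_F` has all conjugates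
`≤ N·2·(2a₁)² + N·4·(2a₁)² = 24 N a₁²`, so its norm is `≤ (24 N a₁²)^n < 5^e = m`, `e` minimal, so it
is nonzero mod `𝔩^e` unless it is `0`; `𝓞/𝔩^e ≅ ℤ/5^e` for one prime `𝔩 ∣ 5`. If `KK = 0` in `𝓞_F`,
then `K₁ = K₂ = 0` at every `𝔩`: at most `|W|³ (9/N²)^n` triples.
`m ≤ 5·(24 N a₁²)^n ≤ (120 N a₁²)^n`. The map `w ↦ x_w mod 𝔩^e` is injective. -/
theorem sets_one (A : ℝ) (hA : 1 ≤ A)
    (hcov : ∀ (F : Type) [Field F] [NumberField F], TotComplex F →
      ∀ R : ℝ, 1 ≤ R → ((NumberField.discr F).natAbs : ℝ) ≤ R ^ (Module.finrank ℚ F) →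
      ∀ c : 𝓞 F, ∃ x : 𝓞 F, (5 : 𝓞 F) ∣ x - c ∧ ∀ φ : F →+* ℂ, ‖φ (x : F)‖ ≤ A * R)
    (F : Type) [Field F] [NumberField F] (hF : TotComplex F) (h5 : Split5 F) (R : ℝ) (hR : 1 ≤ R)
    (hd : ((NumberField.discr F).natAbs : ℝ) ≤ R ^ (Module.finrank ℚ F)) (N : ℕ) (hN : 3 ≤ N) :
    ∃ m : ℕ, (24 * N * (A * R) ^ 2) ^ (Module.finrank ℚ F) < m ∧
      (m : ℝ) ≤ (120 * N * (A * R) ^ 2) ^ (Module.finrank ℚ F) ∧
      ∃ S : Finset (Fin (2 * N) → ZMod m × ZMod m), S.Nonempty ∧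
        (((S ×ˢ S ×ˢ S).filter (fun t => KK t.1 t.2.1 t.2.2 = 0)).card : ℝ)
          ≤ (S.card : ℝ) ^ 3 * (9 / (N : ℝ) ^ 2) ^ (Module.finrank ℚ F) := by
  classical
  have hAR : 1 ≤ A * R := one_le_mul_of_one_le_of_one_le hA hR
  have hn0 : Module.finrank ℚ F ≠ 0 := Module.finrank_pos.ne'
  have hNR : (3 : ℝ) ≤ N := by exact_mod_cast hN
  have hsq : 1 ≤ (A * R) ^ 2 := one_le_pow₀ hAR
  have hK1 : 1 ≤ 24 * N * (A * R) ^ 2 := by nlinarith
  obtain ⟨e, he1, he2⟩ := SetsAux.exists_pow5 ((24 * N * (A * R) ^ 2) ^ (Module.finrank ℚ F))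
    (one_le_pow₀ hK1)
  have hX : ∀ a : SetsAux.T5 F → ℤ, ∃ x : 𝓞 F,
      (∀ P : SetsAux.T5 F, x - (a P : 𝓞 F) ∈ (P : Ideal (𝓞 F))) ∧
      ∀ φ : F →+* ℂ, ‖φ (x : F)‖ ≤ A * R :=
    SetsAux.exists_coord (A * R) (hcov F hF R hR hd)
  choose X hX1 hX2 using hX
  have hcardT : (SetsAux.T5 F).card = Module.finrank ℚ F := SetsAux.card_T5 h5
  obtain ⟨P, hP⟩ : (SetsAux.T5 F).Nonempty := by
    rw [← Finset.card_pos, hcardT]; exact Nat.pos_of_ne_zero hn0
  obtain ⟨f, hf⟩ := SetsAux.zmod_hom h5 P hP e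
  refine ⟨5 ^ e, by push_cast; exact he1, ?_, ?_⟩
  · push_cast
    refine he2.trans ?_
    have h120 : (120 * N * (A * R) ^ 2) = 5 * (24 * N * (A * R) ^ 2) := by ring
    rw [h120, mul_pow 5]
    refine mul_le_mul_of_nonneg_right ?_ (by positivity)
    exact le_self_pow₀ (by norm_num) hn0
  · set eqv : Fin (2 * N) ≃ Fin N ⊕ Fin N := (finCongr (two_mul N)).trans finSumFinEquiv.symm
      with heqv
    set pt : (SetsAux.T5 F → Fin N × Fin N) → Fin (2 * N) → ZMod (5 ^ e) × ZMod (5 ^ e) :=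
      fun w j => (f (SetsAux.gpt X w (eqv j)).1, f (SetsAux.gpt X w (eqv j)).2) with hpt
    have hlt2 : (2 * (A * R)) ^ Module.finrank ℚ F < (5 : ℝ) ^ e := by
      refine lt_of_le_of_lt ?_ he1
      refine pow_le_pow_left₀ (by positivity) ?_ _
      nlinarith
    have hinj : Function.Injective pt := by
      intro w w' h
      refine SetsAux.gpt_inj X hX1 (A * R) hX2 h5 P hP e f hf hlt2 w w' ?_
      intro j
      have := congrFun h (eqv.symm j)
      simp only [hpt, Equiv.apply_symm_apply] at this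
      exact (Prod.mk.inj this).1
    have hKK : ∀ w w' w'', KK (pt w) (pt w') (pt w'') = 0 →
        ∀ Q, SetsAux.ZZ (w Q) (w' Q) (w'' Q) := by
      intro w w' w'' h Q
      apply SetsAux.KG_mod X hX1
      rw [SetsAux.KK_eq_KG, hpt] at h
      have h1 := SetsAux.KG_comp eqv
        (fun j => (f (SetsAux.gpt X w j).1, f (SetsAux.gpt X w j).2))
        (fun j => (f (SetsAux.gpt X w' j).1, f (SetsAux.gpt X w' j).2))
        (fun j => (f (SetsAux.gpt X w'' j).1, f (SetsAux.gpt X w'' j).2))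
      have h2 : SetsAux.KG
        (fun j => (f (SetsAux.gpt X w j).1, f (SetsAux.gpt X w j).2))
        (fun j => (f (SetsAux.gpt X w' j).1, f (SetsAux.gpt X w' j).2))
        (fun j => (f (SetsAux.gpt X w'' j).1, f (SetsAux.gpt X w'' j).2)) = 0 := by
        rw [← h1]; exact h
      rw [← SetsAux.KG_map, hf] at h2
      exact SetsAux.eq_zero_of_mem h5 P hP e _ _
        (SetsAux.KG_bound X (A * R) hX2 w w' w'') h2 he1
    refine ⟨Finset.univ.image pt, ?_, ?_⟩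
    · have : Nonempty (Fin N) := ⟨⟨0, by omega⟩⟩
      exact Finset.univ_nonempty.image _
    · have hSc : ((Finset.univ.image pt).card : ℝ) = ((N : ℝ) ^ 2) ^ Module.finrank ℚ F := by
        rw [Finset.card_image_of_injective _ hinj, Finset.card_univ, Fintype.card_fun,
          Fintype.card_prod, Fintype.card_fin, Fintype.card_coe, hcardT]
        push_cast
        ring
      have hfl : (((Finset.univ.image pt) ×ˢ (Finset.univ.image pt) ×ˢ
          (Finset.univ.image pt)).filter (fun t => KK t.1 t.2.1 t.2.2 = 0)).card ≤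
          ((3 * N ^ 2) ^ 2) ^ Module.finrank ℚ F := by
        have hc := SetsAux.card_words (T := SetsAux.T5 F) N
        rw [Fintype.card_coe, hcardT] at hc
        refine le_trans ?_ hc
        refine le_trans (Finset.card_le_card (t := (Finset.univ.filter
          (fun t : (SetsAux.T5 F → Fin N × Fin N) × (SetsAux.T5 F → Fin N × Fin N) ×
            (SetsAux.T5 F → Fin N × Fin N) =>
            ∀ l, SetsAux.ZZ (t.1 l) (t.2.1 l) (t.2.2 l))).image
              (fun t => (pt t.1, pt t.2.1, pt t.2.2))) ?_) Finset.card_image_le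
        rintro ⟨a, b, c⟩ h
        rw [Finset.mem_filter, Finset.mem_product, Finset.mem_product] at h
        obtain ⟨⟨ha, hb, hc'⟩, h0⟩ := h
        obtain ⟨w, -, hw⟩ := Finset.mem_image.1 ha
        obtain ⟨w', -, hw'⟩ := Finset.mem_image.1 hb
        obtain ⟨w'', -, hw''⟩ := Finset.mem_image.1 hc'
        simp only at hw hw' hw'' h0
        subst hw hw' hw''
        refine Finset.mem_image.2 ⟨(w, w', w''), ?_, rfl⟩
        rw [Finset.mem_filter]
        exact ⟨Finset.mem_univ _, hKK w w' w'' h0⟩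
      calc ((((Finset.univ.image pt) ×ˢ (Finset.univ.image pt) ×ˢ
          (Finset.univ.image pt)).filter (fun t => KK t.1 t.2.1 t.2.2 = 0)).card : ℝ)
          ≤ ((((3 * N ^ 2) ^ 2) ^ Module.finrank ℚ F : ℕ) : ℝ) := by exact_mod_cast hfl
        _ = ((Finset.univ.image pt).card : ℝ) ^ 3 * (9 / (N : ℝ) ^ 2) ^ (Module.finrank ℚ F) := by
            rw [hSc, pow_right_comm ((N : ℝ) ^ 2), ← mul_pow]
            push_cast
            congr 1
            have : (N : ℝ) ≠ 0 := by positivity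
            field_simp
            ring

/-- Assembly with `fields`: `R = C`, `n = 2^{j+1}`, `N` a large constant with
`9/N² ≤ (120 N (AR)²)^{-3/2}`. -/
theorem sets : ∃ D C : ℕ, ∀ B : ℕ, ∃ m : ℕ, B ≤ m ∧ m ≤ (B + 2) ^ C ∧
    ∃ S : Finset (Fin D → ZMod m × ZMod m), S.Nonempty ∧
      (((S ×ˢ S ×ˢ S).filter (fun t => KK t.1 t.2.1 t.2.2 = 0)).card : ℝ)
        ≤ (S.card : ℝ) ^ 3 * (m : ℝ) ^ (-(3 / 2 : ℝ)) := by
  obtain ⟨A, hA, hcov⟩ := cover
  obtain ⟨C₀, hC₀, hfields⟩ := fields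
  have hC₀R : (1 : ℝ) ≤ C₀ := by exact_mod_cast hC₀
  set a : ℝ := A * C₀ with ha
  have ha1 : 1 ≤ a := one_le_mul_of_one_le_of_one_le hA hC₀R
  -- choose `N`
  obtain ⟨N, hN⟩ := exists_nat_ge (81 * (120 * a ^ 2) ^ 3)
  have hasq : 1 ≤ a ^ 2 := one_le_pow₀ ha1
  have hN81 : (81 : ℝ) ≤ N := by
    refine le_trans ?_ hN
    have : 1 ≤ (120 * a ^ 2) ^ 3 := one_le_pow₀ (by linarith)
    linarith
  have hN3 : 3 ≤ N := by
    have : (3 : ℝ) ≤ N := by linarith
    exact_mod_cast this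
  have hNpos : (0 : ℝ) < N := by linarith
  set M : ℝ := 120 * N * a ^ 2 with hM
  have hM1 : 1 ≤ M := by rw [hM]; nlinarith
  have hMpos : 0 < M := by linarith
  -- `9 / N^2 ≤ M^(-3/2)`
  have hkey : 9 / (N : ℝ) ^ 2 ≤ M ^ (-(3 / 2 : ℝ)) := by
    have h1 : M ^ (3 / 2 : ℝ) ≤ (N : ℝ) ^ 2 / 9 := by
      have h2 : M ^ (3 / 2 : ℝ) = Real.sqrt (M ^ 3) := by
        rw [Real.sqrt_eq_rpow, ← Real.rpow_natCast M 3, ← Real.rpow_mul hMpos.le]
        norm_num
      rw [h2, Real.sqrt_le_left (by positivity)]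
      have h3 : M ^ 3 = N ^ 3 * (120 * a ^ 2) ^ 3 := by rw [hM]; ring
      rw [h3]
      have h4 : (120 * a ^ 2) ^ 3 ≤ N / 81 := by linarith
      calc (N : ℝ) ^ 3 * (120 * a ^ 2) ^ 3 ≤ (N : ℝ) ^ 3 * (N / 81) := by gcongr
        _ = ((N : ℝ) ^ 2 / 9) ^ 2 := by ring
    rw [Real.rpow_neg hMpos.le]
    have h5 : 0 < M ^ (3 / 2 : ℝ) := Real.rpow_pos_of_pos hMpos _
    rw [div_le_iff₀ (by positivity), inv_mul_eq_div, le_div_iff₀ h5]
    linarith
  -- exponent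
  obtain ⟨c, hc⟩ : ∃ c : ℕ, M ≤ 2 ^ c := by
    obtain ⟨c, hc⟩ := pow_unbounded_of_one_lt M (by norm_num : (1 : ℝ) < 2)
    exact ⟨c, hc.le⟩
  refine ⟨2 * N, 2 * c, fun B => ?_⟩
  -- choose `j`
  obtain ⟨j, hj1, hj2⟩ : ∃ j : ℕ, B ≤ 2 ^ (2 ^ (j + 1)) ∧ 2 ^ (2 ^ j) ≤ B + 2 := by
    classical
    have hex : ∃ j : ℕ, B ≤ 2 ^ (2 ^ (j + 1)) := by
      refine ⟨B, ?_⟩
      have h1 : B < 2 ^ B := Nat.lt_two_pow_self
      have h2 : B + 1 < 2 ^ (B + 1) := Nat.lt_two_pow_self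
      calc B ≤ 2 ^ B := h1.le
        _ ≤ 2 ^ (2 ^ (B + 1)) := Nat.pow_le_pow_right (by norm_num) (by omega)
    refine ⟨Nat.find hex, Nat.find_spec hex, ?_⟩
    rcases Nat.eq_zero_or_pos (Nat.find hex) with h0 | hpos
    · rw [h0]; norm_num
    · have h := Nat.find_min hex (m := Nat.find hex - 1) (by omega)
      push Not at h
      have h2 : Nat.find hex - 1 + 1 = Nat.find hex := by omega
      rw [h2] at h
      omega
  obtain ⟨F, _, _, hdeg, hcx, hs5, hdisc⟩ := hfields j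
  obtain ⟨m, hm1, hm2, S, hSne, hS⟩ := sets_one A hA hcov F hcx hs5 C₀ hC₀R
    (by rw [hdeg]; exact_mod_cast hdisc) N hN3
  rw [← ha] at hm1 hm2
  rw [hdeg] at hm1 hm2 hS
  rw [← hM] at hm2
  refine ⟨m, ?_, ?_, S, hSne, hS.trans ?_⟩
  · have h1 : (B : ℝ) ≤ m := by
      calc (B : ℝ) ≤ 2 ^ (2 ^ (j + 1)) := by exact_mod_cast hj1
        _ ≤ (24 * N * a ^ 2) ^ (2 ^ (j + 1)) := by
            refine pow_le_pow_left₀ (by norm_num) ?_ _
            nlinarith
        _ ≤ m := hm1.le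
    exact_mod_cast h1
  · have h1 : (m : ℝ) ≤ ((B + 2 : ℕ) : ℝ) ^ (2 * c) := by
      calc (m : ℝ) ≤ M ^ (2 ^ (j + 1)) := hm2
        _ ≤ (2 ^ c) ^ (2 ^ (j + 1)) := pow_le_pow_left₀ hMpos.le hc _
        _ = (2 ^ (2 ^ j)) ^ (2 * c) := by
            rw [← pow_mul, ← pow_mul]
            congr 1
            ring
        _ ≤ ((B + 2 : ℕ) : ℝ) ^ (2 * c) := by
            refine pow_le_pow_left₀ (by positivity) ?_ _
            exact_mod_cast hj2
    exact_mod_cast h1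
  · refine mul_le_mul_of_nonneg_left ?_ (by positivity)
    have hmpos : (0 : ℝ) < m := lt_of_le_of_lt (by positivity) hm1
    calc (9 / (N : ℝ) ^ 2) ^ (2 ^ (j + 1)) ≤ (M ^ (-(3 / 2 : ℝ))) ^ (2 ^ (j + 1)) :=
          pow_le_pow_left₀ (by positivity) hkey _
      _ = (M ^ (2 ^ (j + 1))) ^ (-(3 / 2 : ℝ)) := by
          rw [← Real.rpow_natCast (M ^ (-(3 / 2 : ℝ))), ← Real.rpow_mul hMpos.le,
            ← Real.rpow_natCast M (2 ^ (j + 1)), ← Real.rpow_mul hMpos.le, mul_comm]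
      _ ≤ (m : ℝ) ^ (-(3 / 2 : ℝ)) :=
          Real.rpow_le_rpow_of_nonpos hmpos hm2 (by norm_num)

end Crest.Agent.HB
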