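import Crest.Agent.HB.Cover
import Crest.Agent.HB.Tower
import Crest.Agent.HB.Defs

/-! Row 32 (S0042), chunk S2: auxiliary facts. -/
set_option autoImplicit false

open NumberField IsDedekindDomain
open scoped nonZeroDivisors

namespace Crest.Agent.HB

namespace SetsAux

/-- Symplectic area with a general index type. -/
def KG {R ι : Type*} [CommRing R] [Fintype ι] (x y z : ι → R × R) : R :=
  ∑ j, (((y j).1 - (x j).1) * ((z j).2 - (x j).2) - ((y j).2 - (x j).2) * ((z j).1 - (x j).1))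

lemma KK_eq_KG {R : Type*} [CommRing R] {D : ℕ} (x y z : Fin D → R × R) :
    KK x y z = KG x y z := rfl

lemma KG_comp {R ι κ : Type*} [CommRing R] [Fintype ι] [Fintype κ] (e : ι ≃ κ)
    (x y z : κ → R × R) :
    KG (fun j => x (e j)) (fun j => y (e j)) (fun j => z (e j)) = KG x y z := by
  unfold KG
  exact e.sum_comp
    (fun j => (((y j).1 - (x j).1) * ((z j).2 - (x j).2) - ((y j).2 - (x j).2) * ((z j).1 - (x j).1)))

lemma KG_map {R R' ι : Type*} [CommRing R] [CommRing R'] [Fintype ι] (f : R →+* R')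
    (x y z : ι → R × R) :
    f (KG x y z) = KG (fun j => (f (x j).1, f (x j).2)) (fun j => (f (y j).1, f (y j).2))
      (fun j => (f (z j).1, f (z j).2)) := by
  unfold KG
  rw [map_sum]
  refine Finset.sum_congr rfl fun j _ => ?_
  simp only [map_sub, map_mul]

/-- `[a < b]`. -/
def sg {N : ℕ} (a b : Fin N) : ℤ := if a < b then 1 else 0

def K1 {N : ℕ} (i k l : Fin N) : ℤ := sg k l - sg l k + sg i k - sg k i + sg l i - sg i l

/-- The letter point. -/
def lq {N : ℕ} (i j : Fin N) : ℤ := if j = i then 1 else 0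
def lp {N : ℕ} (i j : Fin N) : ℤ := if j < i then 1 else 0

lemma sum_lq_lp {N : ℕ} (a b : Fin N) : ∑ j, lq a j * lp b j = sg a b := by
  unfold lq lp sg
  rw [Finset.sum_eq_single a]
  · simp
  · intro j _ hj
    simp [hj]
  · simp

lemma KG_letter {N : ℕ} (i k l : Fin N) :
    KG (fun j => (lq i j, lp i j)) (fun j => (lq k j, lp k j)) (fun j => (lq l j, lp l j))
      = K1 i k l := by
  unfold KG K1
  rw [← sum_lq_lp k l, ← sum_lq_lp l k, ← sum_lq_lp i k, ← sum_lq_lp k i, ← sum_lq_lp l i,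
    ← sum_lq_lp i l, ← Finset.sum_sub_distrib, ← Finset.sum_add_distrib,
    ← Finset.sum_sub_distrib, ← Finset.sum_add_distrib, ← Finset.sum_sub_distrib]
  refine Finset.sum_congr rfl fun j _ => ?_
  ring

/-- Coordinates of the letter `(a, b)`. -/
def lpt {N : ℕ} (a : Fin N × Fin N) : Fin N ⊕ Fin N → ℤ × ℤ
  | Sum.inl j => (lq a.1 j, lp a.1 j)
  | Sum.inr j => (lq a.2 j, 2 * lp a.2 j)

lemma KG_lpt {N : ℕ} (a b c : Fin N × Fin N) :
    KG (lpt a) (lpt b) (lpt c) = K1 a.1 b.1 c.1 + 2 * K1 a.2 b.2 c.2 := by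
  rw [← KG_letter a.1 b.1 c.1, ← KG_letter a.2 b.2 c.2]
  unfold KG
  rw [Fintype.sum_sum_type]
  congr 1
  rw [Finset.mul_sum]
  refine Finset.sum_congr rfl fun j _ => ?_
  simp only [lpt]
  ring

lemma K1_cases {N : ℕ} (i k l : Fin N) :
    |K1 i k l| ≤ 1 ∧ (K1 i k l = 0 → i = k ∨ k = l ∨ i = l) := by
  unfold K1 sg
  rcases lt_trichotomy i k with h1 | h1 | h1 <;>
  rcases lt_trichotomy k l with h2 | h2 | h2 <;>
  rcases lt_trichotomy i l with h3 | h3 | h3 <;>
  simp_all [not_lt_of_gt]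
  · exact lt_irrefl _ (h1.trans (h2.trans h3))
  · exact lt_irrefl _ (h2.trans (h1.trans h3))

/-- zero letter triple -/
def ZZ {N : ℕ} (a b c : Fin N × Fin N) : Prop :=
  (a.1 = b.1 ∨ b.1 = c.1 ∨ a.1 = c.1) ∧ (a.2 = b.2 ∨ b.2 = c.2 ∨ a.2 = c.2)

instance {N : ℕ} (a b c : Fin N × Fin N) : Decidable (ZZ a b c) := by
  unfold ZZ; infer_instance

lemma ZZ_of_dvd {N : ℕ} (a b c : Fin N × Fin N)
    (h : (5 : ℤ) ∣ KG (lpt a) (lpt b) (lpt c)) : ZZ a b c := by
  rw [KG_lpt] at h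
  obtain ⟨h1, h1'⟩ := K1_cases a.1 b.1 c.1
  obtain ⟨h2, h2'⟩ := K1_cases a.2 b.2 c.2
  rw [abs_le] at h1 h2
  have e1 : K1 a.1 b.1 c.1 = 0 := by omega
  have e2 : K1 a.2 b.2 c.2 = 0 := by omega
  exact ⟨h1' e1, h2' e2⟩

lemma card_triples (N : ℕ) :
    (Finset.univ.filter (fun t : Fin N × Fin N × Fin N =>
      t.1 = t.2.1 ∨ t.2.1 = t.2.2 ∨ t.1 = t.2.2)).card ≤ 3 * N ^ 2 := by
  classical
  have hsub : (Finset.univ.filter (fun t : Fin N × Fin N × Fin N =>
      t.1 = t.2.1 ∨ t.2.1 = t.2.2 ∨ t.1 = t.2.2)) ⊆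
      ((Finset.univ : Finset (Fin N × Fin N)).image (fun p => (p.1, p.1, p.2))) ∪
      (((Finset.univ : Finset (Fin N × Fin N)).image (fun p => (p.1, p.2, p.2))) ∪
      ((Finset.univ : Finset (Fin N × Fin N)).image (fun p => (p.1, p.2, p.1)))) := by
    rintro ⟨i, k, l⟩ h
    simp only [Finset.mem_filter, Finset.mem_univ, true_and] at h
    simp only [Finset.mem_union, Finset.mem_image, Finset.mem_univ, true_and, Prod.mk.injEq,
      Prod.exists]
    rcases h with h | h | h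
    · exact Or.inl ⟨i, l, rfl, h, rfl⟩
    · exact Or.inr (Or.inl ⟨i, k, rfl, rfl, h⟩)
    · exact Or.inr (Or.inr ⟨i, k, rfl, rfl, h⟩)
  refine (Finset.card_le_card hsub).trans ?_
  refine (Finset.card_union_le _ _).trans ?_
  have h1 : ∀ f : Fin N × Fin N → Fin N × Fin N × Fin N,
      ((Finset.univ : Finset (Fin N × Fin N)).image f).card ≤ N ^ 2 := by
    intro f
    refine Finset.card_image_le.trans ?_
    simp [sq]
  have h2 := Finset.card_union_le
    ((Finset.univ : Finset (Fin N × Fin N)).image (fun p => (p.1, p.2, p.2)))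
    ((Finset.univ : Finset (Fin N × Fin N)).image (fun p => (p.1, p.2, p.1)))
  have h3 := h1 (fun p => (p.1, p.1, p.2))
  have h4 := h1 (fun p => (p.1, p.2, p.2))
  have h5 := h1 (fun p => (p.1, p.2, p.1))
  omega

lemma card_ZZ (N : ℕ) :
    (Finset.univ.filter (fun t : (Fin N × Fin N) × (Fin N × Fin N) × (Fin N × Fin N) =>
      ZZ t.1 t.2.1 t.2.2)).card ≤ (3 * N ^ 2) ^ 2 := by
  classical
  set B := (Finset.univ.filter (fun t : Fin N × Fin N × Fin N =>
      t.1 = t.2.1 ∨ t.2.1 = t.2.2 ∨ t.1 = t.2.2)) with hB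
  calc _ ≤ (B ×ˢ B).card := by
        refine Finset.card_le_card_of_injOn
          (fun t => ((t.1.1, t.2.1.1, t.2.2.1), (t.1.2, t.2.1.2, t.2.2.2))) ?_ ?_
        · rintro ⟨a, b, c⟩ h
          have h : ZZ a b c := (Finset.mem_filter.1 (Finset.mem_coe.1 h)).2
          simp only [hB, Finset.mem_coe, Finset.mem_product, Finset.mem_filter, Finset.mem_univ,
            true_and]
          exact h
        · rintro ⟨⟨a, a'⟩, ⟨b, b'⟩, ⟨c, c'⟩⟩ _ ⟨⟨d, d'⟩, ⟨e, e'⟩, ⟨f, f'⟩⟩ _ h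
          simp only [Prod.mk.injEq] at h ⊢
          tauto
    _ = B.card * B.card := Finset.card_product _ _
    _ ≤ (3 * N ^ 2) ^ 2 := by
        rw [sq (3 * N ^ 2)]
        exact Nat.mul_le_mul (card_triples N) (card_triples N)

lemma card_words {T : Type*} [Fintype T] [DecidableEq T] (N : ℕ) :
    (Finset.univ.filter (fun t : (T → Fin N × Fin N) × (T → Fin N × Fin N) × (T → Fin N × Fin N) =>
      ∀ l, ZZ (t.1 l) (t.2.1 l) (t.2.2 l))).card ≤ ((3 * N ^ 2) ^ 2) ^ Fintype.card T := by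
  classical
  set Z := (Finset.univ.filter (fun t : (Fin N × Fin N) × (Fin N × Fin N) × (Fin N × Fin N) =>
      ZZ t.1 t.2.1 t.2.2)) with hZ
  calc _ ≤ (Fintype.piFinset (fun _ : T => Z)).card := by
        refine Finset.card_le_card_of_injOn (fun t l => (t.1 l, t.2.1 l, t.2.2 l)) ?_ ?_
        · rintro ⟨a, b, c⟩ h
          simp only [Finset.mem_coe, Finset.mem_filter, Finset.mem_univ, true_and] at h
          simp only [Finset.mem_coe, Fintype.mem_piFinset, hZ, Finset.mem_filter, Finset.mem_univ,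
            true_and]
          exact h
        · rintro ⟨a, b, c⟩ _ ⟨d, e, f⟩ _ h
          simp only [Prod.mk.injEq]
          refine ⟨?_, ?_, ?_⟩
          · funext l; exact (Prod.mk.inj (congrFun h l)).1
          · funext l; exact (Prod.mk.inj (Prod.mk.inj (congrFun h l)).2).1
          · funext l; exact (Prod.mk.inj (Prod.mk.inj (congrFun h l)).2).2
    _ = Z.card ^ Fintype.card T := by
        rw [Fintype.card_piFinset]; simp
    _ ≤ _ := Nat.pow_le_pow_left (card_ZZ N) _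

end SetsAux

end Crest.Agent.HB
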