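import Crest.Agent.HB.SetsAux

/-! Row 32 (S0042), chunk S2: number field facts above `5`. -/
set_option autoImplicit false

open NumberField IsDedekindDomain
open scoped nonZeroDivisors

namespace Crest.Agent.HB

namespace SetsAux

open UniqueFactorizationMonoid

section NF

variable (F : Type) [Field F] [NumberField F]

lemma five_ne0 : (5 : 𝓞 F) ≠ 0 := by
  simp

lemma five_ne : (Ideal.span {(5 : 𝓞 F)}) ≠ ⊥ := by
  rw [Ne, Ideal.span_singleton_eq_bot]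
  exact five_ne0 F

open scoped Classical in
/-- Primes above `5`. -/
noncomputable def T5 : Finset (Ideal (𝓞 F)) := (normalizedFactors (Ideal.span {(5 : 𝓞 F)})).toFinset

variable {F}

lemma mem_T5 (P : Ideal (𝓞 F)) : P ∈ T5 F ↔ P.IsPrime ∧ (5 : 𝓞 F) ∈ P := by
  unfold T5
  rw [Multiset.mem_toFinset, Ideal.mem_normalizedFactors_iff (five_ne F),
    Ideal.span_singleton_le_iff_mem]

lemma ne_bot_T5 (P : Ideal (𝓞 F)) (hP : P ∈ T5 F) : P ≠ ⊥ := by
  rintro rfl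
  have := ((mem_T5 _).1 hP).2
  rw [Ideal.mem_bot] at this
  exact five_ne0 F this

lemma count_T5 (h5 : Split5 F) (P : Ideal (𝓞 F)) (hP : P ∈ T5 F) :
    (normalizedFactors (Ideal.span {(5 : 𝓞 F)})).count P = 1 := by
  obtain ⟨hPp, hP5⟩ := (mem_T5 P).1 hP
  have hmap : (Ideal.span {(5 : ℤ)}).map (algebraMap ℤ (𝓞 F)) = Ideal.span {(5 : 𝓞 F)} := by
    rw [Ideal.map_span]; simp
  have hmax : (Ideal.span {(5 : ℤ)}).IsMaximal := by
    apply PrincipalIdealRing.isMaximal_of_irreducible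
    exact (Int.prime_iff_natAbs_prime.2 (by norm_num)).irreducible
  have hlies : P.LiesOver (Ideal.span {(5 : ℤ)}) := by
    constructor
    refine hmax.eq_of_le ?_ ?_
    · rw [Ne, Ideal.eq_top_iff_one]
      intro h
      rw [Ideal.under_def, Ideal.mem_comap, map_one] at h
      exact hPp.ne_top ((Ideal.eq_top_iff_one _).2 h)
    · rw [Ideal.span_singleton_le_iff_mem, Ideal.under_def, Ideal.mem_comap]
      simpa using hP5
  have h1 := Ideal.IsDedekindDomain.ramificationIdx_eq_normalizedFactors_count (Ideal.span {(5 : ℤ)}) P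
    (by rw [hmap]; exact five_ne F)
  rw [hmap] at h1
  rw [← h1]
  exact (h5 P hPp hP5).2

lemma nodup_T5 (h5 : Split5 F) : (normalizedFactors (Ideal.span {(5 : 𝓞 F)})).Nodup := by
  classical
  rw [Multiset.nodup_iff_count_le_one]
  intro P
  by_cases h : P ∈ T5 F
  · exact (count_T5 h5 P h).le
  · unfold T5 at h
    rw [Multiset.mem_toFinset] at h
    rw [Multiset.count_eq_zero_of_notMem h]
    exact zero_le_one

lemma card_T5 (h5 : Split5 F) : (T5 F).card = Module.finrank ℚ F := by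
  classical
  have h1 : (T5 F).card = (normalizedFactors (Ideal.span {(5 : 𝓞 F)})).card := by
    unfold T5
    exact Multiset.toFinset_card_of_nodup (nodup_T5 h5)
  rw [h1]
  have h2 := congrArg Ideal.absNorm (Ideal.prod_normalizedFactors_eq_self (five_ne F))
  rw [map_multiset_prod] at h2
  have h3 : (normalizedFactors (Ideal.span {(5 : 𝓞 F)})).map (Ideal.absNorm) =
      Multiset.replicate (normalizedFactors (Ideal.span {(5 : 𝓞 F)})).card 5 := by
    rw [Multiset.eq_replicate]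
    refine ⟨by simp, ?_⟩
    intro b hb
    obtain ⟨P, hP, rfl⟩ := Multiset.mem_map.1 hb
    have hP' : P ∈ T5 F := by unfold T5; rwa [Multiset.mem_toFinset]
    obtain ⟨hPp, hP5⟩ := (mem_T5 P).1 hP'
    exact (h5 P hPp hP5).1
  rw [h3, Multiset.prod_replicate, Ideal.absNorm_span_singleton] at h2
  have h4 : Algebra.norm ℤ (5 : 𝓞 F) = 5 ^ Module.finrank ℤ (𝓞 F) := by
    have := Algebra.norm_natCast ℤ (S := 𝓞 F) 5
    simpa using this
  rw [h4, NumberField.RingOfIntegers.rank] at h2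
  have h5' : (5 : ℕ) ^ (normalizedFactors (Ideal.span {(5 : 𝓞 F)})).card
      = 5 ^ Module.finrank ℚ F := by
    rw [h2, Int.natAbs_pow]; rfl
  exact Nat.pow_right_injective (by norm_num) h5'

lemma exists_coord (B : ℝ)
    (hcov : ∀ c : 𝓞 F, ∃ x : 𝓞 F, (5 : 𝓞 F) ∣ x - c ∧ ∀ φ : F →+* ℂ, ‖φ (x : F)‖ ≤ B)
    (a : T5 F → ℤ) :
    ∃ x : 𝓞 F, (∀ P : T5 F, x - (a P : 𝓞 F) ∈ (P : Ideal (𝓞 F))) ∧
      ∀ φ : F →+* ℂ, ‖φ (x : F)‖ ≤ B := by
  classical
  obtain ⟨y, hy⟩ := IsDedekindDomain.exists_forall_sub_mem_ideal (s := T5 F)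
    (fun P => P) (fun _ => 1)
    (fun P hP => Ideal.prime_of_isPrime (ne_bot_T5 P hP) ((mem_T5 P).1 hP).1)
    (fun P _ Q _ h => h) (fun P => ((a P : ℤ) : 𝓞 F))
  obtain ⟨x, ⟨t, ht⟩, hxB⟩ := hcov y
  refine ⟨x, fun P => ?_, hxB⟩
  have h1 := hy P P.2
  simp only [pow_one] at h1
  have h2 : x - y ∈ (P : Ideal (𝓞 F)) := by
    rw [ht]; exact Ideal.mul_mem_right _ _ ((mem_T5 _).1 P.2).2
  have := add_mem h2 h1
  simpa using this

lemma norm_bound (x : 𝓞 F) (B : ℝ) (hB : ∀ φ : F →+* ℂ, ‖φ (x : F)‖ ≤ B) :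
    ((Ideal.absNorm (Ideal.span {x}) : ℕ) : ℝ) ≤ B ^ Module.finrank ℚ F := by
  rw [Ideal.absNorm_span_singleton]
  have h1 : (((Algebra.norm ℤ x).natAbs : ℕ) : ℝ) = ((|Algebra.norm ℚ (x : F)| : ℚ) : ℝ) := by
    have := Algebra.coe_norm_int x
    rw [← this, Nat.cast_natAbs]
    push_cast
    rfl
  rw [h1, ← InfinitePlace.prod_eq_abs_norm, ← InfinitePlace.sum_mult_eq, ← Finset.prod_pow_eq_pow_sum]
  refine Finset.prod_le_prod (fun _ _ => by positivity) fun w _ => ?_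
  refine pow_le_pow_left₀ (by positivity) ?_ _
  rw [← w.norm_embedding_eq]
  exact hB _

lemma pow_five_notMem (h5 : Split5 F) (P : Ideal (𝓞 F)) (hP : P ∈ T5 F) (e i : ℕ) (hi : i ≤ e)
    (h : (5 : 𝓞 F) ^ i ∈ P ^ e) : i = e := by
  classical
  obtain ⟨hPp, hP5⟩ := (mem_T5 P).1 hP
  have hprime : Prime P := Ideal.prime_of_isPrime (ne_bot_T5 P hP) hPp
  have h1 : P ^ e ∣ (Ideal.span {(5 : 𝓞 F)}) ^ i := by
    rw [Ideal.dvd_iff_le, Ideal.span_singleton_pow, Ideal.span_singleton_le_iff_mem]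
    exact h
  have h2 : emultiplicity P (Ideal.span {(5 : 𝓞 F)}) = 1 := by
    rw [emultiplicity_eq_count_normalizedFactors hprime.irreducible (five_ne F), normalize_eq,
      count_T5 h5 P hP]
    rfl
  have h3 := le_emultiplicity_of_pow_dvd h1
  rw [emultiplicity_pow hprime, h2, mul_one] at h3
  have h4 : e ≤ i := by exact_mod_cast h3
  omega

lemma zmod_hom (h5 : Split5 F) (P : Ideal (𝓞 F)) (hP : P ∈ T5 F) (e : ℕ) :
    ∃ f : 𝓞 F →+* ZMod (5 ^ e), ∀ x, f x = 0 ↔ x ∈ P ^ e := by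
  classical
  obtain ⟨hPp, hP5⟩ := (mem_T5 P).1 hP
  have hbot := ne_bot_T5 P hP
  have hcard : Nat.card (𝓞 F ⧸ P ^ e) = 5 ^ e := by
    have := (h5 P hPp hP5).1
    have h2 : Ideal.absNorm (P ^ e) = 5 ^ e := by rw [map_pow, this]
    rw [← h2]; rfl
  have hfin : Finite (𝓞 F ⧸ P ^ e) := Nat.finite_of_card_ne_zero (by rw [hcard]; positivity)
  have := Fintype.ofFinite (𝓞 F ⧸ P ^ e)
  have hcard' : Fintype.card (𝓞 F ⧸ P ^ e) = 5 ^ e := by rw [← hcard, Nat.card_eq_fintype_card]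
  have : Fact (Nat.Prime 5) := ⟨by norm_num⟩
  have hchar : CharP (𝓞 F ⧸ P ^ e) (5 ^ e) := by
    refine charP_of_prime_pow_injective _ 5 e hcard' ?_
    intro i hi h
    refine pow_five_notMem h5 P hP e i hi ?_
    rw [← Ideal.Quotient.eq_zero_iff_mem, map_pow]
    have h5q : (Ideal.Quotient.mk (P ^ e)) (5 : 𝓞 F) = ((5 : ℕ) : 𝓞 F ⧸ P ^ e) := by
      have := map_natCast (Ideal.Quotient.mk (P ^ e)) 5
      simpa using this
    rw [h5q]
    exact h
  refine ⟨(ZMod.ringEquiv (𝓞 F ⧸ P ^ e) hcard').symm.toRingHom.comp (Ideal.Quotient.mk (P ^ e)), ?_⟩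
  intro x
  rw [← Ideal.Quotient.eq_zero_iff_mem]
  simp

lemma eq_zero_of_mem (h5 : Split5 F) (P : Ideal (𝓞 F)) (hP : P ∈ T5 F) (e : ℕ) (x : 𝓞 F) (B : ℝ)
    (hB : ∀ φ : F →+* ℂ, ‖φ (x : F)‖ ≤ B) (hx : x ∈ P ^ e)
    (hlt : B ^ Module.finrank ℚ F < (5 : ℝ) ^ e) : x = 0 := by
  by_contra h0
  obtain ⟨hPp, hP5⟩ := (mem_T5 P).1 hP
  have h1 : Ideal.absNorm (P ^ e) ∣ Ideal.absNorm (Ideal.span {x}) :=
    Ideal.absNorm_dvd_absNorm_of_le (by rwa [Ideal.span_singleton_le_iff_mem])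
  rw [map_pow, (h5 P hPp hP5).1] at h1
  have h2 : Ideal.absNorm (Ideal.span {x}) ≠ 0 := by
    rw [Ne, Ideal.absNorm_eq_zero_iff, Ideal.span_singleton_eq_bot]
    exact h0
  have h3 := Nat.le_of_dvd (Nat.pos_of_ne_zero h2) h1
  have h4 := norm_bound x B hB
  have h5 : ((5 : ℝ)) ^ e ≤ ((Ideal.absNorm (Ideal.span {x}) : ℕ) : ℝ) := by exact_mod_cast h3
  linarith

end NF

end SetsAux

end Crest.Agent.HB
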